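import Vale.Agent.P142.AreaIneq

open Complex MeasureTheory Metric Set Filter Topology intervalIntegral
open scoped Real ComplexConjugate ENNReal

namespace Vale.Agent.P142

noncomputable section

variable {F : ℂ → ℂ}

/-- The integrand of the boundary form of the spherical area. -/
def Hd (F : ℂ → ℂ) (d : ℝ) (z : ℂ) : ℂ :=
  z * deriv F z * conj (F z) * (F z * conj (F z) + (d : ℂ) ^ 2)⁻¹

/-- The area density. -/
def Gd (F : ℂ → ℂ) (d : ℝ) (z : ℂ) : ℝ := ‖deriv F z‖ ^ 2 * psi d (F z)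

lemma denom_eq (F : ℂ → ℂ) (d : ℝ) (z : ℂ) :
    F z * conj (F z) + (d : ℂ) ^ 2 = ((‖F z‖ ^ 2 + d ^ 2 : ℝ) : ℂ) := by
  rw [mul_conj, normSq_eq_norm_sq]
  push_cast
  ring

lemma denom_ne (F : ℂ → ℂ) {d : ℝ} (hd : 0 < d) (z : ℂ) :
    F z * conj (F z) + (d : ℂ) ^ 2 ≠ 0 := by
  rw [denom_eq]
  have : 0 < ‖F z‖ ^ 2 + d ^ 2 := by positivity
  exact_mod_cast this.ne'

lemma differentiableOn_deriv (hF : DifferentiableOn ℂ F (ball 0 1)) :
    DifferentiableOn ℂ (deriv F) (ball 0 1) := hF.deriv isOpen_ball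

lemma Hd_hasW (hF : DifferentiableOn ℂ F (ball 0 1)) {d : ℝ} (hd : 0 < d) {z : ℂ}
    (hz : z ∈ ball (0 : ℂ) 1) :
    HasW (Hd F d)
      ((1 * deriv F z + z * deriv (deriv F) z) * conj (F z) *
        (F z * conj (F z) + (d : ℂ) ^ 2)⁻¹ +
        z * deriv F z * conj (F z) *
          (-(deriv F z * conj (F z)) / (F z * conj (F z) + (d : ℂ) ^ 2) ^ 2))
      (z * deriv F z * conj (deriv F z) * (d : ℂ) ^ 2 / (F z * conj (F z) + (d : ℂ) ^ 2) ^ 2) z := by
  have hnhds := isOpen_ball.mem_nhds hz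
  have h1 : HasDerivAt F (deriv F z) z := (hF.differentiableAt hnhds).hasDerivAt
  have h2 : HasDerivAt (deriv F) (deriv (deriv F) z) z :=
    ((differentiableOn_deriv hF).differentiableAt hnhds).hasDerivAt
  have hA : HasW (fun z => z * deriv F z) (1 * deriv F z + z * deriv (deriv F) z) 0 z :=
    HasW.of_hasDerivAt ((hasDerivAt_id z).mul h2)
  have hW : HasW F (deriv F z) 0 z := HasW.of_hasDerivAt h1
  have hB := hW.conj
  have hD : HasW (fun z => F z * conj (F z) + (d : ℂ) ^ 2) (deriv F z * conj (F z))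
      (F z * conj (deriv F z)) z :=
    ((hW.mul hB).add (HasW.const ((d : ℂ) ^ 2) z)).congr_coeff (by simp) (by simp)
  have hDi := hD.inv (denom_ne F hd z)
  have hfin := (hA.mul hB).mul hDi
  have hne := denom_ne F hd z
  refine hfin.congr_coeff ?_ ?_
  · simp
  · simp only [zero_mul, zero_add]
    field_simp
    ring

lemma continuousOn_Gd (hF : DifferentiableOn ℂ F (ball 0 1)) {d : ℝ} (hd : 0 < d) :
    ContinuousOn (Gd F d) (ball 0 1) := by
  have h1 := hF.continuousOn
  have h2 := (differentiableOn_deriv hF).continuousOn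
  unfold Gd
  exact (h2.norm.pow 2).mul ((continuous_psi hd).comp_continuousOn h1)

lemma continuousOn_Hd (hF : DifferentiableOn ℂ F (ball 0 1)) {d : ℝ} (hd : 0 < d) :
    ContinuousOn (Hd F d) (ball 0 1) := fun _ hz =>
  (Hd_hasW hF hd hz).continuousAt.continuousWithinAt

lemma green_deriv (hF : DifferentiableOn ℂ F (ball 0 1)) {d : ℝ} (hd : 0 < d) {s : ℝ}
    (hs0 : 0 < s) (hs1 : s < 1) :
    HasDerivAt (fun s : ℝ => ∫ θ in (-π)..π, Hd F d (circleMap 0 s θ))
      (((2 * s) * ∫ θ in (-π)..π, Gd F d (circleMap 0 s θ) : ℝ) : ℂ) s := by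
  have h1 := hF.continuousOn
  have h2 := (differentiableOn_deriv hF).continuousOn
  have h3 := (differentiableOn_deriv (differentiableOn_deriv hF)).continuousOn
  have hc1 : ContinuousOn (fun z => conj (F z)) (ball 0 1) :=
    Complex.continuous_conj.comp_continuousOn h1
  have hc2 : ContinuousOn (fun z => conj (deriv F z)) (ball 0 1) :=
    Complex.continuous_conj.comp_continuousOn h2
  have hD : ContinuousOn (fun z => F z * conj (F z) + (d : ℂ) ^ 2) (ball 0 1) :=
    (h1.mul hc1).add continuousOn_const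
  have hDi : ContinuousOn (fun z => (F z * conj (F z) + (d : ℂ) ^ 2)⁻¹) (ball 0 1) :=
    hD.inv₀ (fun z _ => denom_ne F hd z)
  have key := (circle_integral_wirt (fun z hz => Hd_hasW hF hd hz) ?_ ?_ hs0 hs1).1
  · refine key.congr_deriv ?_
    have e : ∀ θ : ℝ, (circleMap 0 s θ * deriv F (circleMap 0 s θ) *
        conj (deriv F (circleMap 0 s θ)) * (d : ℂ) ^ 2 /
        (F (circleMap 0 s θ) * conj (F (circleMap 0 s θ)) + (d : ℂ) ^ 2) ^ 2) *
        conj (circleMap 0 s θ) = ((s ^ 2 * Gd F d (circleMap 0 s θ) : ℝ) : ℂ) := by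
      intro θ
      have e1 : circleMap 0 s θ * conj (circleMap 0 s θ) = ((s ^ 2 : ℝ) : ℂ) := by
        rw [mul_conj, normSq_eq_norm_sq, norm_circleMap_zero, sq_abs]
      have e2 : deriv F (circleMap 0 s θ) * conj (deriv F (circleMap 0 s θ)) =
          ((‖deriv F (circleMap 0 s θ)‖ ^ 2 : ℝ) : ℂ) := by
        rw [mul_conj, normSq_eq_norm_sq]
      rw [denom_eq]
      unfold Gd psi
      calc _ = (circleMap 0 s θ * conj (circleMap 0 s θ)) *
            (deriv F (circleMap 0 s θ) * conj (deriv F (circleMap 0 s θ))) *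
            ((d : ℂ) ^ 2 / (((‖F (circleMap 0 s θ)‖ ^ 2 + d ^ 2 : ℝ) : ℂ)) ^ 2) := by ring
        _ = _ := by rw [e1, e2]; push_cast; ring
    simp only [e]
    rw [intervalIntegral.integral_ofReal, intervalIntegral.integral_const_mul]
    push_cast
    have hs : (s : ℂ) ≠ 0 := by exact_mod_cast hs0.ne'
    field_simp
  · have e := (((((continuousOn_const (c := (1 : ℂ))).mul h2).add
        (continuousOn_id.mul h3)).mul hc1).mul hDi).add
      (((continuousOn_id.mul h2).mul hc1).mul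
        ((h2.mul hc1).neg.div (hD.pow 2) (fun z _ => pow_ne_zero 2 (denom_ne F hd z))))
    exact e
  · exact (((continuousOn_id.mul h2).mul hc2).mul continuousOn_const).div (hD.pow 2)
      (fun z _ => pow_ne_zero 2 (denom_ne F hd z))

/-- The area density integrated in polar coordinates is at most `π`. -/
lemma polar_area_le (hF : DifferentiableOn ℂ F (ball 0 1)) (hinj : InjOn F (ball 0 1))
    {d : ℝ} (hd : 0 < d) {e ρ : ℝ} (he : 0 < e) (heρ : e ≤ ρ) (hρ : ρ < 1) :
    ∫ s in e..ρ, s * ∫ θ in (-π)..π, Gd F d (circleMap 0 s θ) ≤ π := by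
  have hG0 : ∀ z, 0 ≤ Gd F d z := fun z => by
    unfold Gd; exact mul_nonneg (by positivity) (psi_nonneg _ _)
  have hpi : (-π) ≤ π := by linarith [Real.pi_pos]
  have harea := area_ineq hF hinj hd (le_refl (1 : ℝ))
  -- continuity of the polar integrand
  have hcont : ContinuousOn (fun p : ℝ × ℝ => p.1 * Gd F d (circleMap 0 p.1 p.2))
      (Icc e ρ ×ˢ Icc (-π) π) := by
    apply continuousOn_fst.mul
    exact (continuousOn_Gd hF hd).comp continuous_circleMap_uncurry.continuousOn
      (fun p hp => circleMap_mem_unit (by linarith [hp.1.1]) (by linarith [hp.1.2]) _)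
  have hintOn : IntegrableOn (fun p : ℝ × ℝ => p.1 * Gd F d (circleMap 0 p.1 p.2))
      (Icc e ρ ×ˢ Icc (-π) π) (volume.prod volume) :=
    hcont.integrableOn_compact (isCompact_Icc.prod isCompact_Icc)
  have hintOn' : IntegrableOn (fun p : ℝ × ℝ => p.1 * Gd F d (circleMap 0 p.1 p.2))
      (Ioo e ρ ×ˢ Ioo (-π) π) (volume.prod volume) :=
    hintOn.mono_set (prod_mono Ioo_subset_Icc_self Ioo_subset_Icc_self)
  have e1 : ∫ s in e..ρ, s * ∫ θ in (-π)..π, Gd F d (circleMap 0 s θ) =
      ∫ p in Ioo e ρ ×ˢ Ioo (-π) π, p.1 * Gd F d (circleMap 0 p.1 p.2) ∂(volume.prod volume) := by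
    rw [setIntegral_prod _ hintOn', intervalIntegral.integral_of_le heρ,
      integral_Ioc_eq_integral_Ioo]
    apply setIntegral_congr_fun measurableSet_Ioo
    intro s _
    simp only
    rw [intervalIntegral.integral_of_le hpi, integral_Ioc_eq_integral_Ioo, MeasureTheory.integral_const_mul]
  rw [e1]
  have hnn : ∀ p ∈ Ioo e ρ ×ˢ Ioo (-π) π, 0 ≤ p.1 * Gd F d (circleMap 0 p.1 p.2) := by
    intro p hp
    exact mul_nonneg (by linarith [hp.1.1]) (hG0 _)
  rw [integral_eq_lintegral_of_nonneg_ae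
    ((ae_restrict_iff' (measurableSet_Ioo.prod measurableSet_Ioo)).mpr (Eventually.of_forall hnn))
    hintOn'.aestronglyMeasurable]
  apply ENNReal.toReal_le_of_le_ofReal Real.pi_pos.le
  refine le_trans ?_ harea
  rw [← lintegral_indicator measurableSet_ball, ← Complex.lintegral_comp_polarCoord_symm]
  have e2 : polarCoord.target = Ioi (0 : ℝ) ×ˢ Ioo (-π) π := rfl
  have hsub : Ioo e ρ ×ˢ Ioo (-π) π ⊆ polarCoord.target := by
    rw [e2]
    exact prod_mono (fun x hx => lt_trans he hx.1) (subset_refl _)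
  refine le_trans ?_ (lintegral_mono_set hsub)
  rw [← Measure.volume_eq_prod]
  apply le_of_eq
  apply setLIntegral_congr_fun (measurableSet_Ioo.prod measurableSet_Ioo)
  intro p hp
  have hp0 : 0 < p.1 := lt_trans he hp.1.1
  have hp1 : p.1 < 1 := lt_trans hp.1.2 hρ
  have e3 : Complex.polarCoord.symm p = circleMap 0 p.1 p.2 := by
    rw [Complex.polarCoord_symm_apply, circleMap_zero, Complex.exp_mul_I]
    push_cast
    ring
  simp only
  rw [e3, indicator_of_mem (circleMap_mem_unit hp0.le hp1 _), smul_eq_mul,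
    ← ENNReal.ofReal_mul hp0.le]
  rfl

/-- The boundary form of the spherical area is at most `2π`. -/
lemma green_ineq (hF : DifferentiableOn ℂ F (ball 0 1)) (hinj : InjOn F (ball 0 1))
    {d : ℝ} (hd : 0 < d) {ρ : ℝ} (hρ0 : 0 < ρ) (hρ : ρ < 1) :
    (∫ θ in (-π)..π, Hd F d (circleMap 0 ρ θ)).re ≤ 2 * π := by
  set N : ℝ → ℂ := fun s => ∫ θ in (-π)..π, Hd F d (circleMap 0 s θ) with hN
  have hpi : (-π) ≤ π := by linarith [Real.pi_pos]
  have hstep : ∀ e : ℝ, 0 < e → e ≤ ρ → (N ρ).re ≤ 2 * π + (N e).re := by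
    intro e he heρ
    have hder : ∀ s ∈ uIcc e ρ, HasDerivAt (fun s => (N s).re)
        ((2 * s) * ∫ θ in (-π)..π, Gd F d (circleMap 0 s θ)) s := by
      intro s hs
      rw [uIcc_of_le heρ] at hs
      have h := green_deriv hF hd (lt_of_lt_of_le he hs.1) (lt_of_le_of_lt hs.2 hρ)
      have h2 := Complex.reCLM.hasFDerivAt.comp_hasDerivAt s h
      exact h2.congr_deriv (by simp)
    have hcont : ContinuousOn (fun s : ℝ => (2 * s) * ∫ θ in (-π)..π, Gd F d (circleMap 0 s θ))
        (uIcc e ρ) := by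
      rw [uIcc_of_le heρ]
      apply ContinuousOn.mul (by fun_prop)
      exact (continuousOn_circle_integral (continuousOn_Gd hF hd)).mono
        (fun x hx => ⟨by linarith [hx.1], lt_of_le_of_lt hx.2 hρ⟩)
    have h := intervalIntegral.integral_eq_sub_of_hasDerivAt hder hcont.intervalIntegrable
    have h2 := polar_area_le hF hinj hd he heρ hρ
    have h3 : ∫ s in e..ρ, (2 * s) * ∫ θ in (-π)..π, Gd F d (circleMap 0 s θ) =
        2 * ∫ s in e..ρ, s * ∫ θ in (-π)..π, Gd F d (circleMap 0 s θ) := by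
      rw [← intervalIntegral.integral_const_mul]
      congr 1; ext s; ring
    rw [h3] at h
    linarith
  have hN0 : N 0 = 0 := by
    simp [hN, Hd]
  have hNc : ContinuousOn N (Ioo (-1) 1) := continuousOn_circle_integral (continuousOn_Hd hF hd)
  have hlim : Tendsto (fun e : ℝ => 2 * π + (N e).re) (𝓝[>] 0) (𝓝 (2 * π + (N 0).re)) := by
    have h1 : ContinuousAt N 0 := hNc.continuousAt (Ioo_mem_nhds (by norm_num) (by norm_num))
    have h2 : ContinuousAt (fun e : ℝ => 2 * π + (N e).re) 0 :=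
      (continuousAt_const.add (Complex.continuous_re.continuousAt.comp h1))
    exact h2.tendsto.mono_left nhdsWithin_le_nhds
  rw [hN0, zero_re, add_zero] at hlim
  refine ge_of_tendsto hlim ?_
  filter_upwards [Ioo_mem_nhdsGT hρ0] with e he
  exact hstep e he.1 he.2.le

end

end Vale.Agent.P142
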