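import Vale.Agent.P142.CircleCalc

open Complex MeasureTheory Metric Set Filter Topology intervalIntegral
open scoped Real ComplexConjugate ENNReal

namespace Vale.Agent.P142

noncomputable section

/-- Spherical area density at scale `d`. -/
def psi (d : ℝ) (w : ℂ) : ℝ := d ^ 2 / (‖w‖ ^ 2 + d ^ 2) ^ 2

lemma psi_nonneg (d : ℝ) (w : ℂ) : 0 ≤ psi d w := by unfold psi; positivity

lemma continuous_psi {d : ℝ} (hd : 0 < d) : Continuous (psi d) := by
  unfold psi
  apply Continuous.div (by fun_prop) (by fun_prop)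
  intro x
  positivity

lemma abs_det_holo (a : ℂ) :
    |((ContinuousLinearMap.toSpanSingleton ℂ a).restrictScalars ℝ).det| = ‖a‖ ^ 2 := by
  simp [ContinuousLinearMap.det, LinearMap.det_restrictScalars,
      Algebra.norm_complex_eq, Complex.normSq_eq_norm_sq]

lemma lintegral_psi_le {d : ℝ} (hd : 0 < d) :
    ∫⁻ w : ℂ, ENNReal.ofReal (psi d w) ≤ ENNReal.ofReal π := by
  rw [← Complex.lintegral_comp_polarCoord_symm]
  have hm : Measurable fun p : ℝ × ℝ => ENNReal.ofReal (p.1 * (d ^ 2 / (p.1 ^ 2 + d ^ 2) ^ 2)) := by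
    fun_prop
  have e1 : ∀ p ∈ polarCoord.target,
      ENNReal.ofReal p.1 • ENNReal.ofReal (psi d (Complex.polarCoord.symm p)) =
      ENNReal.ofReal (p.1 * (d ^ 2 / (p.1 ^ 2 + d ^ 2) ^ 2)) := by
    intro p hp
    have hp1 : 0 < p.1 := by
      have := hp.1
      simpa using this
    rw [smul_eq_mul, ← ENNReal.ofReal_mul hp1.le]
    unfold psi
    rw [norm_polarCoord_symm, abs_of_pos hp1]
  rw [setLIntegral_congr_fun polarCoord.open_target.measurableSet e1]
  have e2 : polarCoord.target = Ioi (0 : ℝ) ×ˢ Ioo (-π) π := rfl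
  rw [e2, Measure.volume_eq_prod, setLIntegral_prod _ (hm.aemeasurable)]
  simp only [lintegral_const, Measure.restrict_apply, MeasurableSet.univ, univ_inter,
    Real.volume_Ioo]
  rw [lintegral_mul_const _ (by fun_prop)]
  have hder : ∀ x ∈ Ici (0 : ℝ), HasDerivAt (fun x : ℝ => -(d ^ 2 / 2) / (x ^ 2 + d ^ 2))
      (x * (d ^ 2 / (x ^ 2 + d ^ 2) ^ 2)) x := by
    intro x _
    have hne : x ^ 2 + d ^ 2 ≠ 0 := by positivity
    have h1 : HasDerivAt (fun x : ℝ => x ^ 2 + d ^ 2) (2 * x) x := by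
      simpa using (hasDerivAt_pow 2 x).add_const (d ^ 2)
    have h2 := (hasDerivAt_const x (-(d ^ 2 / 2))).div h1 hne
    refine h2.congr_deriv ?_
    field_simp
    ring
  have hlim : Tendsto (fun x : ℝ => -(d ^ 2 / 2) / (x ^ 2 + d ^ 2)) atTop (𝓝 0) := by
    apply Tendsto.const_div_atTop
    exact tendsto_atTop_add_const_right _ _ (tendsto_pow_atTop (by norm_num))
  have hpos : ∀ x ∈ Ioi (0 : ℝ), 0 ≤ x * (d ^ 2 / (x ^ 2 + d ^ 2) ^ 2) := by
    intro x hx
    have : (0 : ℝ) < x := hx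
    positivity
  have hint := integral_Ioi_of_hasDerivAt_of_nonneg' hder hpos hlim
  have hintb := integrableOn_Ioi_deriv_of_nonneg' hder hpos hlim
  rw [← ofReal_integral_eq_lintegral_ofReal hintb
    ((ae_restrict_iff' measurableSet_Ioi).mpr (Eventually.of_forall hpos)), hint,
    ← ENNReal.ofReal_mul']
  · apply ENNReal.ofReal_le_ofReal
    apply le_of_eq
    have : d ≠ 0 := hd.ne'
    field_simp
    ring
  · linarith [Real.pi_pos]

variable {F : ℂ → ℂ}

lemma area_ineq (hF : DifferentiableOn ℂ F (ball 0 1)) (hinj : InjOn F (ball 0 1))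
    {d : ℝ} (hd : 0 < d) {ρ : ℝ} (hρ : ρ ≤ 1) :
    ∫⁻ z in ball (0 : ℂ) ρ, ENNReal.ofReal (‖deriv F z‖ ^ 2 * psi d (F z)) ≤
      ENNReal.ofReal π := by
  have hsub : ball (0 : ℂ) ρ ⊆ ball 0 1 := ball_subset_ball hρ
  have h1 := lintegral_image_eq_lintegral_abs_det_fderiv_mul volume (s := ball (0 : ℂ) ρ)
    (f := F) (f' := fun z => (ContinuousLinearMap.toSpanSingleton ℂ (deriv F z)).restrictScalars ℝ)
    measurableSet_ball (fun z hz =>
      (((hF.differentiableAt (isOpen_ball.mem_nhds (hsub hz))).hasDerivAt.hasFDerivAt).restrictScalars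
        ℝ).hasFDerivWithinAt) (hinj.mono hsub) (fun w => ENNReal.ofReal (psi d w))
  simp only [abs_det_holo] at h1
  calc ∫⁻ z in ball (0 : ℂ) ρ, ENNReal.ofReal (‖deriv F z‖ ^ 2 * psi d (F z))
      = ∫⁻ z in ball (0 : ℂ) ρ, ENNReal.ofReal (‖deriv F z‖ ^ 2) * ENNReal.ofReal (psi d (F z)) := by
        congr 1; ext z; rw [ENNReal.ofReal_mul (by positivity)]
    _ = ∫⁻ w in F '' ball (0 : ℂ) ρ, ENNReal.ofReal (psi d w) := h1.symm
    _ ≤ ∫⁻ w : ℂ, ENNReal.ofReal (psi d w) := setLIntegral_le_lintegral _ _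
    _ ≤ ENNReal.ofReal π := lintegral_psi_le hd

end

end Vale.Agent.P142
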