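import Vale.Agent.P142.Jets

open Complex MeasureTheory Metric Set Filter Topology intervalIntegral
open scoped Real ComplexConjugate Nat

namespace Vale.Agent.P142

noncomputable section

lemma hasSum_of_eq {f g : ℕ → ℂ} {a : ℂ} (h : ∀ n, f n = g n) (hf : HasSum f a) :
    HasSum g a := by
  have : f = g := funext h
  rwa [← this]

lemma hasSum_tc {U : ℂ → ℂ} (hU : DifferentiableOn ℂ U (ball 0 1)) {z : ℂ}
    (hz : z ∈ ball (0 : ℂ) 1) : HasSum (fun n => tc U n * z ^ n) (U z) := by
  refine hasSum_of_eq (fun n => ?_) (Complex.hasSum_taylorSeries_on_ball hU hz)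
  simp only [tc, smul_eq_mul, sub_zero]
  ring

lemma summable_norm_tc {U : ℂ → ℂ} (hU : DifferentiableOn ℂ U (ball 0 1)) {s : ℝ}
    (hs0 : 0 ≤ s) (hs1 : s < 1) : Summable (fun n => ‖tc U n‖ * s ^ n) := by
  have hz : (s : ℂ) ∈ ball (0 : ℂ) 1 := by
    rw [mem_ball_zero_iff, Complex.norm_real, Real.norm_eq_abs, abs_of_nonneg hs0]
    exact hs1
  refine (hasSum_tc hU hz).summable.norm.congr fun n => ?_
  rw [norm_mul, norm_pow, Complex.norm_real, Real.norm_eq_abs, abs_of_nonneg hs0]

lemma tc_deriv (U : ℂ → ℂ) (n : ℕ) : tc (deriv U) n = (n + 1 : ℂ) * tc U (n + 1) := by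
  unfold tc
  rw [← iteratedDeriv_succ', Nat.factorial_succ]
  have h1 : ((n : ℂ) + 1) ≠ 0 := by exact_mod_cast Nat.succ_ne_zero n
  have h2 : (n ! : ℂ) ≠ 0 := by exact_mod_cast Nat.factorial_ne_zero n
  push_cast
  field_simp

lemma hasSum_tc_mul_deriv {U : ℂ → ℂ} (hU : DifferentiableOn ℂ U (ball 0 1)) {z : ℂ}
    (hz : z ∈ ball (0 : ℂ) 1) : HasSum (fun n : ℕ => ((n : ℂ) * tc U n) * z ^ n) (z * deriv U z) := by
  have h := (hasSum_tc (hU.deriv isOpen_ball) hz).mul_left z
  have h2 := (hasSum_nat_add_iff (f := fun n : ℕ => ((n : ℂ) * tc U n) * z ^ n) 1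
    (g := z * deriv U z)).mp (hasSum_of_eq (fun n => ?_) h)
  · simpa using h2
  · rw [tc_deriv]
    push_cast
    ring

lemma orth (s : ℝ) (j k : ℕ) :
    ∫ θ in (-π)..π, circleMap 0 s θ ^ j * conj (circleMap 0 s θ) ^ k =
      if j = k then 2 * π * (s : ℂ) ^ (2 * k) else 0 := by
  have e : ∀ θ : ℝ, circleMap 0 s θ ^ j * conj (circleMap 0 s θ) ^ k =
      (s : ℂ) ^ (j + k) * cexp ((((j : ℂ) - k) * I) * θ) := by
    intro θ
    rw [circleMap_zero, map_mul, conj_ofReal, ← Complex.exp_conj, mul_pow, mul_pow,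
      ← Complex.exp_nat_mul, ← Complex.exp_nat_mul, map_mul, conj_ofReal, conj_I]
    have : cexp ((((j : ℂ) - k) * I) * θ) =
        cexp (↑j * (↑θ * I)) * cexp (↑k * (↑θ * -I)) := by
      rw [← Complex.exp_add]; congr 1; ring
    rw [this]; ring
  simp only [e, intervalIntegral.integral_const_mul]
  split_ifs with h
  · subst h
    simp
    ring
  · have hne : ((j : ℂ) - k) * I ≠ 0 := by
      apply mul_ne_zero _ I_ne_zero
      rw [sub_ne_zero]
      exact_mod_cast h
    rw [integral_exp_mul_complex hne]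
    have hexp : cexp (((j : ℂ) - k) * I * (π : ℝ)) = cexp (((j : ℂ) - k) * I * ((-π : ℝ) : ℂ)) := by
      rw [Complex.exp_eq_exp_iff_exists_int]
      refine ⟨(j : ℤ) - k, ?_⟩
      push_cast
      ring
    rw [hexp, sub_self, zero_div, mul_zero]

/-- Parseval identity on circles for functions given by power series. -/
lemma parseval {U W : ℂ → ℂ} {a b : ℕ → ℂ} {s : ℝ} (hs0 : 0 ≤ s) (hs1 : s < 1)
    (hUc : ContinuousOn U (ball 0 1))
    (hU : ∀ z ∈ ball (0 : ℂ) 1, HasSum (fun n => a n * z ^ n) (U z))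
    (hW : ∀ z ∈ ball (0 : ℂ) 1, HasSum (fun n => b n * z ^ n) (W z)) :
    HasSum (fun n => 2 * π * (a n * conj (b n) * (s : ℂ) ^ (2 * n)))
      (∫ θ in (-π)..π, U (circleMap 0 s θ) * conj (W (circleMap 0 s θ))) := by
  have hmem := fun θ : ℝ => circleMap_mem_unit hs0 hs1 θ
  have hzs : (s : ℂ) ∈ ball (0 : ℂ) 1 := by
    rw [mem_ball_zero_iff, Complex.norm_real, Real.norm_eq_abs, abs_of_nonneg hs0]
    exact hs1
  have nz : ∀ θ, ‖circleMap 0 s θ‖ = s := fun θ => by rw [norm_circleMap_zero, abs_of_nonneg hs0]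
  have sa : Summable (fun n => ‖a n‖ * s ^ n) := by
    refine (hU _ hzs).summable.norm.congr fun n => ?_
    rw [norm_mul, norm_pow, Complex.norm_real, Real.norm_eq_abs, abs_of_nonneg hs0]
  have sb : Summable (fun n => ‖b n‖ * s ^ n) := by
    refine (hW _ hzs).summable.norm.congr fun n => ?_
    rw [norm_mul, norm_pow, Complex.norm_real, Real.norm_eq_abs, abs_of_nonneg hs0]
  have hUcont : Continuous (fun θ : ℝ => U (circleMap 0 s θ)) :=
    hUc.comp_continuous (continuous_circleMap 0 s) hmem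
  obtain ⟨C, hC⟩ := (isCompact_Icc (a := -π) (b := π)).exists_bound_of_continuousOn
    hUcont.continuousOn
  have hpi : (-π) ≤ π := by linarith [Real.pi_pos]
  have hC0 : 0 ≤ C := le_trans (norm_nonneg _) (hC 0 ⟨by linarith [Real.pi_pos], Real.pi_pos.le⟩)
  -- inner expansion
  have inner : ∀ k : ℕ, ∫ θ in (-π)..π, U (circleMap 0 s θ) * conj (circleMap 0 s θ) ^ k =
      2 * π * (a k * (s : ℂ) ^ (2 * k)) := by
    intro k
    have h := intervalIntegral.hasSum_integral_of_dominated_convergence
      (μ := volume) (a := -π) (b := π)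
      (F := fun j θ => (a j * circleMap 0 s θ ^ j) * conj (circleMap 0 s θ) ^ k)
      (f := fun θ => U (circleMap 0 s θ) * conj (circleMap 0 s θ) ^ k)
      (bound := fun j _ => (‖a j‖ * s ^ j) * s ^ k) ?_ ?_ ?_ ?_ ?_
    · have h2 : ∀ j, ∫ θ in (-π)..π, (a j * circleMap 0 s θ ^ j) * conj (circleMap 0 s θ) ^ k =
          a j * (if j = k then 2 * π * (s : ℂ) ^ (2 * k) else 0) := by
        intro j
        rw [← orth s j k, ← intervalIntegral.integral_const_mul]
        congr 1; ext θ; ring
      simp only [h2] at h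
      have h3 : HasSum (fun j => a j * (if j = k then 2 * π * (s : ℂ) ^ (2 * k) else 0))
          (a k * (if k = k then 2 * π * (s : ℂ) ^ (2 * k) else 0)) := by
        apply hasSum_single
        intro j hj
        simp [hj]
      rw [h.unique h3]
      simp
      ring
    · intro j
      apply Continuous.aestronglyMeasurable
      have := continuous_circleMap 0 s
      fun_prop
    · intro j
      refine Eventually.of_forall fun θ _ => ?_
      simp only [norm_mul, norm_pow, RCLike.norm_conj, nz]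
      exact le_refl _
    · refine Eventually.of_forall fun θ _ => sa.mul_right _
    · exact intervalIntegrable_const
    · refine Eventually.of_forall fun θ _ => ?_
      exact (hU _ (hmem θ)).mul_right _
  have h := intervalIntegral.hasSum_integral_of_dominated_convergence
      (μ := volume) (a := -π) (b := π)
      (F := fun k θ => conj (b k) * (U (circleMap 0 s θ) * conj (circleMap 0 s θ) ^ k))
      (f := fun θ => U (circleMap 0 s θ) * conj (W (circleMap 0 s θ)))
      (bound := fun k _ => (‖b k‖ * s ^ k) * C) ?_ ?_ ?_ ?_ ?_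
  · refine hasSum_of_eq (fun k => ?_) h
    rw [intervalIntegral.integral_const_mul, inner k]
    ring
  · intro k
    apply Continuous.aestronglyMeasurable
    exact continuous_const.mul (hUcont.mul ((Complex.continuous_conj.comp
      (continuous_circleMap 0 s)).pow k))
  · intro k
    refine Eventually.of_forall fun θ hθ => ?_
    rw [uIoc_of_le hpi] at hθ
    simp only [norm_mul, norm_pow, RCLike.norm_conj, nz]
    have := hC θ (Ioc_subset_Icc_self hθ)
    calc ‖b k‖ * (‖U (circleMap 0 s θ)‖ * s ^ k) = (‖b k‖ * s ^ k) * ‖U (circleMap 0 s θ)‖ := by ring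
      _ ≤ (‖b k‖ * s ^ k) * C := by gcongr
  · refine Eventually.of_forall fun θ _ => sb.mul_right _
  · exact intervalIntegrable_const
  · refine Eventually.of_forall fun θ _ => ?_
    have h2 := Complex.hasSum_conj'.mpr (hW _ (hmem θ))
    have h3 := h2.mul_left (U (circleMap 0 s θ))
    refine hasSum_of_eq (fun n => ?_) h3
    rw [map_mul, map_pow]
    ring

end

end Vale.Agent.P142
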