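import Vale.Agent.P142.AreaGreen
import Vale.Agent.P142.Parseval

open Complex MeasureTheory Metric Set Filter Topology intervalIntegral
open scoped Real ComplexConjugate Nat

namespace Vale.Agent.P142

noncomputable section

variable {F : ℂ → ℂ}

lemma dslope_diff (hF : DifferentiableOn ℂ F (ball 0 1)) :
    DifferentiableOn ℂ (dslope F 0) (ball 0 1) :=
  (Complex.differentiableOn_dslope (isOpen_ball.mem_nhds (mem_ball_self one_pos))).mpr hF

lemma F_eq_mul_dslope (h0 : F 0 = 0) (z : ℂ) : F z = z * dslope F 0 z := by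
  have h := sub_smul_dslope F 0 z
  simp [h0] at h
  exact h.symm

lemma dslope_ne (hinj : InjOn F (ball 0 1)) (h0 : F 0 = 0) (h1 : deriv F 0 = 1) {z : ℂ}
    (hz : z ∈ ball (0 : ℂ) 1) : dslope F 0 z ≠ 0 := by
  by_cases hz0 : z = 0
  · rw [hz0, dslope_same, h1]; exact one_ne_zero
  · intro h
    have : F z = F 0 := by rw [F_eq_mul_dslope h0 z, h, mul_zero, h0]
    exact hz0 (hinj hz (mem_ball_self one_pos) this)

/-- `R z = z / F z`. -/
def Rfun (F : ℂ → ℂ) (z : ℂ) : ℂ := (dslope F 0 z)⁻¹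

lemma Rfun_diff (hF : DifferentiableOn ℂ F (ball 0 1)) (hinj : InjOn F (ball 0 1))
    (h0 : F 0 = 0) (h1 : deriv F 0 = 1) : DifferentiableOn ℂ (Rfun F) (ball 0 1) := by
  unfold Rfun
  exact (dslope_diff hF).fun_inv (fun z hz => dslope_ne hinj h0 h1 hz)

lemma Rfun_ne (hinj : InjOn F (ball 0 1)) (h0 : F 0 = 0) (h1 : deriv F 0 = 1) {z : ℂ}
    (hz : z ∈ ball (0 : ℂ) 1) : Rfun F z ≠ 0 := inv_ne_zero (dslope_ne hinj h0 h1 hz)

lemma F_eq_div (h0 : F 0 = 0) (z : ℂ) : F z = z * (Rfun F z)⁻¹ := by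
  rw [F_eq_mul_dslope h0 z, Rfun, inv_inv]

/-- Mean value property on circles about the origin. -/
lemma mean_value {J : ℂ → ℂ} (hJ : DifferentiableOn ℂ J (ball 0 1)) {s : ℝ} (hs0 : 0 ≤ s)
    (hs1 : s < 1) : ∫ θ in (-π)..π, J (circleMap 0 s θ) = 2 * π * J 0 := by
  have h := parseval (U := J) (W := fun _ => 1) (a := tc J) (b := fun n => if n = 0 then 1 else 0)
    hs0 hs1 hJ.continuousOn (fun z hz => hasSum_tc hJ hz) (fun z _ => by
      have : HasSum (fun n : ℕ => (if n = 0 then (1 : ℂ) else 0) * z ^ n)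
          ((if (0 : ℕ) = 0 then (1 : ℂ) else 0) * z ^ 0) := by
        apply hasSum_single
        intro n hn
        simp [hn]
      simpa using this)
  have h2 : HasSum (fun n : ℕ => 2 * π * (tc J n * conj (if n = 0 then (1 : ℂ) else 0) *
      (s : ℂ) ^ (2 * n))) (2 * π * (tc J 0 * conj (if (0 : ℕ) = 0 then (1 : ℂ) else 0) *
      (s : ℂ) ^ (2 * 0))) := by
    apply hasSum_single
    intro n hn
    simp [hn]
  have h3 := h.unique h2
  simp only [map_one, mul_one] at h3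
  rw [h3]
  simp [tc]

lemma deriv_F_eq (hF : DifferentiableOn ℂ F (ball 0 1)) (hinj : InjOn F (ball 0 1))
    (h0 : F 0 = 0) (h1 : deriv F 0 = 1) {z : ℂ} (hz : z ∈ ball (0 : ℂ) 1) :
    deriv F z = (Rfun F z)⁻¹ - z * (deriv (Rfun F) z / (Rfun F z) ^ 2) := by
  have hR : HasDerivAt (Rfun F) (deriv (Rfun F) z) z :=
    ((Rfun_diff hF hinj h0 h1).differentiableAt (isOpen_ball.mem_nhds hz)).hasDerivAt
  have hne := Rfun_ne hinj h0 h1 hz
  have h2 : HasDerivAt (fun z => z * (Rfun F z)⁻¹)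
      (1 * (Rfun F z)⁻¹ + z * (-(deriv (Rfun F) z) / (Rfun F z) ^ 2)) z :=
    (hasDerivAt_id z).mul (hR.fun_inv hne)
  have h3 : (fun z => z * (Rfun F z)⁻¹) = F := by
    ext w; exact (F_eq_div h0 w).symm
  rw [h3] at h2
  rw [h2.deriv]
  ring

/-- The key inequality on each circle. -/
lemma circle_ineq (hF : DifferentiableOn ℂ F (ball 0 1)) (hinj : InjOn F (ball 0 1))
    (h0 : F 0 = 0) (h1 : deriv F 0 = 1) {s : ℝ} (hs0 : 0 < s) (hs1 : s < 1) :
    0 ≤ (∫ θ in (-π)..π, (Rfun F (circleMap 0 s θ) -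
      circleMap 0 s θ * deriv (Rfun F) (circleMap 0 s θ)) *
        conj (Rfun F (circleMap 0 s θ))).re := by
  have hRd := Rfun_diff hF hinj h0 h1
  have hRc : ContinuousOn (Rfun F) (ball 0 1) := hRd.continuousOn
  have hR'c : ContinuousOn (deriv (Rfun F)) (ball 0 1) := (hRd.deriv isOpen_ball).continuousOn
  have hmem := fun θ : ℝ => circleMap_mem_unit hs0.le hs1 θ
  have hpi : (-π) ≤ π := by linarith [Real.pi_pos]
  set z : ℝ → ℂ := fun θ => circleMap 0 s θ with hz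
  have hzc : Continuous z := continuous_circleMap 0 s
  have hRz : Continuous (fun θ => Rfun F (z θ)) := hRc.comp_continuous hzc hmem
  have hR'z : Continuous (fun θ => deriv (Rfun F) (z θ)) := hR'c.comp_continuous hzc hmem
  have hne : ∀ θ, Rfun F (z θ) ≠ 0 := fun θ => Rfun_ne hinj h0 h1 (hmem θ)
  -- J = 1 - z R' / R
  set J : ℂ → ℂ := fun w => 1 - w * (deriv (Rfun F) w / Rfun F w) with hJ
  have hJd : DifferentiableOn ℂ J (ball 0 1) := by
    apply DifferentiableOn.sub (differentiableOn_const _)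
    exact differentiableOn_id.mul ((hRd.deriv isOpen_ball).div hRd
      (fun w hw => Rfun_ne hinj h0 h1 hw))
  have hJint : ∫ θ in (-π)..π, J (z θ) = 2 * π := by
    rw [mean_value hJd hs0.le hs1]
    simp [hJ]
  have hJc : Continuous (fun θ => J (z θ)) := hJd.continuousOn.comp_continuous hzc hmem
  have nz : ∀ θ, ‖z θ‖ = s := fun θ => by rw [hz]; simp only; rw [norm_circleMap_zero, abs_of_pos hs0]
  -- identity for the integrand
  have key : ∀ d : ℝ, 0 < d → ∀ θ, Hd F d (z θ) = J (z θ) *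
      ((1 - d ^ 2 * (‖Rfun F (z θ)‖ ^ 2 / s ^ 2) + d ^ 4 * ((‖Rfun F (z θ)‖ ^ 2 / s ^ 2) ^ 2 /
        (1 + d ^ 2 * (‖Rfun F (z θ)‖ ^ 2 / s ^ 2))) : ℝ) : ℂ) := by
    intro d hd θ
    have e1 : deriv F (z θ) = (Rfun F (z θ))⁻¹ -
        z θ * (deriv (Rfun F) (z θ) / (Rfun F (z θ)) ^ 2) := deriv_F_eq hF hinj h0 h1 (hmem θ)
    have hR0 := hne θ
    have hz0 : z θ ≠ 0 := by
      intro h
      have := nz θ
      rw [h, norm_zero] at this
      exact hs0.ne this
    have hF0 : F (z θ) ≠ 0 := by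
      rw [F_eq_div h0]
      exact mul_ne_zero hz0 (inv_ne_zero hR0)
    have eJ : z θ * deriv F (z θ) = J (z θ) * F (z θ) := by
      rw [F_eq_div h0 (z θ), hJ]
      simp only
      rw [e1]
      field_simp
    unfold Hd
    rw [eJ, denom_eq, mul_assoc (J (z θ)), mul_conj, normSq_eq_norm_sq, mul_assoc]
    congr 1
    have hn : ‖F (z θ)‖ ^ 2 = s ^ 2 / ‖Rfun F (z θ)‖ ^ 2 := by
      rw [F_eq_div h0 (z θ), norm_mul, norm_inv, nz θ]
      field_simp
    have hRn : 0 < ‖Rfun F (z θ)‖ := norm_pos_iff.mpr hR0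
    rw [hn, ← ofReal_inv, ← ofReal_mul]
    congr 1
    have hs2 : s ≠ 0 := hs0.ne'
    have hpos : 0 < s ^ 2 + d ^ 2 * ‖Rfun F (z θ)‖ ^ 2 := by positivity
    field_simp
    ring
  -- abbreviations
  set q : ℝ → ℝ := fun θ => ‖Rfun F (z θ)‖ ^ 2 / s ^ 2 with hq
  have hqc : Continuous q := by
    have := hRz.norm
    simp only [hq]
    fun_prop
  have hq0 : ∀ θ, 0 ≤ q θ := fun θ => by simp only [hq]; positivity
  set A : ℂ := ∫ θ in (-π)..π, J (z θ) * (q θ : ℂ) with hA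
  set E : ℝ → ℂ := fun d => ∫ θ in (-π)..π, J (z θ) * ((q θ ^ 2 / (1 + d ^ 2 * q θ) : ℝ) : ℂ) with hE
  have hdenc : ∀ d : ℝ, Continuous (fun θ => q θ ^ 2 / (1 + d ^ 2 * q θ)) := by
    intro d
    apply Continuous.div (by fun_prop) (by fun_prop)
    intro θ
    have := hq0 θ
    positivity
  have hint : ∀ d : ℝ, 0 < d → ∫ θ in (-π)..π, Hd F d (z θ) =
      2 * π - (d : ℂ) ^ 2 * A + (d : ℂ) ^ 4 * E d := by
    intro d hd
    have e : ∀ θ, Hd F d (z θ) = (J (z θ) - (d : ℂ) ^ 2 * (J (z θ) * (q θ : ℂ))) +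
        (d : ℂ) ^ 4 * (J (z θ) * ((q θ ^ 2 / (1 + d ^ 2 * q θ) : ℝ) : ℂ)) := by
      intro θ
      rw [key d hd θ]
      show J (z θ) * ((1 - d ^ 2 * q θ + d ^ 4 * (q θ ^ 2 / (1 + d ^ 2 * q θ)) : ℝ) : ℂ) = _
      push_cast
      ring
    simp only [e]
    have c1 : Continuous (fun θ => (d : ℂ) ^ 2 * (J (z θ) * (q θ : ℂ))) :=
      continuous_const.mul (hJc.mul (continuous_ofReal.comp hqc))
    have c0 : Continuous (fun θ => J (z θ) - (d : ℂ) ^ 2 * (J (z θ) * (q θ : ℂ))) := hJc.sub c1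
    have c2 : Continuous (fun θ => (d : ℂ) ^ 4 *
        (J (z θ) * ((q θ ^ 2 / (1 + d ^ 2 * q θ) : ℝ) : ℂ))) :=
      continuous_const.mul (hJc.mul (continuous_ofReal.comp (hdenc d)))
    rw [intervalIntegral.integral_add (c0.intervalIntegrable _ _)
      (c2.intervalIntegrable _ _), intervalIntegral.integral_sub (hJc.intervalIntegrable _ _)
      (c1.intervalIntegrable _ _), intervalIntegral.integral_const_mul,
      intervalIntegral.integral_const_mul, hJint]
  -- bound on E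
  obtain ⟨C, hC⟩ := (isCompact_Icc (a := -π) (b := π)).exists_bound_of_continuousOn
    (hJc.mul (continuous_ofReal.comp (hqc.pow 2))).continuousOn
  have hEb : ∀ d : ℝ, ‖E d‖ ≤ C * |π - (-π)| := by
    intro d
    apply intervalIntegral.norm_integral_le_of_norm_le_const
    intro θ hθ
    rw [uIoc_of_le hpi] at hθ
    refine le_trans ?_ (hC θ (Ioc_subset_Icc_self hθ))
    simp only [Function.comp_apply, Pi.mul_apply, Pi.pow_apply, norm_mul, Complex.norm_real]
    have hqq := hq0 θ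
    gcongr
    rw [Real.norm_eq_abs, Real.norm_eq_abs, abs_of_nonneg (by positivity),
      abs_of_nonneg (by positivity)]
    apply div_le_self (by positivity)
    nlinarith [mul_nonneg (sq_nonneg d) hqq]
  -- A.re ≥ - d^2 * C'
  have hAd : ∀ d : ℝ, 0 < d → -(d ^ 2 * (C * |π - (-π)|)) ≤ A.re := by
    intro d hd
    have h2 := green_ineq hF hinj hd hs0 hs1
    rw [show (fun θ => Hd F d (circleMap 0 s θ)) = fun θ => Hd F d (z θ) from rfl] at h2
    rw [hint d hd] at h2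
    have e2 : (2 * π - (d : ℂ) ^ 2 * A + (d : ℂ) ^ 4 * E d).re =
        2 * π - d ^ 2 * A.re + d ^ 4 * (E d).re := by
      rw [← ofReal_pow, ← ofReal_pow, add_re, sub_re, re_ofReal_mul, re_ofReal_mul]
      simp
    rw [e2] at h2
    have h3 : d ^ 2 * (d ^ 2 * (E d).re) ≤ d ^ 2 * A.re := by nlinarith
    have h4 : d ^ 2 * (E d).re ≤ A.re := le_of_mul_le_mul_left h3 (by positivity)
    have h5 : -(C * |π - (-π)|) ≤ (E d).re := by
      have := (abs_le.mp (Complex.abs_re_le_norm (E d))).1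
      linarith [hEb d]
    nlinarith [mul_le_mul_of_nonneg_left h5 (sq_nonneg d)]
  have hA0 : 0 ≤ A.re := by
    have hlim : Tendsto (fun d : ℝ => -(d ^ 2 * (C * |π - (-π)|))) (𝓝[>] 0)
        (𝓝 (-((0 : ℝ) ^ 2 * (C * |π - (-π)|)))) := by
      have : Continuous (fun d : ℝ => -(d ^ 2 * (C * |π - (-π)|))) := by fun_prop
      exact (this.tendsto 0).mono_left nhdsWithin_le_nhds
    simp only [ne_eq, OfNat.ofNat_ne_zero, not_false_eq_true, zero_pow, zero_mul, neg_zero] at hlim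
    refine le_of_tendsto hlim ?_
    filter_upwards [self_mem_nhdsWithin] with d hd
    exact hAd d hd
  have efin : (∫ θ in (-π)..π, (Rfun F (z θ) - z θ * deriv (Rfun F) (z θ)) *
        conj (Rfun F (z θ))) = (s : ℂ) ^ 2 * A := by
    rw [hA, ← intervalIntegral.integral_const_mul]
    congr 1
    ext θ
    have hR0 := hne θ
    have hsn : (s : ℂ) ≠ 0 := by exact_mod_cast hs0.ne'
    have e3 : ((q θ : ℝ) : ℂ) = Rfun F (z θ) * conj (Rfun F (z θ)) / (s : ℂ) ^ 2 := by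
      rw [mul_conj, normSq_eq_norm_sq, hq]
      push_cast
      ring
    rw [e3]
    simp only [hJ]
    field_simp
  rw [efin, ← ofReal_pow, re_ofReal_mul]
  positivity

/-- Gronwall's area theorem. -/
theorem area_theorem (hF : DifferentiableOn ℂ F (ball 0 1)) (hinj : InjOn F (ball 0 1))
    (h0 : F 0 = 0) (h1 : deriv F 0 = 1) (m : ℕ) :
    ∑ k ∈ Finset.range m, ((k : ℝ) + 1) * ‖tc (Rfun F) (k + 2)‖ ^ 2 ≤ 1 := by
  have hRd := Rfun_diff hF hinj h0 h1
  set r : ℕ → ℂ := tc (Rfun F) with hr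
  have hr0 : r 0 = 1 := by
    simp [hr, tc, Rfun, h1]
  -- for each s
  have hstep : ∀ s : ℝ, 0 < s → s < 1 →
      ∑ k ∈ Finset.range m, ((k : ℝ) + 1) * ‖r (k + 2)‖ ^ 2 * s ^ (2 * (k + 2)) ≤ 1 := by
    intro s hs0 hs1
    have hpos := circle_ineq hF hinj h0 h1 hs0 hs1
    have hU : ∀ w ∈ ball (0 : ℂ) 1, HasSum (fun n : ℕ => ((1 - (n : ℂ)) * r n) * w ^ n)
        (Rfun F w - w * deriv (Rfun F) w) := by
      intro w hw
      refine hasSum_of_eq (fun n => ?_) ((hasSum_tc hRd hw).sub (hasSum_tc_mul_deriv hRd hw))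
      rw [hr]; ring
    have hUc : ContinuousOn (fun w => Rfun F w - w * deriv (Rfun F) w) (ball 0 1) :=
      hRd.continuousOn.sub (continuousOn_id.mul (hRd.deriv isOpen_ball).continuousOn)
    have hP := parseval hs0.le hs1 hUc hU (fun w hw => hasSum_tc hRd hw)
    have hS : HasSum (fun n : ℕ => 2 * π * ((1 - (n : ℝ)) * ‖r n‖ ^ 2 * s ^ (2 * n)))
        (∫ θ in (-π)..π, (Rfun F (circleMap 0 s θ) -
      circleMap 0 s θ * deriv (Rfun F) (circleMap 0 s θ)) *
        conj (Rfun F (circleMap 0 s θ))).re := by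
      have h := Complex.hasSum_re hP
      have e : ∀ n : ℕ, (2 * π * ((1 - (n : ℂ)) * r n * conj (r n) *
          (s : ℂ) ^ (2 * n))).re = 2 * π * ((1 - (n : ℝ)) * ‖r n‖ ^ 2 * s ^ (2 * n)) := by
        intro n
        have : 2 * π * ((1 - (n : ℂ)) * r n * conj (r n) * (s : ℂ) ^ (2 * n)) =
            ((2 * π * ((1 - (n : ℝ)) * ‖r n‖ ^ 2 * s ^ (2 * n)) : ℝ) : ℂ) := by
          rw [mul_assoc (1 - (n : ℂ)), mul_conj, normSq_eq_norm_sq]
          push_cast
          ring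
        rw [this, ofReal_re]
      rw [← funext e]
      exact h
    -- partial sums dominate the total
    have hpart : 0 ≤ ∑ n ∈ Finset.range (m + 2),
        2 * π * ((1 - (n : ℝ)) * ‖r n‖ ^ 2 * s ^ (2 * n)) := by
      refine le_trans hpos ?_
      have h := sum_le_hasSum (Finset.range (m + 2)) (fun n hn => ?_) hS.neg
      · simp only [Finset.sum_neg_distrib] at h
        linarith
      · have hn2 : m + 2 ≤ n := by simpa using hn
        have h3 : (1 : ℝ) - n ≤ 0 := by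
          have : ((m + 2 : ℕ) : ℝ) ≤ n := by exact_mod_cast hn2
          push_cast at this
          have hm : (0 : ℝ) ≤ m := Nat.cast_nonneg m
          linarith
        have h4 : 0 ≤ (n - 1 : ℝ) * ‖r n‖ ^ 2 * s ^ (2 * n) := by
          have : (0 : ℝ) ≤ n - 1 := by linarith
          positivity
        have h5 : 0 ≤ 2 * π * ((n - 1 : ℝ) * ‖r n‖ ^ 2 * s ^ (2 * n)) :=
          mul_nonneg (by positivity) h4
        linarith
    rw [← Finset.mul_sum] at hpart
    have hpart2 : 0 ≤ ∑ n ∈ Finset.range (m + 2), ((1 - (n : ℝ)) * ‖r n‖ ^ 2 * s ^ (2 * n)) :=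
      nonneg_of_mul_nonneg_right hpart (by positivity)
    rw [Finset.sum_range_succ', Finset.sum_range_succ', hr0] at hpart2
    have e3 : ∑ k ∈ Finset.range m, (1 - ((k + 1 + 1 : ℕ) : ℝ)) * ‖r (k + 1 + 1)‖ ^ 2 *
        s ^ (2 * (k + 1 + 1)) = - ∑ k ∈ Finset.range m, ((k : ℝ) + 1) * ‖r (k + 2)‖ ^ 2 *
          s ^ (2 * (k + 2)) := by
      rw [← Finset.sum_neg_distrib]
      apply Finset.sum_congr rfl
      intro k _
      push_cast
      ring
    rw [e3] at hpart2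
    simp at hpart2
    linarith
  have hlim : Tendsto (fun s : ℝ => ∑ k ∈ Finset.range m, ((k : ℝ) + 1) * ‖r (k + 2)‖ ^ 2 *
      s ^ (2 * (k + 2))) (𝓝[<] 1) (𝓝 (∑ k ∈ Finset.range m, ((k : ℝ) + 1) * ‖r (k + 2)‖ ^ 2 *
      1 ^ (2 * (k + 2)))) := by
    have : Continuous (fun s : ℝ => ∑ k ∈ Finset.range m, ((k : ℝ) + 1) * ‖r (k + 2)‖ ^ 2 *
      s ^ (2 * (k + 2))) := by fun_prop
    exact (this.tendsto 1).mono_left nhdsWithin_le_nhds
  simp only [one_pow, mul_one] at hlim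
  refine le_of_tendsto hlim ?_
  filter_upwards [Ioo_mem_nhdsLT (show (0 : ℝ) < 1 by norm_num)] with s hs
  exact hstep s hs.1 hs.2

end

end Vale.Agent.P142
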