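import Vale.Agent.P142.MathlibUsed

open Complex MeasureTheory Metric Set Filter Topology
open scoped Real

namespace Vale.Agent.P142

noncomputable section

/-- The class `S`: injective holomorphic functions on the unit disc with `f 0 = 0`, `f' 0 = 1`. -/
def ClassS : Set (ℂ → ℂ) :=
  {f | DifferentiableOn ℂ f (ball 0 1) ∧ InjOn f (ball 0 1) ∧ f 0 = 0 ∧ deriv f 0 = 1}

/-- The integral mean `M_t[f'](r) = (1 / 2π) ∫_{-π}^{π} |f'(r e^{iθ})| ^ t dθ`. -/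
def intMean (f : ℂ → ℂ) (t r : ℝ) : ℝ :=
  (2 * π)⁻¹ * ∫ θ in (-π)..π, ‖deriv f (circleMap 0 r θ)‖ ^ t

/-- `β_f(t) = limsup_{r → 1-} log M_t[f'](r) / log (1 / (1 - r))`. -/
def betaF (f : ℂ → ℂ) (t : ℝ) : EReal :=
  limsup (fun r : ℝ => ((Real.log (intMean f t r) / Real.log (1 / (1 - r)) : ℝ) : EReal)) (𝓝[<] 1)

/-- The integral means spectrum `B_S(t) = sup_{f ∈ S} β_f(t)`. -/
def BS (t : ℝ) : EReal := ⨆ f ∈ ClassS, betaF f t

end

end Vale.Agent.P142
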