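import Mathlib

open Finset
open scoped Nat

namespace Vale.Agent.P142

noncomputable section

/-! ### Alternating transvectant sums -/

/-- `TT N D = ∑_j (-1)^j (N choose j) D j (N - j)`. -/
def TT {R : Type*} [AddCommGroup R] : ℕ → (ℕ → ℕ → R) → R
  | 0, D => D 0 0
  | N + 1, D => TT N (fun j k => D j (k + 1)) - TT N (fun j k => D (j + 1) k)

lemma TT_add {R : Type*} [AddCommGroup R] (N : ℕ) (D E : ℕ → ℕ → R) :
    TT N (fun j k => D j k + E j k) = TT N D + TT N E := by
  induction N generalizing D E with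
  | zero => rfl
  | succ N ih =>
    simp only [TT]
    rw [ih, ih]
    abel

lemma TT_sub {R : Type*} [AddCommGroup R] (N : ℕ) (D E : ℕ → ℕ → R) :
    TT N (fun j k => D j k - E j k) = TT N D - TT N E := by
  induction N generalizing D E with
  | zero => rfl
  | succ N ih =>
    simp only [TT]
    rw [ih, ih]
    abel

lemma TT_mul_left {R : Type*} [CommRing R] (N : ℕ) (c : R) (D : ℕ → ℕ → R) :
    TT N (fun j k => c * D j k) = c * TT N D := by
  induction N generalizing D with
  | zero => rfl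
  | succ N ih =>
    simp only [TT]
    rw [ih, ih]
    ring

lemma TT_zero {R : Type*} [AddCommGroup R] (N : ℕ) : TT N (fun _ _ => (0 : R)) = 0 := by
  induction N with
  | zero => rfl
  | succ N ih =>
    simp only [TT]
    rw [ih, sub_zero]

lemma TT_sum {R ι : Type*} [AddCommGroup R] (N : ℕ) (s : Finset ι) (D : ι → ℕ → ℕ → R) :
    TT N (fun j k => ∑ i ∈ s, D i j k) = ∑ i ∈ s, TT N (D i) := by
  classical
  induction s using Finset.induction_on with
  | empty => simp [TT_zero]
  | insert a s ha ih =>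
    simp only [Finset.sum_insert ha]
    rw [TT_add, ih]

lemma TT_map {R S : Type*} [AddCommGroup R] [AddCommGroup S] (g : R →+ S) (N : ℕ)
    (D : ℕ → ℕ → R) : g (TT N D) = TT N (fun j k => g (D j k)) := by
  induction N generalizing D with
  | zero => rfl
  | succ N ih =>
    simp only [TT]
    rw [map_sub, ih, ih]

/-- `(N + 1)`-fold sums when the second index carries a derivative. -/
lemma TT_der_right (N : ℕ) (D : ℕ → ℕ → ℝ) (E : ℕ → ℕ → ℝ) (h0 : ∀ j, D j 0 = 0)
    (h1 : ∀ j k, D j (k + 1) = (k + 1 : ℝ) * E j k) : TT (N + 1) D = (N + 1 : ℝ) * TT N E := by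
  induction N generalizing D E with
  | zero =>
    simp only [TT]
    rw [h1, h0]
    simp
  | succ N ih =>
    have e1 : TT (N + 1 + 1) D = TT (N + 1) (fun j k => D j (k + 1)) -
        TT (N + 1) (fun j k => D (j + 1) k) := rfl
    rw [e1, ih (fun j k => D (j + 1) k) (fun j k => E (j + 1) k) (fun j => h0 _)
      (fun j k => h1 _ _)]
    have e2 : TT (N + 1) (fun j k => D j (k + 1)) =
        TT (N + 1) (fun j k => (k : ℝ) * E j k) + TT (N + 1) E := by
      rw [← TT_add]
      congr 1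
      ext j k
      rw [h1]
      ring
    rw [e2, ih (fun j k => (k : ℝ) * E j k) (fun j k => E j (k + 1)) (fun j => by simp)
      (fun j k => by push_cast; ring)]
    have e3 : TT (N + 1) E = TT N (fun j k => E j (k + 1)) - TT N (fun j k => E (j + 1) k) := rfl
    rw [e3]
    push_cast
    ring

lemma TT_der_left (N : ℕ) (D : ℕ → ℕ → ℝ) (E : ℕ → ℕ → ℝ) (h0 : ∀ k, D 0 k = 0)
    (h1 : ∀ j k, D (j + 1) k = (j + 1 : ℝ) * E j k) : TT (N + 1) D = -((N + 1 : ℝ) * TT N E) := by
  induction N generalizing D E with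
  | zero =>
    simp only [TT]
    rw [h1, h0]
    simp
  | succ N ih =>
    have e1 : TT (N + 1 + 1) D = TT (N + 1) (fun j k => D j (k + 1)) -
        TT (N + 1) (fun j k => D (j + 1) k) := rfl
    rw [e1, ih (fun j k => D j (k + 1)) (fun j k => E j (k + 1)) (fun j => h0 _)
      (fun j k => h1 _ _)]
    have e2 : TT (N + 1) (fun j k => D (j + 1) k) =
        TT (N + 1) (fun j k => (j : ℝ) * E j k) + TT (N + 1) E := by
      rw [← TT_add]
      congr 1
      ext j k
      rw [h1]
      ring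
    rw [e2, ih (fun j k => (j : ℝ) * E j k) (fun j k => E (j + 1) k) (fun j => by simp)
      (fun j k => by push_cast; ring)]
    have e3 : TT (N + 1) E = TT N (fun j k => E j (k + 1)) - TT N (fun j k => E (j + 1) k) := rfl
    rw [e3]
    push_cast
    ring

lemma TT_number (N : ℕ) (D : ℕ → ℕ → ℝ) :
    TT N (fun j k : ℕ => ((j : ℝ) + (k : ℝ)) * D j k) = N * TT N D := by
  induction N generalizing D with
  | zero => simp [TT]
  | succ N ih =>
    simp only [TT]
    have e1 : (fun j k : ℕ => ((j : ℝ) + ((k + 1 : ℕ) : ℝ)) * D j (k + 1)) =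
        fun j k : ℕ => ((j : ℝ) + (k : ℝ)) * D j (k + 1) + D j (k + 1) := by
      ext j k; push_cast; ring
    have e2 : (fun j k : ℕ => (((j + 1 : ℕ) : ℝ) + (k : ℝ)) * D (j + 1) k) =
        fun j k : ℕ => ((j : ℝ) + (k : ℝ)) * D (j + 1) k + D (j + 1) k := by
      ext j k; push_cast; ring
    rw [e1, e2, TT_add, TT_add, ih (fun j k => D j (k + 1)), ih (fun j k => D (j + 1) k)]
    push_cast
    ring

/-! ### Pochhammer weights -/

/-- Rising factorial. -/
def ris (a : ℝ) (k : ℕ) : ℝ := ∏ i ∈ range k, (a + i)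

lemma ris_zero (a : ℝ) : ris a 0 = 1 := by simp [ris]

lemma ris_succ (a : ℝ) (k : ℕ) : ris a (k + 1) = ris a k * (a + k) := by
  simp [ris, prod_range_succ]

lemma ris_succ' (a : ℝ) (k : ℕ) : ris a (k + 1) = a * ris (a + 1) k := by
  rw [ris, prod_range_succ']
  simp only [ris]
  rw [mul_comm]
  congr 1
  · simp
  · apply prod_congr rfl
    intro i _
    push_cast
    ring

lemma ris_pos {a : ℝ} (ha : 0 < a) (k : ℕ) : 0 < ris a k := by
  apply prod_pos
  intro i _
  positivity

/-- `(a)_k / k!`. -/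
def cc (a : ℝ) (k : ℕ) : ℝ := ris a k / k !

lemma cc_pos {a : ℝ} (ha : 0 < a) (k : ℕ) : 0 < cc a k := by
  have := ris_pos ha k
  unfold cc
  positivity

lemma cc_zero (a : ℝ) : cc a 0 = 1 := by simp [cc, ris_zero]

lemma cc_succ (a : ℝ) (k : ℕ) : cc a (k + 1) = cc a k * (a + k) / (k + 1) := by
  rw [cc, cc, ris_succ, Nat.factorial_succ]
  push_cast
  have : (k ! : ℝ) ≠ 0 := by exact_mod_cast Nat.factorial_ne_zero k
  have h2 : (k : ℝ) + 1 ≠ 0 := by positivity
  field_simp

/-- `m^{\underline j} / (a)_j`. -/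
def rr (a : ℝ) (j m : ℕ) : ℝ := (m.descFactorial j : ℝ) / ris a j

lemma rr_zero (a : ℝ) (m : ℕ) : rr a 0 m = 1 := by simp [rr, ris_zero]

lemma rr_shift {a : ℝ} (ha : 0 < a) (j m : ℕ) : rr a j m = (a + j) / a * rr (a + 1) j m := by
  have h1 := ris_pos ha j
  have h2 := ris_pos (show 0 < a + 1 by linarith) j
  have h3 : ris a j * (a + j) = a * ris (a + 1) j := by rw [← ris_succ, ris_succ']
  have h4 : 0 < a + j := by positivity
  rw [rr, rr]
  field_simp
  linear_combination -(m.descFactorial j : ℝ) * h3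

lemma rr_diff {a : ℝ} (ha : 0 < a) (j m : ℕ) :
    rr a (j + 1) (m + 1) - rr a (j + 1) m = (j + 1) / a * rr (a + 1) j m := by
  have h2 := ris_pos (show 0 < a + 1 by linarith) j
  have h3 : ((m + 1).descFactorial (j + 1) : ℝ) - (m.descFactorial (j + 1) : ℝ) =
      (j + 1) * (m.descFactorial j : ℝ) := by
    have e1 : (m + 1).descFactorial (j + 1) = (m + 1) * m.descFactorial j :=
      Nat.succ_descFactorial_succ m j
    rw [e1]
    rcases le_or_gt j m with h | h
    · rw [Nat.descFactorial_succ]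
      push_cast [Nat.cast_sub h]
      ring
    · have h5 : m.descFactorial j = 0 := Nat.descFactorial_eq_zero_iff_lt.mpr h
      have h6 : m.descFactorial (j + 1) = 0 := Nat.descFactorial_eq_zero_iff_lt.mpr (by omega)
      rw [h5, h6]
      simp
  rw [rr, rr, rr, ris_succ', ← sub_div, h3]
  field_simp

/-- `d_a(j, m) = cc a m * rr a j m`. -/
def dd (a : ℝ) (j m : ℕ) : ℝ := cc a m * rr a j m

lemma dd_succ_zero (a : ℝ) (j : ℕ) : dd a (j + 1) 0 = 0 := by
  simp [dd, rr]

lemma dd_succ_succ {a : ℝ} (ha : 0 < a) (j m : ℕ) : dd a (j + 1) (m + 1) = dd (a + 1) j m := by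
  have h2 := ris_pos (show 0 < a + 1 by linarith) j
  have h3 : (m ! : ℝ) ≠ 0 := by exact_mod_cast Nat.factorial_ne_zero m
  have h4 : (m : ℝ) + 1 ≠ 0 := by positivity
  rw [dd, dd, cc, cc, rr, rr, ris_succ', ris_succ', Nat.succ_descFactorial_succ, Nat.factorial_succ]
  push_cast
  field_simp

lemma dd_add {a : ℝ} (ha : 0 < a) (j m : ℕ) : dd a j m + dd a (j + 1) m = dd (a + 1) j m := by
  have h1 := ris_pos ha j
  have h2 := ris_pos (show 0 < a + 1 by linarith) j
  have h3 := ris_pos ha m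
  have h5 : 0 < a + j := by positivity
  have e1 : ris a j * (a + j) = a * ris (a + 1) j := by rw [← ris_succ, ris_succ']
  have e2 : ris a m * (a + m) = a * ris (a + 1) m := by rw [← ris_succ, ris_succ']
  have hm : (m ! : ℝ) ≠ 0 := by exact_mod_cast Nat.factorial_ne_zero m
  have e3 : (m.descFactorial (j + 1) : ℝ) = ((m : ℝ) - j) * m.descFactorial j := by
    rcases le_or_gt j m with h | h
    · rw [Nat.descFactorial_succ]
      push_cast [Nat.cast_sub h]
      ring
    · have h5 : m.descFactorial j = 0 := Nat.descFactorial_eq_zero_iff_lt.mpr h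
      have h6 : m.descFactorial (j + 1) = 0 := Nat.descFactorial_eq_zero_iff_lt.mpr (by omega)
      rw [h5, h6]
      simp
  rw [dd, dd, dd, cc, cc, rr, rr, rr, e3, ris_succ]
  have e4 : ris (a + 1) j = ris a j * (a + j) / a := by rw [e1]; field_simp
  have e5 : ris (a + 1) m = ris a m * (a + m) / a := by rw [e2]; field_simp
  rw [e4, e5]
  field_simp
  ring

/-- The transvectant coefficients. -/
def RT (a c : ℝ) (N m n : ℕ) : ℝ := TT N (fun j k => rr a j m * rr c k n)

/-- The weighted transvectant coefficients. -/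
def ET (a c : ℝ) (N m n : ℕ) : ℝ := TT N (fun j k => dd a j m * dd c k n)

lemma ET_eq (a c : ℝ) (N m n : ℕ) : ET a c N m n = cc a m * cc c n * RT a c N m n := by
  rw [ET, RT, ← TT_mul_left]
  congr 1
  ext j k
  rw [dd, dd]
  ring

lemma RT_zero (a c : ℝ) (m n : ℕ) : RT a c 0 m n = 1 := by simp [RT, TT, rr_zero]

/-- Lowering identity for `RT`. -/
lemma RT_lower {a c : ℝ} (ha : 0 < a) (hc : 0 < c) (N m n : ℕ) :
    RT a c (N + 1) m (n + 1) - RT a c (N + 1) (m + 1) n =
      (N + 1) * (a + c + N) / (a * c) * RT (a + 1) (c + 1) N m n := by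
  have e1 : RT a c (N + 1) m (n + 1) - RT a c (N + 1) (m + 1) n =
      TT (N + 1) (fun j k => rr a j m * (rr c k (n + 1) - rr c k n)) -
      TT (N + 1) (fun j k => (rr a j (m + 1) - rr a j m) * rr c k n) := by
    rw [RT, RT, ← TT_sub, ← TT_sub]
    congr 1
    ext j k
    ring
  have e2 := TT_der_right N (fun j k => rr a j m * (rr c k (n + 1) - rr c k n))
    (fun j k => rr a j m * (1 / c * rr (c + 1) k n)) (fun j => by simp [rr_zero])
    (fun j k => by rw [rr_diff hc]; ring)
  have e3 := TT_der_left N (fun j k => (rr a j (m + 1) - rr a j m) * rr c k n)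
    (fun j k => (1 / a * rr (a + 1) j m) * rr c k n) (fun j => by simp [rr_zero])
    (fun j k => by rw [rr_diff ha]; ring)
  rw [e1, e2, e3, sub_neg_eq_add, ← mul_add, ← TT_add]
  have e4 : (fun j k : ℕ => rr a j m * (1 / c * rr (c + 1) k n) +
      1 / a * rr (a + 1) j m * rr c k n) =
      fun j k : ℕ => (1 / (a * c)) * (((j : ℝ) + k) * (rr (a + 1) j m * rr (c + 1) k n) +
        (a + c) * (rr (a + 1) j m * rr (c + 1) k n)) := by
    ext j k
    rw [rr_shift ha j m, rr_shift hc k n]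
    field_simp
    ring
  rw [e4, TT_mul_left, TT_add, TT_number, TT_mul_left, RT]
  field_simp
  ring

lemma ET_lower {a c : ℝ} (ha : 0 < a) (hc : 0 < c) (N m n : ℕ) :
    ET a c (N + 1) m n = TT N (fun j k => dd (a + 1) j m * dd c (k + 1) n) -
      TT N (fun j k => dd a (j + 1) m * dd (c + 1) k n) := by
  rw [ET]
  simp only [TT]
  rw [← TT_sub, ← TT_sub]
  congr 1
  ext j k
  rw [← dd_add ha j m, ← dd_add hc k n]
  ring

/-- Summation by parts along antidiagonals. -/
lemma sum_lower {a c : ℝ} (ha : 0 < a) (hc : 0 < c) (N L : ℕ) (R : ℕ → ℕ → ℝ) :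
    ∑ p ∈ antidiagonal (L + 1), R p.1 p.2 * ET a c (N + 1) p.1 p.2 =
      ∑ p ∈ antidiagonal L, (R p.1 (p.2 + 1) - R (p.1 + 1) p.2) *
        ET (a + 1) (c + 1) N p.1 p.2 := by
  simp only [ET_lower ha hc, mul_sub, sum_sub_distrib, sub_mul]
  congr 1
  · rw [Finset.Nat.sum_antidiagonal_succ']
    have h0 : TT N (fun j k => dd (a + 1) j (L + 1) * dd c (k + 1) 0) = 0 := by
      simp only [dd_succ_zero, mul_zero]
      exact TT_zero N
    simp only [h0, mul_zero, zero_add]
    apply sum_congr rfl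
    intro p _
    simp only [dd_succ_succ hc]
    rfl
  · rw [Finset.Nat.sum_antidiagonal_succ]
    have h0 : TT N (fun j k => dd a (j + 1) 0 * dd (c + 1) k (L + 1)) = 0 := by
      simp only [dd_succ_zero, zero_mul]
      exact TT_zero N
    simp only [h0, mul_zero, zero_add]
    apply sum_congr rfl
    intro p _
    simp only [dd_succ_succ ha]
    rfl

/-! ### Orthogonality -/

lemma vandermonde {a c : ℝ} (L : ℕ) :
    ∑ p ∈ antidiagonal L, cc a p.1 * cc c p.2 = cc (a + c) L := by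
  induction L with
  | zero => simp [cc_zero]
  | succ L ih =>
    have hL : (L : ℝ) + 1 ≠ 0 := by positivity
    have h1 : ∑ p ∈ antidiagonal (L + 1), (p.1 : ℝ) * (cc a p.1 * cc c p.2) =
        ∑ p ∈ antidiagonal L, (a + p.1) * (cc a p.1 * cc c p.2) := by
      rw [Finset.Nat.sum_antidiagonal_succ]
      simp only [Nat.cast_zero, zero_mul, zero_add]
      apply sum_congr rfl
      intro p _
      have : (p.1 : ℝ) + 1 ≠ 0 := by positivity
      rw [cc_succ]
      push_cast
      field_simp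
    have h2 : ∑ p ∈ antidiagonal (L + 1), (p.2 : ℝ) * (cc a p.1 * cc c p.2) =
        ∑ p ∈ antidiagonal L, (c + p.2) * (cc a p.1 * cc c p.2) := by
      rw [Finset.Nat.sum_antidiagonal_succ']
      simp only [Nat.cast_zero, zero_mul, zero_add]
      apply sum_congr rfl
      intro p _
      have : (p.2 : ℝ) + 1 ≠ 0 := by positivity
      rw [cc_succ]
      push_cast
      field_simp
    have h3 : ((L : ℝ) + 1) * ∑ p ∈ antidiagonal (L + 1), cc a p.1 * cc c p.2 =
        (a + c + L) * cc (a + c) L := by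
      rw [← ih, mul_sum, mul_sum]
      have e1 : ∑ p ∈ antidiagonal (L + 1), ((L : ℝ) + 1) * (cc a p.1 * cc c p.2) =
          ∑ p ∈ antidiagonal (L + 1), ((p.1 : ℝ) * (cc a p.1 * cc c p.2) +
            (p.2 : ℝ) * (cc a p.1 * cc c p.2)) := by
        apply sum_congr rfl
        intro p hp
        have h : p.1 + p.2 = L + 1 := mem_antidiagonal.mp hp
        have h' : (p.1 : ℝ) + p.2 = L + 1 := by exact_mod_cast h
        rw [← h']
        ring
      rw [e1, sum_add_distrib, h1, h2, ← sum_add_distrib]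
      apply sum_congr rfl
      intro p hp
      have h : p.1 + p.2 = L := mem_antidiagonal.mp hp
      have h' : (p.1 : ℝ) + p.2 = L := by exact_mod_cast h
      rw [← h']
      ring
    rw [cc_succ]
    field_simp
    linear_combination h3

/-- The normalisation constants. -/
def kap (a c : ℝ) (N : ℕ) : ℝ := N ! * ris (a + c + N - 1) N / (ris a N * ris c N)

lemma kap_zero (a c : ℝ) : kap a c 0 = 1 := by simp [kap, ris_zero]

lemma kap_succ {a c : ℝ} (ha : 0 < a) (hc : 0 < c) (N : ℕ) :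
    kap a c (N + 1) = (N + 1) * (a + c + N) / (a * c) * kap (a + 1) (c + 1) N := by
  have h1 := ris_pos (show 0 < a + 1 by linarith) N
  have h2 := ris_pos (show 0 < c + 1 by linarith) N
  rw [kap, kap, ris_succ' a, ris_succ' c, ris_succ' (a + c + ((N + 1 : ℕ) : ℝ) - 1),
    Nat.factorial_succ]
  have e1 : a + c + ((N + 1 : ℕ) : ℝ) - 1 = a + c + N := by push_cast; ring
  have e2 : a + 1 + (c + 1) + (N : ℝ) - 1 = a + c + N + 1 := by ring
  rw [e1, e2]
  push_cast
  field_simp

lemma kap_pos {a c : ℝ} (ha : 0 < a) (hc : 0 < c) (N : ℕ) : 0 < kap a c N := by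
  induction N generalizing a c with
  | zero => rw [kap_zero]; exact one_pos
  | succ N ih =>
    rw [kap_succ ha hc]
    have := ih (show 0 < a + 1 by linarith) (show 0 < c + 1 by linarith)
    positivity

/-- The bilinear pairing. -/
def BT (a c : ℝ) (N M L : ℕ) : ℝ :=
  ∑ p ∈ antidiagonal L, RT a c N p.1 p.2 * ET a c M p.1 p.2

lemma BT_comm (a c : ℝ) (N M L : ℕ) : BT a c N M L = BT a c M N L := by
  unfold BT
  apply sum_congr rfl
  intro p _
  rw [ET_eq, ET_eq]
  ring

lemma BT_succ {a c : ℝ} (ha : 0 < a) (hc : 0 < c) (N M L : ℕ) :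
    BT a c (N + 1) (M + 1) (L + 1) =
      (N + 1) * (a + c + N) / (a * c) * BT (a + 1) (c + 1) N M L := by
  rw [BT, sum_lower ha hc M L (fun m n => RT a c (N + 1) m n), BT, mul_sum]
  apply sum_congr rfl
  intro p _
  rw [RT_lower ha hc]
  ring

lemma BT_zero_succ {a c : ℝ} (ha : 0 < a) (hc : 0 < c) (M L : ℕ) :
    BT a c 0 (M + 1) (L + 1) = 0 := by
  rw [BT, sum_lower ha hc M L (fun m n => RT a c 0 m n)]
  apply sum_eq_zero
  intro p _
  rw [RT_zero, RT_zero, sub_self, zero_mul]

/-- Vanishing on short antidiagonals. -/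
lemma TT_vanish {R : Type*} [AddCommGroup R] (N : ℕ) (D : ℕ → ℕ → R)
    (h : ∀ j k, j + k = N → D j k = 0) : TT N D = 0 := by
  induction N generalizing D with
  | zero => exact h 0 0 rfl
  | succ N ih =>
    simp only [TT]
    rw [ih _ (fun j k hjk => h j (k + 1) (by omega)), ih _ (fun j k hjk => h (j + 1) k (by omega)),
      sub_zero]

lemma RT_vanish (a c : ℝ) {N m n : ℕ} (h : m + n < N) : RT a c N m n = 0 := by
  apply TT_vanish
  intro j k hjk
  have : m < j ∨ n < k := by omega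
  rcases this with h1 | h1
  · rw [rr, Nat.descFactorial_eq_zero_iff_lt.mpr h1]; simp
  · rw [rr, rr, Nat.descFactorial_eq_zero_iff_lt.mpr h1]; simp

lemma BT_vanish (a c : ℝ) {N M L : ℕ} (h : L < N) : BT a c N M L = 0 := by
  apply sum_eq_zero
  intro p hp
  have h1 : p.1 + p.2 = L := mem_antidiagonal.mp hp
  rw [RT_vanish a c (by omega), zero_mul]

lemma BT_orth {a c : ℝ} (ha : 0 < a) (hc : 0 < c) {N M : ℕ} (hNM : N ≠ M) (L : ℕ) :
    BT a c N M L = 0 := by
  induction L generalizing N M a c with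
  | zero =>
    rcases Nat.lt_or_gt_of_ne hNM with h | h
    · rw [BT_comm]; exact BT_vanish a c (by omega)
    · exact BT_vanish a c (by omega)
  | succ L ih =>
    cases N with
    | zero =>
      cases M with
      | zero => exact absurd rfl hNM
      | succ M => exact BT_zero_succ ha hc M L
    | succ N =>
      cases M with
      | zero => rw [BT_comm]; exact BT_zero_succ ha hc N L
      | succ M =>
        rw [BT_succ ha hc, ih (show 0 < a + 1 by linarith) (show 0 < c + 1 by linarith)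
          (fun h => hNM (by rw [h])), mul_zero]

lemma BT_self {a c : ℝ} (ha : 0 < a) (hc : 0 < c) (N k : ℕ) :
    BT a c N N (N + k) = kap a c N * cc (a + c + 2 * N) k := by
  induction N generalizing a c with
  | zero =>
    rw [kap_zero, one_mul, zero_add, BT]
    have : a + c + 2 * ((0 : ℕ) : ℝ) = a + c := by simp
    rw [this, ← vandermonde]
    apply sum_congr rfl
    intro p _
    rw [ET_eq, RT_zero]
    ring
  | succ N ih =>
    rw [show N + 1 + k = (N + k) + 1 by ring, BT_succ ha hc,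
      ih (show 0 < a + 1 by linarith) (show 0 < c + 1 by linarith), kap_succ ha hc]
    have : a + 1 + (c + 1) + 2 * (N : ℝ) = a + c + 2 * ((N + 1 : ℕ) : ℝ) := by push_cast; ring
    rw [this]
    ring

/-! ### Bessel's inequality -/

lemma bessel_real {ι κ : Type*} (s : Finset ι) (S : Finset κ) (w : ι → ℝ)
    (hw : ∀ i ∈ s, 0 < w i) (R : κ → ι → ℝ) (B : κ → ℝ) (hB : ∀ k ∈ S, 0 < B k)
    (h1 : ∀ k ∈ S, ∑ i ∈ s, w i * R k i * R k i = B k)
    (h2 : ∀ k ∈ S, ∀ l ∈ S, k ≠ l → ∑ i ∈ s, w i * R k i * R l i = 0) (G : ι → ℝ) :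
    ∑ k ∈ S, (∑ i ∈ s, R k i * G i) ^ 2 / B k ≤ ∑ i ∈ s, G i ^ 2 / w i := by
  classical
  set c : κ → ℝ := fun k => (∑ i ∈ s, R k i * G i) / B k with hc
  have h0 : 0 ≤ ∑ i ∈ s, (G i - w i * ∑ k ∈ S, c k * R k i) ^ 2 / w i := by
    apply sum_nonneg
    intro i hi
    have := hw i hi
    positivity
  have h3 : ∑ i ∈ s, (G i - w i * ∑ k ∈ S, c k * R k i) ^ 2 / w i =
      ∑ i ∈ s, G i ^ 2 / w i - 2 * ∑ i ∈ s, G i * ∑ k ∈ S, c k * R k i +
        ∑ i ∈ s, w i * (∑ k ∈ S, c k * R k i) ^ 2 := by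
    rw [mul_sum, ← sum_sub_distrib, ← sum_add_distrib]
    apply sum_congr rfl
    intro i hi
    have := (hw i hi).ne'
    field_simp
    ring
  have h4 : ∑ i ∈ s, G i * ∑ k ∈ S, c k * R k i = ∑ k ∈ S, (∑ i ∈ s, R k i * G i) ^ 2 / B k := by
    simp only [mul_sum]
    rw [sum_comm]
    apply sum_congr rfl
    intro k _
    have : ∑ i ∈ s, G i * (c k * R k i) = c k * ∑ i ∈ s, R k i * G i := by
      rw [mul_sum]
      apply sum_congr rfl
      intro i _
      ring
    rw [this, hc]
    ring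
  have h5 : ∑ i ∈ s, w i * (∑ k ∈ S, c k * R k i) ^ 2 =
      ∑ k ∈ S, (∑ i ∈ s, R k i * G i) ^ 2 / B k := by
    have e : ∀ i, w i * (∑ k ∈ S, c k * R k i) ^ 2 =
        ∑ k ∈ S, ∑ l ∈ S, c k * c l * (w i * R k i * R l i) := by
      intro i
      rw [sq, sum_mul_sum, mul_sum]
      apply sum_congr rfl
      intro k _
      rw [mul_sum]
      apply sum_congr rfl
      intro l _
      ring
    simp only [e]
    rw [sum_comm]
    apply sum_congr rfl
    intro k hk
    rw [sum_comm]
    rw [sum_eq_single k]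
    · rw [← mul_sum, h1 k hk, hc]
      have := (hB k hk).ne'
      field_simp
    · intro l hl hlk
      rw [← mul_sum, h2 k hk l hl (fun h => hlk h.symm), mul_zero]
    · intro h; exact absurd hk h
  rw [h3, h4, h5] at h0
  linarith

lemma bessel_complex {ι κ : Type*} (s : Finset ι) (S : Finset κ) (w : ι → ℝ)
    (hw : ∀ i ∈ s, 0 < w i) (R : κ → ι → ℝ) (B : κ → ℝ) (hB : ∀ k ∈ S, 0 < B k)
    (h1 : ∀ k ∈ S, ∑ i ∈ s, w i * R k i * R k i = B k)
    (h2 : ∀ k ∈ S, ∀ l ∈ S, k ≠ l → ∑ i ∈ s, w i * R k i * R l i = 0) (G : ι → ℂ) :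
    ∑ k ∈ S, ‖∑ i ∈ s, (R k i : ℂ) * G i‖ ^ 2 / B k ≤ ∑ i ∈ s, ‖G i‖ ^ 2 / w i := by
  have e : ∀ z : ℂ, ‖z‖ ^ 2 = z.re ^ 2 + z.im ^ 2 := fun z => by
    rw [← Complex.normSq_eq_norm_sq, Complex.normSq_apply]; ring
  have hr := bessel_real s S w hw R B hB h1 h2 (fun i => (G i).re)
  have hi := bessel_real s S w hw R B hB h1 h2 (fun i => (G i).im)
  have e1 : ∑ k ∈ S, ‖∑ i ∈ s, (R k i : ℂ) * G i‖ ^ 2 / B k =
      ∑ k ∈ S, (∑ i ∈ s, R k i * (G i).re) ^ 2 / B k +
        ∑ k ∈ S, (∑ i ∈ s, R k i * (G i).im) ^ 2 / B k := by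
    rw [← sum_add_distrib]
    apply sum_congr rfl
    intro k _
    rw [e, Complex.re_sum, Complex.im_sum, add_div]
    simp only [Complex.re_ofReal_mul, Complex.im_ofReal_mul]
  have e2 : ∑ i ∈ s, ‖G i‖ ^ 2 / w i = ∑ i ∈ s, (G i).re ^ 2 / w i + ∑ i ∈ s, (G i).im ^ 2 / w i := by
    rw [← sum_add_distrib]
    apply sum_congr rfl
    intro i _
    rw [e, add_div]
  rw [e1, e2]
  linarith

/-- Bessel's inequality on an antidiagonal. -/
theorem bessel_anti {a c : ℝ} (ha : 0 < a) (hc : 0 < c) (G : ℕ → ℕ → ℂ) (L K : ℕ) :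
    ∑ N ∈ (range K).filter (fun N => N ≤ L),
      ‖∑ p ∈ antidiagonal L, (RT a c N p.1 p.2 : ℂ) * G p.1 p.2‖ ^ 2 /
        (kap a c N * cc (a + c + 2 * N) (L - N)) ≤
      ∑ p ∈ antidiagonal L, ‖G p.1 p.2‖ ^ 2 / (cc a p.1 * cc c p.2) := by
  apply bessel_complex (antidiagonal L) ((range K).filter (fun N => N ≤ L))
    (fun p => cc a p.1 * cc c p.2) (fun p _ => mul_pos (cc_pos ha _) (cc_pos hc _))
    (fun N p => RT a c N p.1 p.2) (fun N => kap a c N * cc (a + c + 2 * N) (L - N)) _ _ _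
    (fun p => G p.1 p.2)
  · intro N _
    exact mul_pos (kap_pos ha hc N) (cc_pos (by positivity) _)
  · intro N hN
    have hNL : N ≤ L := (mem_filter.mp hN).2
    have h := BT_self ha hc N (L - N)
    rw [show N + (L - N) = L by omega] at h
    rw [← h, BT]
    apply sum_congr rfl
    intro p _
    rw [ET_eq]
    ring
  · intro N _ M _ hNM
    rw [← BT_orth ha hc hNM L, BT]
    apply sum_congr rfl
    intro p _
    rw [ET_eq]
    ring

end

end Vale.Agent.P142
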