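import Vale.Agent.P142.Parseval
import Vale.Agent.P142.Transvect

open Complex MeasureTheory Metric Set Filter Topology intervalIntegral
open scoped Real ComplexConjugate ENNReal

namespace Vale.Agent.P142

noncomputable section

variable {g : ℂ → ℂ} {r A : ℝ}

/-- Quadratic mean. -/
def mean2 (g : ℂ → ℂ) (r : ℝ) : ℝ := (2 * π)⁻¹ * ∫ θ in (-π)..π, ‖g (circleMap 0 r θ)‖ ^ 2

lemma mean2_nonneg (g : ℂ → ℂ) (r : ℝ) : 0 ≤ mean2 g r := by
  unfold mean2
  apply mul_nonneg (by positivity)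
  apply intervalIntegral.integral_nonneg (by linarith [Real.pi_pos])
  intro θ _
  positivity

lemma hasSum_mean2 (hg : DifferentiableOn ℂ g (ball 0 1)) (hr0 : 0 ≤ r) (hr1 : r < 1) :
    HasSum (fun k => ‖tc g k‖ ^ 2 * r ^ (2 * k)) (mean2 g r) := by
  have h := parseval hr0 hr1 hg.continuousOn (fun z hz => hasSum_tc hg hz)
    (fun z hz => hasSum_tc hg hz)
  have h1 : ∀ z : ℂ, z * conj z = ((‖z‖ ^ 2 : ℝ) : ℂ) := fun z => by
    rw [mul_conj, normSq_eq_norm_sq]
  simp only [h1] at h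
  rw [intervalIntegral.integral_ofReal] at h
  have h2 : HasSum (fun n : ℕ => ((2 * π * (‖tc g n‖ ^ 2 * r ^ (2 * n)) : ℝ) : ℂ))
      ((∫ θ in (-π)..π, ‖g (circleMap 0 r θ)‖ ^ 2 : ℝ) : ℂ) := by
    refine hasSum_of_eq (fun n => ?_) h
    push_cast
    ring
  have h3 := Complex.hasSum_ofReal.mp h2
  have h4 := h3.mul_left (2 * π)⁻¹
  unfold mean2
  have hpi : (2 * π : ℝ) ≠ 0 := by positivity
  have e : (fun i : ℕ => (2 * π)⁻¹ * (2 * π * (‖tc g i‖ ^ 2 * r ^ (2 * i)))) =
      fun k => ‖tc g k‖ ^ 2 * r ^ (2 * k) := by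
    ext k
    field_simp
  rw [e] at h4
  exact h4

/-- Radial beta weight. -/
def bw (A : ℝ) (k : ℕ) (r : ℝ) : ℝ := 2 * r ^ (2 * k + 1) * (1 - r ^ 2) ^ A

lemma bw_nonneg (A : ℝ) (k : ℕ) (hr : r ∈ Ioo (0 : ℝ) 1) : 0 ≤ bw A k r := by
  have h1 : 0 ≤ 1 - r ^ 2 := by nlinarith [hr.1, hr.2]
  have h2 := Real.rpow_nonneg h1 A
  have h3 : 0 ≤ r ^ (2 * k + 1) := pow_nonneg hr.1.le _
  unfold bw
  positivity

lemma bw_zero_aux (hA : -1 < A) : IntegrableOn (bw A 0) (Ioc 0 1) ∧
    ∫ r in (0 : ℝ)..1, bw A 0 r = 1 / (A + 1) := by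
  have hA1 : 0 < A + 1 := by linarith
  have hc : ContinuousOn (fun r : ℝ => -(1 - r ^ 2) ^ (A + 1) / (A + 1)) (Icc 0 1) := by
    apply ContinuousOn.div_const
    apply ContinuousOn.neg
    apply ContinuousOn.rpow_const (by fun_prop)
    intro x _
    exact Or.inr hA1.le
  have hd : ∀ r ∈ Ioo (0 : ℝ) 1, HasDerivAt (fun r : ℝ => -(1 - r ^ 2) ^ (A + 1) / (A + 1))
      (bw A 0 r) r := by
    intro r hr
    have hu : 0 < 1 - r ^ 2 := by nlinarith [hr.1, hr.2]
    have h2 : HasDerivAt (fun s : ℝ => 1 - s ^ 2) (-(2 * r)) r := by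
      have := (hasDerivAt_pow 2 r).const_sub 1
      simpa using this
    have h3 := ((h2.rpow_const (p := A + 1) (Or.inl hu.ne')).fun_neg).div_const (A + 1)
    refine h3.congr_deriv ?_
    rw [bw, add_sub_cancel_right]
    field_simp
    ring
  have hi := intervalIntegral.integrableOn_deriv_of_nonneg hc hd (fun r hr => bw_nonneg A 0 hr)
  refine ⟨hi, ?_⟩
  rw [intervalIntegral.integral_eq_sub_of_hasDerivAt_of_le zero_le_one hc hd
    ((intervalIntegrable_iff_integrableOn_Ioc_of_le zero_le_one).mpr hi)]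
  simp only [one_pow, sub_self, ne_eq, OfNat.ofNat_ne_zero, not_false_eq_true, zero_pow, sub_zero,
    Real.one_rpow]
  rw [Real.zero_rpow hA1.ne']
  ring

lemma bw_integrable (hA : -1 < A) (k : ℕ) : IntegrableOn (bw A k) (Ioc 0 1) := by
  have h0 := (bw_zero_aux hA).1
  rw [integrableOn_Ioc_iff_integrableOn_Ioo] at h0 ⊢
  refine Integrable.mono' h0 ?_ ?_
  · apply Measurable.aestronglyMeasurable
    unfold bw
    fun_prop
  · rw [ae_restrict_iff' measurableSet_Ioo]
    refine Eventually.of_forall fun r hr => ?_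
    rw [Real.norm_eq_abs, abs_of_nonneg (bw_nonneg A k hr)]
    have h1 : 0 ≤ 1 - r ^ 2 := by nlinarith [hr.1, hr.2]
    have h2 := Real.rpow_nonneg h1 A
    unfold bw
    have h3 : r ^ (2 * k + 1) ≤ r ^ (2 * 0 + 1) :=
      pow_le_pow_of_le_one hr.1.le hr.2.le (by omega)
    gcongr

lemma bw_integral (hA : -1 < A) (k : ℕ) :
    ∫ r in (0 : ℝ)..1, bw A k r = 1 / ((A + 1) * cc (A + 2) k) := by
  have hA1 : 0 < A + 1 := by linarith
  have hA2 : 0 < A + 2 := by linarith
  induction k with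
  | zero => rw [(bw_zero_aux hA).2, cc_zero, mul_one]
  | succ k ih =>
    have hc : ContinuousOn (fun r : ℝ => r ^ (2 * k + 2) * (1 - r ^ 2) ^ (A + 1)) (Icc 0 1) := by
      apply ContinuousOn.mul (by fun_prop)
      apply ContinuousOn.rpow_const (by fun_prop)
      intro x _
      exact Or.inr hA1.le
    have hd : ∀ r ∈ Ioo (0 : ℝ) 1, HasDerivAt
        (fun r : ℝ => r ^ (2 * k + 2) * (1 - r ^ 2) ^ (A + 1))
        ((k + 1) * bw A k r - (k + A + 2) * bw A (k + 1) r) r := by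
      intro r hr
      have hu : 0 < 1 - r ^ 2 := by nlinarith [hr.1, hr.2]
      have h2 : HasDerivAt (fun s : ℝ => 1 - s ^ 2) (-(2 * r)) r := by
        have := (hasDerivAt_pow 2 r).const_sub 1
        simpa using this
      have h3 := h2.rpow_const (p := A + 1) (Or.inl hu.ne')
      have h4 := hasDerivAt_pow (2 * k + 2) r
      refine (h4.fun_mul h3).congr_deriv ?_
      rw [bw, bw, add_sub_cancel_right, Real.rpow_add_one hu.ne']
      have e1 : 2 * k + 2 - 1 = 2 * k + 1 := by omega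
      have e2 : 2 * (k + 1) + 1 = 2 * k + 1 + 2 := by ring
      rw [e1, e2, pow_add r (2 * k + 1) 2, pow_succ r (2 * k + 1)]
      push_cast
      ring
    have hI1 := bw_integrable hA k
    have hI2 := bw_integrable hA (k + 1)
    have hi1 : IntervalIntegrable (bw A k) volume 0 1 :=
      (intervalIntegrable_iff_integrableOn_Ioc_of_le zero_le_one).mpr hI1
    have hi2 : IntervalIntegrable (bw A (k + 1)) volume 0 1 :=
      (intervalIntegrable_iff_integrableOn_Ioc_of_le zero_le_one).mpr hI2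
    have h5 := intervalIntegral.integral_eq_sub_of_hasDerivAt_of_le zero_le_one hc hd
      ((hi1.const_mul _).sub (hi2.const_mul _))
    rw [intervalIntegral.integral_sub (hi1.const_mul _) (hi2.const_mul _),
      intervalIntegral.integral_const_mul, intervalIntegral.integral_const_mul, ih] at h5
    have e0 : (1 : ℝ) ^ (2 * k + 2) * (1 - 1 ^ 2) ^ (A + 1) -
        (0 : ℝ) ^ (2 * k + 2) * (1 - 0 ^ 2) ^ (A + 1) = 0 := by
      rw [one_pow, one_pow, sub_self, Real.zero_rpow hA1.ne', zero_pow (by omega)]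
      ring
    rw [e0] at h5
    have hcc := cc_pos hA2 k
    have hk : (0 : ℝ) < k + A + 2 := by
      have : (0 : ℝ) ≤ k := Nat.cast_nonneg k
      linarith
    have hk1 : (k : ℝ) + 1 ≠ 0 := by positivity
    have hk2 : 0 < A + 2 + k := by linarith
    rw [cc_succ]
    rw [eq_div_iff (by positivity)]
    have h6 : (k + A + 2) * ∫ r in (0 : ℝ)..1, bw A (k + 1) r = (k + 1) * (1 / ((A + 1) * cc (A + 2) k)) := by
      linarith
    field_simp at h6 ⊢
    linear_combination h6

lemma bw_lintegral (hA : -1 < A) (k : ℕ) :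
    ∫⁻ r in Ioo (0 : ℝ) 1, ENNReal.ofReal (bw A k r) =
      ENNReal.ofReal (1 / ((A + 1) * cc (A + 2) k)) := by
  have h1 := bw_integrable hA k
  rw [integrableOn_Ioc_iff_integrableOn_Ioo] at h1
  rw [← ofReal_integral_eq_lintegral_ofReal h1, ← bw_integral hA k,
    intervalIntegral.integral_of_le zero_le_one, integral_Ioc_eq_integral_Ioo]
  rw [EventuallyLE, ae_restrict_iff' measurableSet_Ioo]
  exact Eventually.of_forall fun r hr => bw_nonneg A k hr

/-- Weighted area norm in coefficients. -/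
theorem lintegral_mean2 (hg : DifferentiableOn ℂ g (ball 0 1)) (hA : -1 < A) :
    ∫⁻ r in Ioo (0 : ℝ) 1, ENNReal.ofReal (bw A 0 r * mean2 g r) =
      ∑' k : ℕ, ENNReal.ofReal (‖tc g k‖ ^ 2 / ((A + 1) * cc (A + 2) k)) := by
  have h1 : ∀ r ∈ Ioo (0 : ℝ) 1, ENNReal.ofReal (bw A 0 r * mean2 g r) =
      ∑' k : ℕ, ENNReal.ofReal (‖tc g k‖ ^ 2 * bw A k r) := by
    intro r hr
    have hs := hasSum_mean2 hg hr.1.le hr.2
    have hs2 := hs.mul_left (bw A 0 r)
    rw [← hs2.tsum_eq, ENNReal.ofReal_tsum_of_nonneg _ hs2.summable]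
    · congr 1
      ext k
      congr 1
      rw [bw, bw]
      ring
    · intro k
      have := bw_nonneg A 0 hr
      have h3 : 0 ≤ r ^ (2 * k) := pow_nonneg hr.1.le _
      positivity
  rw [setLIntegral_congr_fun measurableSet_Ioo h1, lintegral_tsum]
  · congr 1
    ext k
    have h2 : ∀ r, ENNReal.ofReal (‖tc g k‖ ^ 2 * bw A k r) =
        ENNReal.ofReal (‖tc g k‖ ^ 2) * ENNReal.ofReal (bw A k r) := fun r =>
      ENNReal.ofReal_mul (by positivity)
    simp only [h2]
    rw [lintegral_const_mul' _ _ ENNReal.ofReal_ne_top, bw_lintegral hA k,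
      ← ENNReal.ofReal_mul (by positivity)]
    congr 1
    ring
  · intro k
    apply Measurable.aemeasurable
    apply ENNReal.measurable_ofReal.comp
    unfold bw
    fun_prop

end

end Vale.Agent.P142
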