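import Vale.Agent.P142.Jets

open Complex MeasureTheory Metric Set Filter Topology
open scoped Real ComplexConjugate Nat

namespace Vale.Agent.P142

noncomputable section

variable {f : ℂ → ℂ}

/-- An injective holomorphic function has nonvanishing derivative. -/
theorem injOn_deriv_ne_zero {U : Set ℂ} (hU : IsOpen U) (hf1 : DifferentiableOn ℂ f U)
    (hf2 : InjOn f U) {z₀ : ℂ} (hz : z₀ ∈ U) : deriv f z₀ ≠ 0 := by
  intro hd
  have hnhds : U ∈ 𝓝 z₀ := hU.mem_nhds hz
  have hfa : AnalyticAt ℂ f z₀ := hf1.analyticAt hnhds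
  have hφ : AnalyticAt ℂ (fun z => f z - f z₀) z₀ := hfa.sub analyticAt_const
  have hnz : ¬ ∀ᶠ z in 𝓝 z₀, f z - f z₀ = 0 := by
    intro h
    have h2 : ∀ᶠ z in 𝓝[≠] z₀, f z - f z₀ = 0 ∧ z ∈ U :=
      (h.and hnhds).filter_mono nhdsWithin_le_nhds
    obtain ⟨z, ⟨h3, h4⟩, h5⟩ := (h2.and self_mem_nhdsWithin).exists
    exact h5 (hf2 h4 hz (sub_eq_zero.mp h3))
  obtain ⟨n, g, hg, hg0, hgn⟩ := (hφ.exists_eventuallyEq_pow_smul_nonzero_iff).mpr hnz
  have hn0 : n ≠ 0 := by
    rintro rfl
    have := hgn.self_of_nhds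
    simp at this
    exact hg0 this.symm
  have hn1 : n ≠ 1 := by
    rintro rfl
    have h1 : HasDerivAt (fun z => (z - z₀) ^ 1 • g z) (g z₀) z₀ := by
      have := ((hasDerivAt_id z₀).sub_const z₀).fun_mul hg.differentiableAt.hasDerivAt
      simpa using this
    have h2 : HasDerivAt (fun z => f z - f z₀) (g z₀) z₀ := h1.congr_of_eventuallyEq hgn
    have h3 : HasDerivAt (fun z => f z - f z₀) (deriv f z₀) z₀ :=
      (hfa.differentiableAt.hasDerivAt).sub_const _
    exact hg0 ((h2.unique h3).trans hd)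
  obtain ⟨c, hc⟩ := IsAlgClosed.exists_pow_nat_eq (g z₀) (Nat.pos_of_ne_zero hn0)
  have hc0 : c ≠ 0 := by
    rintro rfl
    rw [zero_pow hn0] at hc
    exact hg0 hc.symm
  set k : ℂ → ℂ := fun z => cexp (Complex.log (g z / g z₀) / n) with hk
  have hnC : (n : ℂ) ≠ 0 := by exact_mod_cast hn0
  have hkn : ∀ᶠ z in 𝓝 z₀, k z ^ n = g z / g z₀ := by
    have : ∀ᶠ z in 𝓝 z₀, g z ≠ 0 := hg.continuousAt.eventually_ne hg0
    filter_upwards [this] with z hz
    rw [hk]
    simp only
    rw [← Complex.exp_nat_mul, mul_div_cancel₀ _ hnC, Complex.exp_log (div_ne_zero hz hg0)]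
  have hk0 : k z₀ = 1 := by simp [hk, div_self hg0]
  have hkd : AnalyticAt ℂ k z₀ := by
    have h1 : AnalyticAt ℂ (fun z => g z / g z₀) z₀ := hg.div analyticAt_const hg0
    have h2 : AnalyticAt ℂ (fun z => Complex.log (g z / g z₀)) z₀ := by
      apply h1.clog
      rw [div_self hg0]
      exact Complex.one_mem_slitPlane
    exact (h2.div analyticAt_const hnC).cexp
  set h : ℂ → ℂ := fun z => (z - z₀) * (c * k z) with hh
  have hha : AnalyticAt ℂ h z₀ := by
    exact (analyticAt_id.sub analyticAt_const).mul (analyticAt_const.mul hkd)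
  have hhd : HasDerivAt h c z₀ := by
    have := ((hasDerivAt_id z₀).sub_const z₀).mul
      ((hasDerivAt_const z₀ c).mul hkd.differentiableAt.hasDerivAt)
    refine this.congr_deriv ?_
    simp [hk0]
  have hhs : HasStrictDerivAt h c z₀ := by
    have := hha.hasStrictDerivAt
    rwa [hhd.deriv] at this
  have hmap : map h (𝓝 z₀) = 𝓝 (h z₀) := hhs.map_nhds_eq hc0
  have hh0 : h z₀ = 0 := by simp [hh]
  have hpow : ∀ᶠ z in 𝓝 z₀, f z - f z₀ = h z ^ n := by
    filter_upwards [hgn, hkn] with z h1 h2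
    rw [h1, hh]
    simp only
    rw [mul_pow, mul_pow, h2, hc, smul_eq_mul]
    field_simp
  have hV : {z | f z - f z₀ = h z ^ n ∧ z ∈ U} ∈ 𝓝 z₀ := hpow.and hnhds
  have himg : h '' {z | f z - f z₀ = h z ^ n ∧ z ∈ U} ∈ 𝓝 (0 : ℂ) := by
    have h1 := image_mem_map (m := h) hV
    rwa [hmap, hh0] at h1
  obtain ⟨ε, hε, hball⟩ := Metric.mem_nhds_iff.mp himg
  have hprim := Complex.isPrimitiveRoot_exp n hn0
  set ω := cexp (2 * π * I / n) with hω
  have hω1 : ω ≠ 1 := hprim.ne_one (by omega)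
  have hωn : ω ^ n = 1 := hprim.pow_eq_one
  have hωnorm : ‖ω‖ = 1 := Complex.norm_eq_one_of_pow_eq_one hωn hn0
  set w : ℂ := ((ε / 2 : ℝ) : ℂ) with hw
  have hwn : ‖w‖ = ε / 2 := by
    rw [hw, Complex.norm_real, Real.norm_eq_abs, abs_of_pos (by positivity)]
  have hw1 : w ∈ ball (0 : ℂ) ε := by rw [mem_ball_zero_iff, hwn]; linarith
  have hw2 : ω * w ∈ ball (0 : ℂ) ε := by
    rw [mem_ball_zero_iff, norm_mul, hωnorm, one_mul, hwn]; linarith
  obtain ⟨z1, ⟨h11, h12⟩, h13⟩ := hball hw1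
  obtain ⟨z2, ⟨h21, h22⟩, h23⟩ := hball hw2
  have heq : f z1 = f z2 := by
    have : f z1 - f z₀ = f z2 - f z₀ := by
      rw [h11, h21, h13, h23, mul_pow, hωn, one_mul]
    exact sub_left_injective this
  have hz12 := hf2 h12 h22 heq
  rw [hz12, h23] at h13
  have hw0 : w ≠ 0 := by
    intro h0
    rw [h0, norm_zero] at hwn
    linarith
  exact hω1 (mul_right_cancel₀ hw0 (by rw [h13, one_mul]))

theorem univ_deriv_ne_zero (hf : Univ f) {z₀ : ℂ} (hz : z₀ ∈ ball (0 : ℂ) 1) :
    deriv f z₀ ≠ 0 := injOn_deriv_ne_zero isOpen_ball hf.1 hf.2 hz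

/-! ### Power series jets -/

lemma iteratedDeriv_diff (hf : DifferentiableOn ℂ f (ball 0 1)) (n : ℕ) :
    DifferentiableOn ℂ (iteratedDeriv n f) (ball 0 1) := by
  induction n with
  | zero => simpa [iteratedDeriv_zero] using hf
  | succ n ih =>
    rw [iteratedDeriv_succ]
    exact ih.deriv isOpen_ball

lemma hasDerivAt_iteratedDeriv (hf : DifferentiableOn ℂ f (ball 0 1)) {z : ℂ}
    (hz : z ∈ ball (0 : ℂ) 1) (n : ℕ) :
    HasDerivAt (iteratedDeriv n f) (iteratedDeriv (n + 1) f z) z := by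
  rw [iteratedDeriv_succ]
  exact ((iteratedDeriv_diff hf n).differentiableAt (isOpen_ball.mem_nhds hz)).hasDerivAt

lemma coeff_Aser (f : ℂ → ℂ) (z : ℂ) (k : ℕ) :
    PowerSeries.coeff k (Aser f z) = iteratedDeriv (k + 1) f z / ((k + 1)! * deriv f z) := by
  simp [Aser]

lemma coeff_zero_Aser {z : ℂ} (h : deriv f z ≠ 0) :
    PowerSeries.coeff 0 (Aser f z) = 1 := by
  rw [coeff_Aser]
  simp [iteratedDeriv_one, h]

lemma constantCoeff_Aser {z : ℂ} (h : deriv f z ≠ 0) :
    PowerSeries.constantCoeff (Aser f z) = 1 := by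
  rw [← PowerSeries.coeff_zero_eq_constantCoeff_apply, coeff_zero_Aser h]

lemma A_mul_B {z : ℂ} (h : deriv f z ≠ 0) : Aser f z * Bser f z = 1 := by
  apply PowerSeries.mul_inv_cancel
  rw [constantCoeff_Aser h]
  exact one_ne_zero

/-- derivative of the coefficients of `Aser`. -/
def DAser (f : ℂ → ℂ) (z : ℂ) : PowerSeries ℂ :=
  PowerSeries.mk fun k => ((k : ℂ) + 2) * PowerSeries.coeff (k + 1) (Aser f z) -
    2 * PowerSeries.coeff 1 (Aser f z) * PowerSeries.coeff k (Aser f z)

/-- derivative of the coefficients of `Bser`. -/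
def DBser (f : ℂ → ℂ) (z : ℂ) : PowerSeries ℂ :=
  PowerSeries.mk fun k => ((k : ℂ) + 1) * PowerSeries.coeff (k + 1) (Bser f z) +
    PowerSeries.coeff (k + 1) (Bser f z * Bser f z) - PowerSeries.coeff (k + 1) (Bser f z) -
    2 * PowerSeries.coeff 1 (Bser f z) * PowerSeries.coeff k (Bser f z)

lemma hasDerivAt_coeff_Aser (hf : DifferentiableOn ℂ f (ball 0 1)) {z : ℂ}
    (hz : z ∈ ball (0 : ℂ) 1) (h : deriv f z ≠ 0) (k : ℕ) :
    HasDerivAt (fun z => PowerSeries.coeff k (Aser f z)) (PowerSeries.coeff k (DAser f z)) z := by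
  have h1 := hasDerivAt_iteratedDeriv hf hz (k + 1)
  have h2 : HasDerivAt (deriv f) (deriv (deriv f) z) z :=
    ((hf.deriv isOpen_ball).differentiableAt (isOpen_ball.mem_nhds hz)).hasDerivAt
  have hk1 : (((k + 1)! : ℕ) : ℂ) ≠ 0 := by exact_mod_cast Nat.factorial_ne_zero _
  have h3 := h1.div (h2.const_mul (((k + 1)! : ℕ) : ℂ)) (mul_ne_zero hk1 h)
  simp only [coeff_Aser]
  refine h3.congr_deriv ?_
  simp only [DAser, PowerSeries.coeff_mk, coeff_Aser]
  have e1 : iteratedDeriv (1 + 1) f z = deriv (deriv f) z := by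
    rw [iteratedDeriv_succ, iteratedDeriv_one]
  rw [e1]
  have e2 : (((k + 1 + 1)! : ℕ) : ℂ) = ((k : ℂ) + 2) * (((k + 1)! : ℕ) : ℂ) := by
    rw [Nat.factorial_succ (k + 1)]
    push_cast
    ring
  rw [e2]
  have hk2 : (k : ℂ) + 2 ≠ 0 := by
    have : ((k + 2 : ℕ) : ℂ) ≠ 0 := by exact_mod_cast Nat.succ_ne_zero (k + 1)
    simpa using this
  have e3 : (((1 + 1)! : ℕ) : ℂ) = 2 := by norm_num [Nat.factorial]
  rw [e3]
  field_simp

open PowerSeries in
lemma X_mul_DAser {z : ℂ} (h : deriv f z ≠ 0) :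
    (PowerSeries.X : PowerSeries ℂ) * DAser f z =
      PowerSeries.derivative ℂ (PowerSeries.X * Aser f z) - 1 -
        PowerSeries.C (2 * coeff 1 (Aser f z)) * (PowerSeries.X * Aser f z) := by
  ext n
  cases n with
  | zero =>
    simp [constantCoeff_Aser h]
  | succ n =>
    rw [PowerSeries.coeff_succ_X_mul, map_sub, map_sub, PowerSeries.coeff_derivative,
      PowerSeries.coeff_succ_X_mul, PowerSeries.coeff_C_mul, PowerSeries.coeff_succ_X_mul]
    simp only [DAser, PowerSeries.coeff_mk, PowerSeries.coeff_one]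
    push_cast
    simp
    ring

open PowerSeries in
lemma X_mul_DBser {z : ℂ} (h : deriv f z ≠ 0) :
    (PowerSeries.X : PowerSeries ℂ) * DBser f z =
      PowerSeries.X * PowerSeries.derivative ℂ (Bser f z) + Bser f z * Bser f z - Bser f z -
        PowerSeries.C (2 * coeff 1 (Bser f z)) * (PowerSeries.X * Bser f z) := by
  have hB0 : PowerSeries.constantCoeff (Bser f z) = 1 := by
    rw [Bser, PowerSeries.constantCoeff_inv, constantCoeff_Aser h, inv_one]
  ext n
  cases n with
  | zero =>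
    simp [hB0]
  | succ n =>
    rw [PowerSeries.coeff_succ_X_mul, map_sub, map_sub, map_add, PowerSeries.coeff_succ_X_mul,
      PowerSeries.coeff_derivative, PowerSeries.coeff_C_mul, PowerSeries.coeff_succ_X_mul]
    simp only [DBser, PowerSeries.coeff_mk]
    ring

open PowerSeries in
lemma coeff_one_add {z : ℂ} (h : deriv f z ≠ 0) :
    coeff 1 (Aser f z) + coeff 1 (Bser f z) = 0 := by
  have h1 := congrArg (coeff 1) (A_mul_B h)
  rw [PowerSeries.coeff_mul] at h1
  have hB0 : coeff 0 (Bser f z) = 1 := by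
    rw [PowerSeries.coeff_zero_eq_constantCoeff_apply, Bser, PowerSeries.constantCoeff_inv,
      constantCoeff_Aser h, inv_one]
  rw [Finset.Nat.sum_antidiagonal_succ, Finset.Nat.antidiagonal_zero, Finset.sum_singleton,
    coeff_zero_Aser h, PowerSeries.coeff_one] at h1
  simp only [zero_add, one_ne_zero, if_false] at h1
  rw [hB0] at h1
  linear_combination h1

lemma DA_B {z : ℂ} (h : deriv f z ≠ 0) :
    DAser f z * Bser f z + Aser f z * DBser f z = 0 := by
  have hX : (PowerSeries.X : PowerSeries ℂ) * (DAser f z * Bser f z + Aser f z * DBser f z) = 0 := by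
    have hAB := A_mul_B h
    have hd : Aser f z * PowerSeries.derivative ℂ (Bser f z) +
        Bser f z * PowerSeries.derivative ℂ (Aser f z) = 0 := by
      have := congrArg (PowerSeries.derivative ℂ) hAB
      rw [Derivation.leibniz, smul_eq_mul, smul_eq_mul, Derivation.map_one_eq_zero] at this
      exact this
    have hdX : PowerSeries.derivative ℂ (PowerSeries.X * Aser f z) =
        Aser f z + PowerSeries.X * PowerSeries.derivative ℂ (Aser f z) := by
      rw [Derivation.leibniz, smul_eq_mul, smul_eq_mul, PowerSeries.derivative_X]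
      ring
    have h1 := X_mul_DAser h
    have h2 := X_mul_DBser h
    have hc : PowerSeries.C (2 * PowerSeries.coeff 1 (Aser f z)) +
        PowerSeries.C (2 * PowerSeries.coeff 1 (Bser f z)) = (0 : PowerSeries ℂ) := by
      rw [← map_add, ← mul_add, coeff_one_add h, mul_zero, map_zero]
    rw [hdX] at h1
    linear_combination (Bser f z) * h1 + (Aser f z) * h2 +
      (PowerSeries.X : PowerSeries ℂ) * hd + (Bser f z - (PowerSeries.X : PowerSeries ℂ) *
        (PowerSeries.C (2 * PowerSeries.coeff 1 (Aser f z)) +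
        PowerSeries.C (2 * PowerSeries.coeff 1 (Bser f z)))) * hAB -
      (PowerSeries.X : PowerSeries ℂ) * hc
  rcases mul_eq_zero.mp hX with h1 | h1
  · exact absurd h1 PowerSeries.X_ne_zero
  · exact h1

lemma coeff_zero_Bser {z : ℂ} (h : deriv f z ≠ 0) : PowerSeries.coeff 0 (Bser f z) = 1 := by
  rw [PowerSeries.coeff_zero_eq_constantCoeff_apply, Bser, PowerSeries.constantCoeff_inv,
      constantCoeff_Aser h, inv_one]

lemma coeff_zero_DAser {z : ℂ} (h : deriv f z ≠ 0) : PowerSeries.coeff 0 (DAser f z) = 0 := by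
  simp only [DAser, PowerSeries.coeff_mk, coeff_zero_Aser h]
  push_cast
  ring

lemma coeff_zero_DBser {z : ℂ} (h : deriv f z ≠ 0) : PowerSeries.coeff 0 (DBser f z) = 0 := by
  have h1 := congrArg (PowerSeries.coeff 0) (DA_B h)
  rw [map_add, PowerSeries.coeff_mul, PowerSeries.coeff_mul] at h1
  simp only [Finset.Nat.antidiagonal_zero, Finset.sum_singleton, coeff_zero_DAser h,
    coeff_zero_Aser h, zero_mul, one_mul, zero_add, map_zero] at h1
  exact h1

/-- Derivatives of the coefficients of `Bser`. -/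
lemma hasDerivAt_coeff_Bser (hf : DifferentiableOn ℂ f (ball 0 1))
    (hd : ∀ z ∈ ball (0 : ℂ) 1, deriv f z ≠ 0) (n : ℕ) : ∀ z ∈ ball (0 : ℂ) 1,
    HasDerivAt (fun z => PowerSeries.coeff n (Bser f z)) (PowerSeries.coeff n (DBser f z)) z := by
  induction n using Nat.strong_induction_on with
  | _ n ih =>
    intro z hz
    have hev : ∀ᶠ w in 𝓝 z, w ∈ ball (0 : ℂ) 1 := isOpen_ball.mem_nhds hz
    cases n with
    | zero =>
      rw [coeff_zero_DBser (hd z hz)]
      refine (hasDerivAt_const z (1 : ℂ)).congr_of_eventuallyEq ?_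
      filter_upwards [hev] with w hw
      exact coeff_zero_Bser (hd w hw)
    | succ n =>
      -- recursion
      have hrec : ∀ w ∈ ball (0 : ℂ) 1, PowerSeries.coeff (n + 1) (Bser f w) =
          - ∑ p ∈ Finset.HasAntidiagonal.antidiagonal n, PowerSeries.coeff (p.1 + 1) (Aser f w) *
            PowerSeries.coeff p.2 (Bser f w) := by
        intro w hw
        have h1 := congrArg (PowerSeries.coeff (n + 1)) (A_mul_B (hd w hw))
        rw [PowerSeries.coeff_mul, Finset.Nat.sum_antidiagonal_succ, coeff_zero_Aser (hd w hw),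
          PowerSeries.coeff_one] at h1
        simp only [Nat.add_eq_zero_iff, one_ne_zero, and_false, if_false] at h1
        linear_combination h1
      have hrecD : PowerSeries.coeff (n + 1) (DBser f z) =
          - ∑ p ∈ Finset.HasAntidiagonal.antidiagonal n, (PowerSeries.coeff (p.1 + 1) (DAser f z) *
            PowerSeries.coeff p.2 (Bser f z) + PowerSeries.coeff (p.1 + 1) (Aser f z) *
            PowerSeries.coeff p.2 (DBser f z)) := by
        have h1 := congrArg (PowerSeries.coeff (n + 1)) (DA_B (hd z hz))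
        rw [map_add, PowerSeries.coeff_mul, PowerSeries.coeff_mul,
          Finset.Nat.sum_antidiagonal_succ, Finset.Nat.sum_antidiagonal_succ,
          coeff_zero_Aser (hd z hz), coeff_zero_DAser (hd z hz), map_zero] at h1
        rw [Finset.sum_add_distrib]
        linear_combination h1
      rw [hrecD]
      have hsum : HasDerivAt (fun w => - ∑ p ∈ Finset.HasAntidiagonal.antidiagonal n,
          PowerSeries.coeff (p.1 + 1) (Aser f w) * PowerSeries.coeff p.2 (Bser f w))
          (- ∑ p ∈ Finset.HasAntidiagonal.antidiagonal n, (PowerSeries.coeff (p.1 + 1) (DAser f z) *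
            PowerSeries.coeff p.2 (Bser f z) + PowerSeries.coeff (p.1 + 1) (Aser f z) *
            PowerSeries.coeff p.2 (DBser f z))) z := by
        apply HasDerivAt.neg
        apply HasDerivAt.fun_sum
        intro p hp
        have hp2 : p.2 < n + 1 := by
          have := Finset.HasAntidiagonal.mem_antidiagonal.mp hp
          omega
        exact (hasDerivAt_coeff_Aser hf hz (hd z hz) (p.1 + 1)).mul (ih p.2 hp2 z hz)
      refine hsum.congr_of_eventuallyEq ?_
      filter_upwards [hev] with w hw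
      exact hrec w hw

theorem hasDerivAt_lam (hf : DifferentiableOn ℂ f (ball 0 1))
    (hd : ∀ z ∈ ball (0 : ℂ) 1, deriv f z ≠ 0) (n : ℕ) {z : ℂ} (hz : z ∈ ball (0 : ℂ) 1) :
    HasDerivAt (lam f n) (((n : ℂ) + 3) * lam f (n + 1) z +
      ∑ p ∈ Finset.HasAntidiagonal.antidiagonal n, lam f p.1 z * lam f p.2 z - 2 * lam f 0 z * lam f n z) z := by
  have h := hasDerivAt_coeff_Bser hf hd (n + 1) z hz
  refine h.congr_deriv ?_
  simp only [DBser, PowerSeries.coeff_mk]
  rw [PowerSeries.coeff_mul, Finset.Nat.sum_antidiagonal_succ', Finset.Nat.sum_antidiagonal_succ]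
  simp only [coeff_zero_Bser (hd z hz), lam, zero_add]
  push_cast
  ring

theorem differentiableOn_lam (hf : DifferentiableOn ℂ f (ball 0 1))
    (hd : ∀ z ∈ ball (0 : ℂ) 1, deriv f z ≠ 0) (n : ℕ) :
    DifferentiableOn ℂ (lam f n) (ball 0 1) := fun _ hz =>
  (hasDerivAt_lam hf hd n hz).differentiableAt.differentiableWithinAt

theorem lam_zero {z : ℂ} (h : deriv f z ≠ 0) :
    deriv (deriv f) z / deriv f z = -2 * lam f 0 z := by
  have h1 := coeff_one_add h
  rw [coeff_Aser] at h1
  have e1 : iteratedDeriv (1 + 1) f z = deriv (deriv f) z := by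
    rw [iteratedDeriv_succ, iteratedDeriv_one]
  have e3 : (((1 + 1)! : ℕ) : ℂ) = 2 := by norm_num [Nat.factorial]
  rw [e1, e3] at h1
  simp only [lam, zero_add]
  have h2 : PowerSeries.coeff 1 (Bser f z) = - (deriv (deriv f) z / (2 * deriv f z)) := by
    linear_combination h1
  rw [h2]
  field_simp

end

end Vale.Agent.P142
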