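import Vale.Agent.P142.BetaMeans

open Complex MeasureTheory Metric Set Filter Topology intervalIntegral
open scoped Real ComplexConjugate ENNReal

namespace Vale.Agent.P142

noncomputable section

variable {a : ℝ}

lemma cc_two (n : ℕ) : cc 2 n = n + 1 := by
  induction n with
  | zero => simp [cc_zero]
  | succ n ih =>
    rw [cc_succ, ih]
    have : (n : ℝ) + 1 ≠ 0 := by positivity
    push_cast
    field_simp
    ring

/-- Transvectant coefficients of the family `G`. -/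
def rcoef (a : ℝ) (G : ℕ → ℂ → ℂ) (N k : ℕ) : ℂ :=
  ∑ p ∈ Finset.HasAntidiagonal.antidiagonal (N + k), (RT (a + 2) 2 N p.1 p.2 : ℂ) * tc (G p.2) p.1

lemma sum_mean2_le {G : ℕ → ℂ → ℂ} {g : ℂ → ℂ} (hG : ∀ n, DifferentiableOn ℂ (G n) (ball 0 1))
    (hg : DifferentiableOn ℂ g (ball 0 1))
    (hb : ∀ z ∈ ball (0 : ℂ) 1, ∀ M, ∑ n ∈ Finset.range M, ‖G n z‖ ^ 2 / ((n : ℝ) + 1) ≤
      ‖g z‖ ^ 2 * ((1 - ‖z‖ ^ 2)⁻¹) ^ 2) {r : ℝ} (hr0 : 0 ≤ r) (hr1 : r < 1) (M : ℕ) :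
    ∑ n ∈ Finset.range M, mean2 (G n) r / ((n : ℝ) + 1) ≤ ((1 - r ^ 2)⁻¹) ^ 2 * mean2 g r := by
  have hpi : (-π) ≤ π := by linarith [Real.pi_pos]
  have hmem := fun θ : ℝ => circleMap_mem_unit hr0 hr1 θ
  have hGc : ∀ n, Continuous (fun θ : ℝ => ‖G n (circleMap 0 r θ)‖ ^ 2) := fun n =>
    (((hG n).continuousOn.comp_continuous (continuous_circleMap 0 r) hmem).norm).pow 2
  have hgc : Continuous (fun θ : ℝ => ‖g (circleMap 0 r θ)‖ ^ 2) :=
    ((hg.continuousOn.comp_continuous (continuous_circleMap 0 r) hmem).norm).pow 2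
  have e1 : ∑ n ∈ Finset.range M, mean2 (G n) r / ((n : ℝ) + 1) = (2 * π)⁻¹ *
      ∫ θ in (-π)..π, ∑ n ∈ Finset.range M, ‖G n (circleMap 0 r θ)‖ ^ 2 / ((n : ℝ) + 1) := by
    rw [intervalIntegral.integral_finsetSum, Finset.mul_sum]
    · apply Finset.sum_congr rfl
      intro n _
      rw [intervalIntegral.integral_div, mean2]
      ring
    · intro n _
      exact ((hGc n).div_const _).intervalIntegrable _ _
  have e2 : ((1 - r ^ 2)⁻¹) ^ 2 * mean2 g r = (2 * π)⁻¹ *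
      ∫ θ in (-π)..π, ‖g (circleMap 0 r θ)‖ ^ 2 * ((1 - r ^ 2)⁻¹) ^ 2 := by
    rw [intervalIntegral.integral_mul_const, mean2]
    ring
  rw [e1, e2]
  apply mul_le_mul_of_nonneg_left _ (by positivity)
  apply intervalIntegral.integral_mono_on hpi
  · apply Continuous.intervalIntegrable
    exact continuous_finsetSum _ (fun n _ => (hGc n).div_const _)
  · exact (hgc.mul continuous_const).intervalIntegrable _ _
  · intro θ _
    have h := hb _ (hmem θ) M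
    rwa [norm_circleMap_zero, abs_of_nonneg hr0] at h

/-- Step 3: the double coefficient sum. -/
lemma double_sum_le (ha : 1 < a) {G : ℕ → ℂ → ℂ} {g : ℂ → ℂ}
    (hG : ∀ n, DifferentiableOn ℂ (G n) (ball 0 1)) (hg : DifferentiableOn ℂ g (ball 0 1))
    (hb : ∀ z ∈ ball (0 : ℂ) 1, ∀ M, ∑ n ∈ Finset.range M, ‖G n z‖ ^ 2 / ((n : ℝ) + 1) ≤
      ‖g z‖ ^ 2 * ((1 - ‖z‖ ^ 2)⁻¹) ^ 2) :
    ∑' n : ℕ, ∑' k : ℕ, ENNReal.ofReal (‖tc (G n) k‖ ^ 2 / (cc (a + 2) k * cc 2 n)) ≤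
      ENNReal.ofReal (a + 1) *
        ∫⁻ r in Ioo (0 : ℝ) 1, ENNReal.ofReal (bw (a - 2) 0 r * mean2 g r) := by
  have ha1 : -1 < a := by linarith
  have ha2 : 0 < a + 2 := by linarith
  apply ENNReal.tsum_le_of_sum_range_le
  intro M
  have h1 : ∀ n, ∑' k : ℕ, ENNReal.ofReal (‖tc (G n) k‖ ^ 2 / (cc (a + 2) k * cc 2 n)) =
      ENNReal.ofReal (a + 1) *
      ∫⁻ r in Ioo (0 : ℝ) 1, ENNReal.ofReal (bw a 0 r * mean2 (G n) r / ((n : ℝ) + 1)) := by
    intro n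
    have h2 := lintegral_mean2 (hG n) ha1
    have h3 : ∀ r, ENNReal.ofReal (bw a 0 r * mean2 (G n) r / ((n : ℝ) + 1)) =
        ENNReal.ofReal (((n : ℝ) + 1)⁻¹) * ENNReal.ofReal (bw a 0 r * mean2 (G n) r) := by
      intro r
      rw [← ENNReal.ofReal_mul (by positivity)]
      congr 1
      ring
    simp only [h3]
    rw [lintegral_const_mul' _ _ ENNReal.ofReal_ne_top, h2, ← ENNReal.tsum_mul_left,
      ← ENNReal.tsum_mul_left]
    congr 1
    ext k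
    rw [← ENNReal.ofReal_mul (by positivity), ← ENNReal.ofReal_mul (by linarith), cc_two]
    congr 1
    have hcc := (cc_pos ha2 k).ne'
    have hn : (n : ℝ) + 1 ≠ 0 := by positivity
    have ha3 : a + 1 ≠ 0 := by linarith
    field_simp
  simp only [h1]
  rw [← Finset.mul_sum]
  gcongr
  rw [← lintegral_finsetSum']
  · apply setLIntegral_mono' measurableSet_Ioo
    intro r hr
    have hu : 0 < 1 - r ^ 2 := by nlinarith [hr.1, hr.2]
    have hbw := bw_nonneg a 0 hr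
    rw [← ENNReal.ofReal_sum_of_nonneg]
    · apply ENNReal.ofReal_le_ofReal
      have h4 := sum_mean2_le hG hg hb hr.1.le hr.2 M
      have h5 := mul_le_mul_of_nonneg_left h4 hbw
      have e1 : bw a 0 r * ∑ n ∈ Finset.range M, mean2 (G n) r / ((n : ℝ) + 1) =
          ∑ n ∈ Finset.range M, bw a 0 r * mean2 (G n) r / ((n : ℝ) + 1) := by
        rw [Finset.mul_sum]
        apply Finset.sum_congr rfl
        intro n _
        ring
      have e2 : bw a 0 r * (((1 - r ^ 2)⁻¹) ^ 2 * mean2 g r) = bw (a - 2) 0 r * mean2 g r := by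
        rw [bw, bw, Real.rpow_sub hu, Real.rpow_two]
        field_simp
      rw [e1, e2] at h5
      exact h5
    · intro n _
      have := mean2_nonneg (G n) r
      positivity
  · intro n _
    have hc : ContinuousOn (fun r => ∫ θ in (-π)..π, ‖G n (circleMap 0 r θ)‖ ^ 2) (Ioo (-1) 1) :=
      continuousOn_circle_integral ((hG n).continuousOn.norm.pow 2)
    have hc2 : ContinuousOn (mean2 (G n)) (Ioo 0 1) := by
      unfold mean2
      exact continuousOn_const.mul (hc.mono (fun r hr => ⟨by linarith [hr.1], hr.2⟩))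
    have hm : AEMeasurable (mean2 (G n)) (volume.restrict (Ioo 0 1)) :=
      hc2.aemeasurable measurableSet_Ioo
    have hbm : Measurable (bw a 0) := by
      unfold bw
      fun_prop
    exact ((hbm.aemeasurable.mul hm).div_const _).ennreal_ofReal

/-- The transvectant inequality in coefficient form. -/
theorem FR_coef (ha : 1 < a) {G : ℕ → ℂ → ℂ} {g : ℂ → ℂ}
    (hG : ∀ n, DifferentiableOn ℂ (G n) (ball 0 1)) (hg : DifferentiableOn ℂ g (ball 0 1))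
    (hb : ∀ z ∈ ball (0 : ℂ) 1, ∀ M, ∑ n ∈ Finset.range M, ‖G n z‖ ^ 2 / ((n : ℝ) + 1) ≤
      ‖g z‖ ^ 2 * ((1 - ‖z‖ ^ 2)⁻¹) ^ 2) (K : ℕ) :
    ∑ N ∈ Finset.range K, ∑' k : ℕ, ENNReal.ofReal (‖rcoef a G N k‖ ^ 2 /
        (kap (a + 2) 2 N * cc (a + 4 + 2 * N) k)) ≤
      ENNReal.ofReal (a + 1) *
        ∫⁻ r in Ioo (0 : ℝ) 1, ENNReal.ofReal (bw (a - 2) 0 r * mean2 g r) := by
  have ha2 : 0 < a + 2 := by linarith
  refine le_trans ?_ (double_sum_le ha hG hg hb)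
  -- rearrange the double sum along antidiagonals
  have e1 : ∑' n : ℕ, ∑' k : ℕ, ENNReal.ofReal (‖tc (G n) k‖ ^ 2 / (cc (a + 2) k * cc 2 n)) =
      ∑' L : ℕ, ∑ p ∈ Finset.HasAntidiagonal.antidiagonal L,
        ENNReal.ofReal (‖tc (G p.2) p.1‖ ^ 2 / (cc (a + 2) p.1 * cc 2 p.2)) := by
    rw [ENNReal.tsum_comm, ← ENNReal.tsum_prod
      (f := fun k n => ENNReal.ofReal (‖tc (G n) k‖ ^ 2 / (cc (a + 2) k * cc 2 n))),
      ← (Finset.HasAntidiagonal.sigmaAntidiagonalEquivProd (A := ℕ)).tsum_eq, ENNReal.tsum_sigma']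
    congr 1
    ext L
    rw [← Finset.tsum_subtype]
    rfl
  rw [e1]
  set H : ℕ → ℕ → ℝ≥0∞ := fun N L => if N ≤ L then
    ENNReal.ofReal (‖∑ p ∈ Finset.HasAntidiagonal.antidiagonal L,
      (RT (a + 2) 2 N p.1 p.2 : ℂ) * tc (G p.2) p.1‖ ^ 2 /
        (kap (a + 2) 2 N * cc (a + 2 + 2 + 2 * N) (L - N))) else 0 with hH
  have e2 : ∀ N, ∑' k : ℕ, ENNReal.ofReal (‖rcoef a G N k‖ ^ 2 /
        (kap (a + 2) 2 N * cc (a + 4 + 2 * N) k)) ≤ ∑' L : ℕ, H N L := by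
    intro N
    have h1 : ∀ k, ENNReal.ofReal (‖rcoef a G N k‖ ^ 2 /
        (kap (a + 2) 2 N * cc (a + 4 + 2 * N) k)) = H N (N + k) := by
      intro k
      rw [hH]
      simp only
      rw [if_pos (Nat.le_add_right N k), Nat.add_sub_cancel_left, rcoef,
        show a + 2 + 2 + 2 * (N : ℝ) = a + 4 + 2 * N by ring]
    simp only [h1]
    exact ENNReal.tsum_comp_le_tsum_of_injective (fun x y h => by simpa using h) (H N)
  refine le_trans (Finset.sum_le_sum (fun N _ => e2 N)) ?_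
  rw [← Summable.tsum_finsetSum (fun N _ => ENNReal.summable)]
  apply ENNReal.tsum_le_tsum
  intro L
  have hb := bessel_anti (a := a + 2) (c := 2) ha2 two_pos (fun m n => tc (G n) m) L K
  have e3 : ∑ N ∈ Finset.range K, H N L =
      ∑ N ∈ (Finset.range K).filter (fun N => N ≤ L),
      ENNReal.ofReal (‖∑ p ∈ Finset.HasAntidiagonal.antidiagonal L,
      (RT (a + 2) 2 N p.1 p.2 : ℂ) * tc (G p.2) p.1‖ ^ 2 /
        (kap (a + 2) 2 N * cc (a + 2 + 2 + 2 * N) (L - N))) := by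
    rw [Finset.sum_filter]
  rw [e3, ← ENNReal.ofReal_sum_of_nonneg, ← ENNReal.ofReal_sum_of_nonneg]
  · exact ENNReal.ofReal_le_ofReal hb
  · intro p _
    have h1 := cc_pos ha2 p.1
    have h2 := cc_pos (two_pos (α := ℝ)) p.2
    positivity
  · intro N _
    have h1 := kap_pos ha2 (two_pos (α := ℝ)) N
    have h2 := cc_pos (show 0 < a + 2 + 2 + 2 * (N : ℝ) by positivity) (L - N)
    positivity

/-- The transvectant inequality in integral form. -/
theorem FR_int (ha : 1 < a) {G : ℕ → ℂ → ℂ} {g : ℂ → ℂ}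
    (hG : ∀ n, DifferentiableOn ℂ (G n) (ball 0 1)) (hg : DifferentiableOn ℂ g (ball 0 1))
    (hb : ∀ z ∈ ball (0 : ℂ) 1, ∀ M, ∑ n ∈ Finset.range M, ‖G n z‖ ^ 2 / ((n : ℝ) + 1) ≤
      ‖g z‖ ^ 2 * ((1 - ‖z‖ ^ 2)⁻¹) ^ 2) (K : ℕ) {p : ℕ → ℂ → ℂ}
    (hp : ∀ N, DifferentiableOn ℂ (p N) (ball 0 1))
    (hpc : ∀ N k, tc (p N) k = rcoef a G N k) :
    ∑ N ∈ Finset.range K, ENNReal.ofReal ((a + 3 + 2 * N) / kap (a + 2) 2 N) *
      ∫⁻ r in Ioo (0 : ℝ) 1, ENNReal.ofReal (bw (a + 2 + 2 * N) 0 r * mean2 (p N) r) ≤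
      ENNReal.ofReal (a + 1) *
        ∫⁻ r in Ioo (0 : ℝ) 1, ENNReal.ofReal (bw (a - 2) 0 r * mean2 g r) := by
  have ha2 : 0 < a + 2 := by linarith
  refine le_trans (le_of_eq ?_) (FR_coef ha hG hg hb K)
  apply Finset.sum_congr rfl
  intro N _
  have hN : (0 : ℝ) ≤ N := Nat.cast_nonneg N
  have hk := kap_pos ha2 (two_pos (α := ℝ)) N
  rw [lintegral_mean2 (hp N) (show -1 < a + 2 + 2 * (N : ℝ) by linarith), ← ENNReal.tsum_mul_left]
  congr 1
  ext k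
  rw [← ENNReal.ofReal_mul (by positivity), hpc]
  congr 1
  have h1 := cc_pos (show 0 < a + 4 + 2 * (N : ℝ) by positivity) k
  have h2 : a + 2 + 2 * (N : ℝ) + 2 = a + 4 + 2 * N := by ring
  have h3 : a + 2 + 2 * (N : ℝ) + 1 = a + 3 + 2 * N := by ring
  have h4 : 0 < a + 3 + 2 * (N : ℝ) := by positivity
  rw [h2, h3]
  field_simp

end

end Vale.Agent.P142
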