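import Vale.Agent.P142.GoodPhi

open Complex MeasureTheory Metric Set Filter Topology intervalIntegral
open scoped Real ComplexConjugate

namespace Vale.Agent.P142

noncomputable section

variable {f : ℂ → ℂ} {t β : ℝ} {r : ℝ}

/-- The limiting Grunsky forms. -/
def bco (x : ℕ → ℂ) (m : ℕ) : ℂ :=
  ∑ n ∈ Finset.range (m + 1), (m.choose n : ℂ) * (-1) ^ (m - n) * x (n + 1)

lemma norm_bco_sub_gco (hf : Univ f) {z : ℂ} (hz : z ∈ ball (0 : ℂ) 1) (m : ℕ) :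
    ‖bco (XX f z) m - gco f z m‖ ≤ (1 - ‖z‖ ^ 2) * (m * 3 ^ m) := by
  have hu := unit_pos hz
  set ρ : ℝ := ‖z‖ ^ 2 with hρ
  have hρ0 : 0 ≤ ρ := by positivity
  have hρ1 : ρ ≤ 1 := by linarith
  have e : bco (XX f z) m - gco f z m = ∑ n ∈ Finset.range (m + 1),
      ((m.choose n : ℝ) * (-1) ^ (m - n) * (1 - ρ ^ (m - n)) : ℝ) * X f (n + 1) z := by
    rw [bco, gco, ← Finset.sum_sub_distrib]
    apply Finset.sum_congr rfl
    intro n _
    rw [XX, neg_pow ((ρ : ℝ) : ℂ)]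
    push_cast
    ring
  rw [e]
  refine le_trans (norm_sum_le _ _) ?_
  calc ∑ n ∈ Finset.range (m + 1),
      ‖(((m.choose n : ℝ) * (-1) ^ (m - n) * (1 - ρ ^ (m - n)) : ℝ) : ℂ) * X f (n + 1) z‖
      ≤ ∑ n ∈ Finset.range (m + 1), ((1 - ρ) * m) * ((m.choose n : ℝ) * 2 ^ n) := by
        apply Finset.sum_le_sum
        intro n _
        have h1 : 0 ≤ 1 - ρ ^ (m - n) := by
          have := pow_le_one₀ (n := m - n) hρ0 hρ1
          linarith
        have h2 : 1 - ρ ^ (m - n) ≤ m * (1 - ρ) := by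
          have h3 := one_add_mul_le_pow (a := ρ - 1) (by linarith) (m - n)
          have h4 : (1 + (ρ - 1)) = ρ := by ring
          rw [h4] at h3
          have h5 : ((m - n : ℕ) : ℝ) ≤ m := by exact_mod_cast Nat.sub_le m n
          nlinarith
        have h3 := norm_X_succ_le hf hz n
        have h4 : (0 : ℝ) ≤ (m.choose n : ℝ) := Nat.cast_nonneg _
        rw [norm_mul, Complex.norm_real, Real.norm_eq_abs, abs_mul, abs_mul, abs_pow, abs_neg,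
          abs_one, one_pow, mul_one, abs_of_nonneg h1, abs_of_nonneg h4]
        calc (m.choose n : ℝ) * (1 - ρ ^ (m - n)) * ‖X f (n + 1) z‖
            ≤ (m.choose n : ℝ) * (m * (1 - ρ)) * 2 ^ n := by
              apply mul_le_mul _ h3 (norm_nonneg _)
              · exact mul_nonneg h4 (le_trans h1 h2)
              · exact mul_le_mul_of_nonneg_left h2 h4
          _ = ((1 - ρ) * m) * ((m.choose n : ℝ) * 2 ^ n) := by ring
    _ = (1 - ρ) * (m * 3 ^ m) := by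
        rw [← Finset.mul_sum]
        have h := add_pow (2 : ℝ) 1 m
        have h2 : ∑ n ∈ Finset.range (m + 1), (m.choose n : ℝ) * 2 ^ n = 3 ^ m := by
          rw [show (3 : ℝ) = 2 + 1 by norm_num, h]
          apply Finset.sum_congr rfl
          intro n _
          rw [one_pow]; ring
        rw [h2]; ring

lemma bco_area (K : ℕ) : ∃ D : ℝ, 0 ≤ D ∧ ∀ f, Univ f → ∀ z ∈ ball (0 : ℂ) 1,
    ∑ m ∈ Finset.range K, ((m : ℝ) + 1) * ‖bco (XX f z) m‖ ^ 2 ≤ 1 + D * (1 - ‖z‖ ^ 2) := by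
  refine ⟨∑ m ∈ Finset.range K, ((m : ℝ) + 1) * (2 * (m * 3 ^ m) + (m * 3 ^ m) ^ 2),
    Finset.sum_nonneg (fun m _ => by positivity), ?_⟩
  intro f hf z hz
  have hu := unit_pos hz
  have hu1 : 1 - ‖z‖ ^ 2 ≤ 1 := by nlinarith [sq_nonneg ‖z‖]
  have h := area_jets hf hz K
  rw [Finset.sum_mul]
  refine le_trans ?_ (add_le_add_left h _)
  rw [← Finset.sum_add_distrib]
  apply Finset.sum_le_sum
  intro m _
  set Dm : ℝ := (m * 3 ^ m : ℝ) with hDm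
  have hDm0 : 0 ≤ Dm := by positivity
  have h1 := norm_bco_sub_gco hf hz m
  have h2 := norm_gco_le hf hz m
  have h3 : ‖bco (XX f z) m‖ ≤ ‖gco f z m‖ + (1 - ‖z‖ ^ 2) * Dm := by
    have e : bco (XX f z) m = gco f z m + (bco (XX f z) m - gco f z m) := by ring
    calc ‖bco (XX f z) m‖ = ‖gco f z m + (bco (XX f z) m - gco f z m)‖ := by rw [← e]
      _ ≤ ‖gco f z m‖ + ‖bco (XX f z) m - gco f z m‖ := norm_add_le _ _
      _ ≤ _ := by linarith
  have h4 : ‖bco (XX f z) m‖ ^ 2 ≤ ‖gco f z m‖ ^ 2 +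
      (2 * Dm + Dm ^ 2) * (1 - ‖z‖ ^ 2) := by
    have h5 : ‖bco (XX f z) m‖ ^ 2 ≤ (‖gco f z m‖ + (1 - ‖z‖ ^ 2) * Dm) ^ 2 :=
      pow_le_pow_left₀ (norm_nonneg _) h3 2
    have h6 : 0 ≤ (1 - ‖z‖ ^ 2) * Dm := mul_nonneg hu.le hDm0
    have h7 : ((1 - ‖z‖ ^ 2) * Dm) ^ 2 ≤ Dm ^ 2 * (1 - ‖z‖ ^ 2) := by
      have : ((1 - ‖z‖ ^ 2) * Dm) ^ 2 = Dm ^ 2 * (1 - ‖z‖ ^ 2) * (1 - ‖z‖ ^ 2) := by ring
      rw [this]
      have h8 : 0 ≤ Dm ^ 2 * (1 - ‖z‖ ^ 2) := mul_nonneg (sq_nonneg _) hu.le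
      nlinarith
    have h9 : 2 * ‖gco f z m‖ * ((1 - ‖z‖ ^ 2) * Dm) ≤ 2 * ((1 - ‖z‖ ^ 2) * Dm) := by
      nlinarith [norm_nonneg (gco f z m)]
    nlinarith
  have hm : (0 : ℝ) ≤ (m : ℝ) + 1 := by positivity
  nlinarith [mul_le_mul_of_nonneg_left h4 hm]

/-! ### Dilations -/

/-- `f (l z)`. -/
def dil (f : ℂ → ℂ) (l : ℝ) (z : ℂ) : ℂ := f (l * z)

lemma dil_mem {l : ℝ} (hl0 : 0 < l) (hl1 : l ≤ 1) {z : ℂ} (hz : z ∈ ball (0 : ℂ) 1) :
    (l : ℂ) * z ∈ ball (0 : ℂ) 1 := by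
  rw [mem_ball_zero_iff] at *
  rw [norm_mul, Complex.norm_real, Real.norm_eq_abs, abs_of_pos hl0]
  nlinarith [norm_nonneg z]

lemma dil_univ (hf : Univ f) {l : ℝ} (hl0 : 0 < l) (hl1 : l ≤ 1) : Univ (dil f l) := by
  constructor
  · unfold dil
    apply hf.1.comp
    · fun_prop
    · intro z hz; exact dil_mem hl0 hl1 hz
  · intro z hz w hw h
    unfold dil at h
    have h1 := hf.2 (dil_mem hl0 hl1 hz) (dil_mem hl0 hl1 hw) h
    have hl : (l : ℂ) ≠ 0 := by exact_mod_cast hl0.ne'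
    exact mul_left_cancel₀ hl h1

lemma dil_deriv (hf : Univ f) {l : ℝ} (hl0 : 0 < l) (hl1 : l ≤ 1) {z : ℂ}
    (hz : z ∈ ball (0 : ℂ) 1) : deriv (dil f l) z = l * deriv f (l * z) := by
  have h1 : HasDerivAt f (deriv f (l * z)) (l * z) :=
    (hf.1.differentiableAt (isOpen_ball.mem_nhds (dil_mem hl0 hl1 hz))).hasDerivAt
  have h2 : HasDerivAt (fun z : ℂ => (l : ℂ) * z) (l * 1) z := (hasDerivAt_id z).const_mul (l : ℂ)
  have h3 : HasDerivAt (dil f l) (deriv f (l * z) * (l * 1)) z := HasDerivAt.comp z h1 h2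
  rw [h3.deriv]
  ring

lemma dil_MM (hf : Univ f) {l : ℝ} (hl0 : 0 < l) (hl1 : l ≤ 1) (hr0 : 0 ≤ r) (hr1 : r < 1) :
    MM (dil f l) t r = l ^ t * MM f t (l * r) := by
  unfold MM
  rw [← intervalIntegral.integral_const_mul]
  apply intervalIntegral.integral_congr
  intro θ _
  simp only
  rw [dil_deriv hf hl0 hl1 (circleMap_mem_unit hr0 hr1 θ), norm_mul, Complex.norm_real,
    Real.norm_eq_abs, abs_of_pos hl0, Real.mul_rpow hl0.le (norm_nonneg _)]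
  have : (l : ℂ) * circleMap 0 r θ = circleMap 0 (l * r) θ := by
    simp only [circleMap_zero]
    push_cast
    ring
  rw [this]

lemma MM_continuousAt (hf : Univ f) (t : ℝ) (hr0 : 0 < r) (hr1 : r < 1) :
    ContinuousAt (MM f t) r := (MM_deriv hf t hr0 hr1).continuousAt

lemma dil_MM_bdd (hf : Univ f) {l : ℝ} (hl0 : 0 < l) (hl1 : l < 1) (t : ℝ) :
    ∃ B : ℝ, ∀ r ∈ Ico (1 / 2 : ℝ) 1, MM (dil f l) t r ≤ B := by
  have hc : ContinuousOn (fun s => l ^ t * MM f t s) (Icc (l * (1 / 2)) l) := by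
    intro s hs
    have hs0 : 0 < s := lt_of_lt_of_le (by positivity) hs.1
    have hs1 : s < 1 := lt_of_le_of_lt hs.2 hl1
    exact (continuousAt_const.mul (MM_continuousAt hf t hs0 hs1)).continuousWithinAt
  obtain ⟨B, hB⟩ := isCompact_Icc.exists_bound_of_continuousOn hc
  refine ⟨B, fun r hr => ?_⟩
  rw [dil_MM hf hl0 hl1.le (by linarith [hr.1]) hr.2]
  have := hB (l * r) ⟨by nlinarith [hr.1], by nlinarith [hr.2]⟩
  exact le_trans (le_abs_self _) this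

/-- The Lyapunov method. -/
theorem mean_bound_aux (hβ : 0 < β) {Φ P : (ℕ → ℂ) → ℂ} (hG : GoodPhi t β Φ P) {K : ℕ}
    {c τ : ℝ} (hτ : 0 < τ) (hc : 0 ≤ c)
    (hcert : ∀ x, Box x → ∀ e : ℝ, 0 ≤ e →
      ∑ m ∈ Finset.range K, ((m : ℝ) + 1) * ‖bco x m‖ ^ 2 ≤ 1 + e → τ - c * e ≤ (P x).re) :
    ∃ C r₀ : ℝ, 1 / 2 ≤ r₀ ∧ r₀ < 1 ∧ ∀ f, Univ f → (∃ B, ∀ r ∈ Ico r₀ 1, MM f t r ≤ B) →
      ∀ r ∈ Ico r₀ 1, Wr r ^ β * MM f t r ≤ C * MM f t r₀ := by
  obtain ⟨D, hD0, hD⟩ := bco_area K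
  obtain ⟨E, ⟨CE, hCE⟩, hEc, hEx⟩ := hG.ex
  obtain ⟨CΦ, hCΦ⟩ := hG.bdd
  set S : ℝ := c * D + |CE| + 1 with hS
  have hS0 : 0 < S := by positivity
  set r₀ : ℝ := max (1 / 2) (1 - τ / (4 * S)) with hr₀
  have hr₀2 : 1 / 2 ≤ r₀ := le_max_left _ _
  have hr₀1 : r₀ < 1 := by
    rw [hr₀, max_lt_iff]
    constructor
    · norm_num
    · have : 0 < τ / (4 * S) := by positivity
      linarith
  have hr₀0 : 0 < r₀ := by linarith
  set κ : ℝ := 6 * |t| with hκ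
  have hκ0 : 0 ≤ κ := by positivity
  have hk : 0 < (τ / 2) / (β + κ) := by positivity
  refine ⟨Wr r₀ ^ β * CΦ / ((τ / 2) / (β + κ)), r₀, hr₀2, hr₀1, ?_⟩
  intro f hf ⟨B, hB⟩ r hr
  have hd : ∀ z ∈ ball (0 : ℂ) 1, deriv f z ≠ 0 := fun z hz => univ_deriv_ne_zero hf hz
  have hzb : ∀ r : ℝ, r < 1 → ∀ z : ℂ, ‖z‖ = r → z ∈ ball (0 : ℂ) 1 := fun r hr z hz => by
    rw [mem_ball_zero_iff, hz]; exact hr
  have hΦc := comp_XX_cont hf.1 hd hG.cont
  have hPc := comp_XX_cont hf.1 hd hG.contP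
  have hEcc := comp_XX_cont hf.1 hd hEc
  set L : ℝ → ℝ := fun s => (wInt f t (fun z => Φ (XX f z)) s).re with hL
  set L' : ℝ → ℝ := fun r => qr r * (β * L r - (wInt f t (fun z => P (XX f z)) r).re +
    (1 - r ^ 2) * (wInt f t (fun z => E (XX f z)) r).re) with hL'
  have hpos : ∀ r ∈ Ico r₀ 1, 0 < r := fun r hr => lt_of_lt_of_le hr₀0 hr.1
  have hLd : ∀ r ∈ Ico r₀ 1, HasDerivAt L (L' r) r := by
    intro r hr
    have h1 := hEx f hf.1 hd r (hpos r hr) hr.2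
    have h2 : HasDerivAt L _ r := Complex.reCLM.hasFDerivAt.comp_hasDerivAt r h1
    refine h2.congr_deriv ?_
    rw [Complex.reCLM_apply, re_ofReal_mul, add_re, sub_re, re_ofReal_mul, re_ofReal_mul]
  have hlyap := ode_lyap (L := L) (M := MM f t) (L' := L')
    (M' := fun r => qr r * (wInt f t (fun z => -(t * XX f z 0)) r).re) (β := β) (τ := τ / 2)
    (κ := κ) (C := CΦ) (B := B) (r₀ := r₀) hβ (by positivity) hκ0 hr₀0 hLd
    (fun r hr => MM_deriv hf t (hpos r hr) hr.2) ?_ ?_ (fun r _ => MM_nonneg f t r) hB ?_ r hr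
  · rw [div_mul_eq_mul_div, le_div_iff₀ hk]
    linarith
  · -- L' bound
    intro r hr
    have hr0 := hpos r hr
    have hu : 0 < 1 - r ^ 2 := by nlinarith [hr.2]
    have hq := qr_pos hr0 hr.2
    have hM := MM_nonneg f t r
    have hP1 : (τ - c * (D * (1 - r ^ 2))) * MM f t r ≤ (wInt f t (fun z => P (XX f z)) r).re := by
      apply wInt_re_mono hf.1 hd hPc hr0.le hr.2
      intro z hz
      have hzz := hzb r hr.2 z hz
      have h3 := hD f hf z hzz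
      rw [hz] at h3
      exact hcert _ (XX_box hf hzz) _ (mul_nonneg hD0 hu.le) h3
    have hE1 : |(wInt f t (fun z => E (XX f z)) r).re| ≤ |CE| * MM f t r := by
      apply abs_wInt_re_le hf.1 hd hEcc hr0.le hr.2
      intro z hz
      exact le_trans (hCE _ (XX_box hf (hzb r hr.2 z hz))) (le_abs_self CE)
    have hE2 : (wInt f t (fun z => E (XX f z)) r).re ≤ |CE| * MM f t r :=
      le_trans (le_abs_self _) hE1
    have hE3 : (1 - r ^ 2) * (wInt f t (fun z => E (XX f z)) r).re ≤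
        (1 - r ^ 2) * (|CE| * MM f t r) := mul_le_mul_of_nonneg_left hE2 hu.le
    have hu2 : (1 - r ^ 2) * S ≤ τ / 2 := by
      have h4 : 1 - τ / (4 * S) ≤ r := le_trans (le_max_right _ _) hr.1
      have h5 : 1 - r ^ 2 ≤ 2 * (1 - r) := by nlinarith [sq_nonneg (1 - r)]
      have h6 : 1 - r ^ 2 ≤ τ / (2 * S) := by
        have : τ / (2 * S) = 2 * (τ / (4 * S)) := by field_simp; ring
        rw [this]; linarith
      have h7 := (le_div_iff₀ (by positivity : (0 : ℝ) < 2 * S)).mp h6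
      linarith
    have key : β * L r - (wInt f t (fun z => P (XX f z)) r).re +
        (1 - r ^ 2) * (wInt f t (fun z => E (XX f z)) r).re ≤ β * L r - τ / 2 * MM f t r := by
      have h7 : (1 - r ^ 2) * (c * D + |CE|) * MM f t r ≤ τ / 2 * MM f t r := by
        apply mul_le_mul_of_nonneg_right _ hM
        rw [hS] at hu2
        nlinarith
      nlinarith
    exact mul_le_mul_of_nonneg_left key hq.le
  · intro r hr
    have hr0 := hpos r hr
    have hq := qr_pos hr0 hr.2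
    have hXc : ContinuousOn (fun z => -((t : ℂ) * XX f z 0)) (ball 0 1) :=
      (continuousOn_const.mul (continuousOn_pi.mp (XX_continuousOn hf.1 hd) 0)).neg
    have h1 : |(wInt f t (fun z => -((t : ℂ) * XX f z 0)) r).re| ≤ κ * MM f t r := by
      apply abs_wInt_re_le hf.1 hd hXc hr0.le hr.2
      intro z hz
      have h2 := (XX_box hf (hzb r hr.2 z hz)).1
      rw [norm_neg, norm_mul, Complex.norm_real, Real.norm_eq_abs, hκ]
      nlinarith [abs_nonneg t]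
    have h3 := (abs_le.mp h1).1
    have h4 := mul_le_mul_of_nonneg_left h3 hq.le
    linarith
  · intro r hr
    exact abs_wInt_re_le hf.1 hd hΦc (hpos r hr).le hr.2
      (fun z hz => hCΦ _ (XX_box hf (hzb r hr.2 z hz)))

theorem mean_bound (hβ : 0 < β) {Φ P : (ℕ → ℂ) → ℂ} (hG : GoodPhi t β Φ P) {K : ℕ}
    {c τ : ℝ} (hτ : 0 < τ) (hc : 0 ≤ c)
    (hcert : ∀ x, Box x → ∀ e : ℝ, 0 ≤ e →
      ∑ m ∈ Finset.range K, ((m : ℝ) + 1) * ‖bco x m‖ ^ 2 ≤ 1 + e → τ - c * e ≤ (P x).re) :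
    ∃ C r₀ : ℝ, 0 ≤ C ∧ 1 / 2 ≤ r₀ ∧ r₀ < 1 ∧ ∀ f, Univ f → ∀ r ∈ Ico r₀ 1,
      (1 - r) ^ β * MM f t r ≤ C * MM f t r₀ := by
  obtain ⟨C, r₀, h1, h2, h3⟩ := mean_bound_aux hβ hG hτ hc hcert
  refine ⟨|C|, r₀, abs_nonneg C, h1, h2, ?_⟩
  intro f hf r hr
  have hr₀0 : 0 < r₀ := by linarith
  have hr0 : 0 < r := lt_of_lt_of_le hr₀0 hr.1
  have hstep : ∀ l : ℝ, 0 < l → l < 1 →
      Wr r ^ β * (l ^ t * MM f t (l * r)) ≤ C * (l ^ t * MM f t (l * r₀)) := by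
    intro l hl0 hl1
    obtain ⟨B, hB⟩ := dil_MM_bdd hf hl0 hl1 t
    have h4 := h3 (dil f l) (dil_univ hf hl0 hl1.le)
      ⟨B, fun s hs => hB s ⟨le_trans h1 hs.1, hs.2⟩⟩ r hr
    rwa [dil_MM hf hl0 hl1.le hr0.le hr.2, dil_MM hf hl0 hl1.le hr₀0.le h2] at h4
  have hlim : ∀ s : ℝ, 0 < s → s < 1 →
      Tendsto (fun l : ℝ => l ^ t * MM f t (l * s)) (𝓝[<] 1) (𝓝 (MM f t s)) := by
    intro s hs0 hs1
    have hc1 : ContinuousAt (fun l : ℝ => l ^ t) 1 :=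
      Real.continuousAt_rpow_const _ _ (Or.inl one_ne_zero)
    have hc2 : ContinuousAt (fun l : ℝ => MM f t (l * s)) 1 := by
      apply ContinuousAt.comp (g := MM f t)
      · rw [one_mul]; exact MM_continuousAt hf t hs0 hs1
      · fun_prop
    have h5 : Tendsto (fun l : ℝ => l ^ t * MM f t (l * s)) (𝓝 1)
        (𝓝 ((1 : ℝ) ^ t * MM f t (1 * s))) := (hc1.mul hc2).tendsto
    rw [Real.one_rpow, one_mul, one_mul] at h5
    exact h5.mono_left nhdsWithin_le_nhds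
  have h6 : Wr r ^ β * MM f t r ≤ C * MM f t r₀ := by
    refine le_of_tendsto_of_tendsto ((hlim r hr0 hr.2).const_mul (Wr r ^ β))
      ((hlim r₀ hr₀0 h2).const_mul C) ?_
    have hev : ∀ᶠ l in 𝓝[<] (1 : ℝ), l ∈ Ioo (0 : ℝ) 1 := Ioo_mem_nhdsLT one_pos
    filter_upwards [hev] with l hl
    exact hstep l hl.1 hl.2
  have h7 : (1 - r) ^ β ≤ Wr r ^ β := by
    apply Real.rpow_le_rpow (by linarith [hr.2]) _ hβ.le
    unfold Wr
    rw [le_div_iff₀ (by positivity)]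
    have h8 : r ^ 2 ≤ r := by nlinarith [hr.2]
    have h9 : r ^ 2 ≤ 1 := by linarith [hr.2]
    have h10 : (1 - r) * r ^ 2 ≤ (1 - r) * 1 :=
      mul_le_mul_of_nonneg_left h9 (by linarith [hr.2])
    linarith
  calc (1 - r) ^ β * MM f t r ≤ Wr r ^ β * MM f t r :=
        mul_le_mul_of_nonneg_right h7 (MM_nonneg _ _ _)
    _ ≤ C * MM f t r₀ := h6
    _ ≤ |C| * MM f t r₀ := mul_le_mul_of_nonneg_right (le_abs_self C) (MM_nonneg _ _ _)

end

end Vale.Agent.P142
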