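import Vale.Agent.P142.Defs
import Vale.Agent.P142.MeanBound

open Complex MeasureTheory Metric Set Filter Topology intervalIntegral
open scoped Real ComplexConjugate ENNReal

namespace Vale.Agent.P142

noncomputable section

variable {f : ℂ → ℂ} {t β : ℝ} {r : ℝ}

lemma MM_pos (hf : Univ f) (t : ℝ) (hr0 : 0 ≤ r) (hr1 : r < 1) : 0 < MM f t r := by
  have hd : ∀ z ∈ ball (0 : ℂ) 1, deriv f z ≠ 0 := fun z hz => univ_deriv_ne_zero hf hz
  have hc := continuous_weight (t := t) hf.1 hd hr0 hr1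
  apply intervalIntegral.intervalIntegral_pos_of_pos (hc.intervalIntegrable _ _)
  · intro θ
    exact Real.rpow_pos_of_pos (norm_pos_iff.mpr (hd _ (circleMap_mem_unit hr0 hr1 θ))) _
  · linarith [Real.pi_pos]

/-- A power bound for the means bounds `β_f(t)`. -/
theorem betaF_le (hf : Univ f) {C r₀ : ℝ} (hr₀ : 0 < r₀) (hr₁ : r₀ < 1)
    (h : ∀ r ∈ Ico r₀ 1, (1 - r) ^ β * MM f t r ≤ C) : betaF f t ≤ (β : EReal) := by
  have hC : 0 < C := by
    have h1 := h r₀ ⟨le_rfl, hr₁⟩
    have h2 : 0 < (1 - r₀) ^ β * MM f t r₀ :=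
      mul_pos (Real.rpow_pos_of_pos (by linarith) _) (MM_pos hf t hr₀.le hr₁)
    linarith
  set C' : ℝ := (2 * π)⁻¹ * C with hC'
  have hC'0 : 0 < C' := by positivity
  have hlogt : Tendsto (fun r : ℝ => Real.log (1 / (1 - r))) (𝓝[<] 1) atTop := by
    apply Real.tendsto_log_atTop.comp
    have h1 : Tendsto (fun r : ℝ => 1 - r) (𝓝[<] 1) (𝓝[>] 0) := by
      rw [tendsto_nhdsWithin_iff]
      constructor
      · have : Tendsto (fun r : ℝ => 1 - r) (𝓝 1) (𝓝 (1 - 1)) :=
          (continuous_const.sub continuous_id).tendsto 1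
        rw [sub_self] at this
        exact this.mono_left nhdsWithin_le_nhds
      · filter_upwards [self_mem_nhdsWithin] with r hr
        have : r < 1 := hr
        exact sub_pos.mpr this
    have h2 := tendsto_inv_nhdsGT_zero.comp h1
    refine h2.congr (fun r => ?_)
    simp [Function.comp]
  have hub : ∀ᶠ r : ℝ in 𝓝[<] 1, ((Real.log (intMean f t r) / Real.log (1 / (1 - r)) : ℝ) : EReal) ≤
      ((β + Real.log C' / Real.log (1 / (1 - r)) : ℝ) : EReal) := by
    have hev : ∀ᶠ r in 𝓝[<] (1 : ℝ), r ∈ Ico r₀ 1 := Ico_mem_nhdsLT hr₁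
    filter_upwards [hev, hlogt.eventually_gt_atTop 0] with r hr hlog
    rw [EReal.coe_le_coe_iff, div_le_iff₀ hlog, add_mul, div_mul_cancel₀ _ hlog.ne']
    have hr' : 0 < 1 - r := by linarith [hr.2]
    have hp : 0 < (1 - r) ^ β := Real.rpow_pos_of_pos hr' β
    have hMp := MM_pos hf t (le_trans hr₀.le hr.1) hr.2
    have h1 : intMean f t r ≤ C' * (1 - r) ^ (-β) := by
      have h2 := h r hr
      rw [intMean, hC', Real.rpow_neg hr'.le, mul_assoc]
      apply mul_le_mul_of_nonneg_left _ (by positivity)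
      rw [← div_eq_mul_inv, le_div_iff₀ hp]
      rw [mul_comm]
      exact h2
    have hIp : 0 < intMean f t r := by
      rw [intMean]
      exact mul_pos (by positivity) hMp
    calc Real.log (intMean f t r) ≤ Real.log (C' * (1 - r) ^ (-β)) := Real.log_le_log hIp h1
      _ = β * Real.log (1 / (1 - r)) + Real.log C' := by
        rw [Real.log_mul hC'0.ne' (Real.rpow_pos_of_pos hr' _).ne', Real.log_rpow hr', one_div,
          Real.log_inv]
        ring
  have hlim : Tendsto (fun r : ℝ => ((β + Real.log C' / Real.log (1 / (1 - r)) : ℝ) : EReal))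
      (𝓝[<] 1) (𝓝 (β : EReal)) := by
    rw [EReal.tendsto_coe]
    have := (hlogt.const_div_atTop (Real.log C')).const_add β
    rwa [add_zero] at this
  calc betaF f t ≤ limsup (fun r : ℝ =>
        ((β + Real.log C' / Real.log (1 / (1 - r)) : ℝ) : EReal)) (𝓝[<] 1) :=
        limsup_le_limsup hub
    _ = (β : EReal) := hlim.limsup_eq

theorem BS_le {C r₀ : ℝ} (hr₀ : 0 < r₀) (hr₁ : r₀ < 1)
    (h : ∀ f, Univ f → ∀ r ∈ Ico r₀ 1, (1 - r) ^ β * MM f t r ≤ C * MM f t r₀) :
    BS t ≤ (β : EReal) := by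
  unfold BS
  apply iSup₂_le
  intro f hf
  have hf' : Univ f := ⟨hf.1, hf.2.1⟩
  exact betaF_le hf' hr₀ hr₁ (h f hf')

/-- Young: passing from the exponent `t` to `t s` with `0 ≤ s ≤ 1`. -/
lemma MM_young (hf : Univ f) {s l : ℝ} (hs0 : 0 ≤ s) (hs1 : s ≤ 1) (hl : 0 < l) (hr0 : 0 ≤ r)
    (hr1 : r < 1) : MM f (t * s) r ≤ l ^ s * (2 * π + l⁻¹ * MM f t r) := by
  have hd : ∀ z ∈ ball (0 : ℂ) 1, deriv f z ≠ 0 := fun z hz => univ_deriv_ne_zero hf hz
  have hpi : (-π) ≤ π := by linarith [Real.pi_pos]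
  have hc := continuous_weight (t := t) hf.1 hd hr0 hr1
  have hc2 := continuous_weight (t := t * s) hf.1 hd hr0 hr1
  have hc3 : Continuous (fun θ => l⁻¹ * ‖deriv f (circleMap 0 r θ)‖ ^ t) :=
    continuous_const.mul hc
  have e : l ^ s * (2 * π + l⁻¹ * MM f t r) =
      ∫ θ in (-π)..π, l ^ s * (1 + l⁻¹ * ‖deriv f (circleMap 0 r θ)‖ ^ t) := by
    rw [intervalIntegral.integral_const_mul, intervalIntegral.integral_add (by simp)
      (hc3.intervalIntegrable _ _), intervalIntegral.integral_const_mul, MM]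
    simp
    left
    ring
  rw [e, MM]
  have hc4 : Continuous (fun θ => l ^ s * (1 + l⁻¹ * ‖deriv f (circleMap 0 r θ)‖ ^ t)) :=
    continuous_const.mul (continuous_const.add hc3)
  apply intervalIntegral.integral_mono_on hpi (hc2.intervalIntegrable _ _)
    (hc4.intervalIntegrable _ _)
  intro θ _
  set x := ‖deriv f (circleMap 0 r θ)‖ with hx
  have hx0 : 0 ≤ x := norm_nonneg _
  rw [Real.rpow_mul hx0]
  set y := x ^ t with hy
  have hy0 : 0 ≤ y := Real.rpow_nonneg hx0 _
  have hyl : 0 ≤ l⁻¹ * y := by positivity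
  have e2 : y = l * (l⁻¹ * y) := by field_simp
  have e3 : y ^ s = l ^ s * (l⁻¹ * y) ^ s := by
    rw [← Real.mul_rpow hl.le hyl, ← e2]
  rw [e3]
  apply mul_le_mul_of_nonneg_left _ (Real.rpow_nonneg hl.le _)
  rcases le_or_gt (l⁻¹ * y) 1 with h | h
  · have := Real.rpow_le_one hyl h hs0
    linarith
  · have : (l⁻¹ * y) ^ s ≤ (l⁻¹ * y) ^ (1 : ℝ) := Real.rpow_le_rpow_of_exponent_le h.le hs1
    rw [Real.rpow_one] at this
    linarith

/-- The area integral through circle means. -/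
lemma lintegral_ball_le (hf : Univ f) (t : ℝ) :
    ∫⁻ z in ball (0 : ℂ) 1, ENNReal.ofReal (‖deriv f z‖ ^ t) ≤
      ∫⁻ r in Ioo (0 : ℝ) 1, ENNReal.ofReal (MM f t r) := by
  have hd : ∀ z ∈ ball (0 : ℂ) 1, deriv f z ≠ 0 := fun z hz => univ_deriv_ne_zero hf hz
  rw [← lintegral_indicator measurableSet_ball, ← Complex.lintegral_comp_polarCoord_symm]
  set g : ℂ → ℝ≥0∞ := (ball (0 : ℂ) 1).indicator (fun z => ENNReal.ofReal (‖deriv f z‖ ^ t)) with hg
  set k : ℝ × ℝ → ℝ≥0∞ := (Iio (1 : ℝ) ×ˢ univ).indicator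
    (fun p => ENNReal.ofReal (‖deriv f (circleMap 0 p.1 p.2)‖ ^ t)) with hk
  have hms : MeasurableSet (Iio (1 : ℝ) ×ˢ (univ : Set ℝ)) := measurableSet_Iio.prod MeasurableSet.univ
  have hkm : Measurable k := by
    apply Measurable.indicator _ hms
    apply ENNReal.measurable_ofReal.comp
    apply Measurable.pow_const
    apply Measurable.norm
    exact (measurable_deriv f).comp continuous_circleMap_uncurry.measurable
  have h1 : ∀ p ∈ polarCoord.target, ENNReal.ofReal p.1 • g (Complex.polarCoord.symm p) ≤ k p := by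
    intro p hp
    have hp1 : 0 < p.1 := by
      have := hp.1
      simpa using this
    have e : Complex.polarCoord.symm p = circleMap 0 p.1 p.2 := by
      rw [Complex.polarCoord_symm_apply, circleMap_zero, Complex.exp_mul_I]
      push_cast
      rfl
    rw [e, smul_eq_mul]
    by_cases h : p.1 < 1
    · have hb : circleMap 0 p.1 p.2 ∈ ball (0 : ℂ) 1 := circleMap_mem_unit hp1.le h _
      have hkp : k p = ENNReal.ofReal (‖deriv f (circleMap 0 p.1 p.2)‖ ^ t) := by
        rw [hk]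
        exact indicator_of_mem (show p ∈ Iio (1 : ℝ) ×ˢ (univ : Set ℝ) from ⟨h, mem_univ _⟩) _
      have hgp : g (circleMap 0 p.1 p.2) =
          ENNReal.ofReal (‖deriv f (circleMap 0 p.1 p.2)‖ ^ t) := by
        rw [hg]
        exact indicator_of_mem hb _
      rw [hkp, hgp]
      calc ENNReal.ofReal p.1 * ENNReal.ofReal (‖deriv f (circleMap 0 p.1 p.2)‖ ^ t)
          ≤ 1 * ENNReal.ofReal (‖deriv f (circleMap 0 p.1 p.2)‖ ^ t) := by
            gcongr
            exact ENNReal.ofReal_le_one.mpr h.le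
        _ = _ := one_mul _
    · have hgp : g (circleMap 0 p.1 p.2) = 0 := by
        rw [hg]
        apply indicator_of_notMem
        rw [mem_ball_zero_iff, norm_circleMap_zero, abs_of_pos hp1]
        exact h
      rw [hgp, mul_zero]
      exact bot_le
  have e2 : polarCoord.target = Ioi (0 : ℝ) ×ˢ Ioo (-π) π := rfl
  calc ∫⁻ p in polarCoord.target, ENNReal.ofReal p.1 • g (Complex.polarCoord.symm p)
      ≤ ∫⁻ p in polarCoord.target, k p :=
        setLIntegral_mono' polarCoord.open_target.measurableSet h1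
    _ = ∫⁻ r in Ioi (0 : ℝ), ∫⁻ θ in Ioo (-π) π, k (r, θ) := by
        rw [e2, Measure.volume_eq_prod, setLIntegral_prod _ (hkm.aemeasurable)]
    _ ≤ ∫⁻ r in Ioi (0 : ℝ), (Iio (1 : ℝ)).indicator (fun r => ENNReal.ofReal (MM f t r)) r := by
        apply setLIntegral_mono' measurableSet_Ioi
        intro r hr
        have hr0 : (0 : ℝ) < r := hr
        by_cases h : r < 1
        · rw [indicator_of_mem (show r ∈ Iio (1 : ℝ) from h)]
          have hkr : ∀ θ, k (r, θ) = ENNReal.ofReal (‖deriv f (circleMap 0 r θ)‖ ^ t) := by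
            intro θ
            rw [hk]
            exact indicator_of_mem
              (show ((r, θ) : ℝ × ℝ) ∈ Iio (1 : ℝ) ×ˢ (univ : Set ℝ) from ⟨h, mem_univ _⟩) _
          simp only [hkr]
          have hc := continuous_weight (t := t) hf.1 hd hr0.le h
          have hint : IntegrableOn (fun θ => ‖deriv f (circleMap 0 r θ)‖ ^ t) (Ioc (-π) π) :=
            (hc.integrableOn_Icc (a := -π) (b := π)).mono_set Ioc_subset_Icc_self
          rw [MM, intervalIntegral.integral_of_le (by linarith [Real.pi_pos]),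
            ofReal_integral_eq_lintegral_ofReal hint
              (Eventually.of_forall fun θ => Real.rpow_nonneg (norm_nonneg _) _)]
          exact lintegral_mono_set Ioo_subset_Ioc_self
        · rw [indicator_of_notMem (show r ∉ Iio (1 : ℝ) from h)]
          have hkr : ∀ θ, k (r, θ) = 0 := by
            intro θ
            rw [hk]
            apply indicator_of_notMem
            intro hmem
            exact h hmem.1
          simp [hkr]
    _ = ∫⁻ r in Ioo (0 : ℝ) 1, ENNReal.ofReal (MM f t r) := by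
        rw [lintegral_indicator measurableSet_Iio, Measure.restrict_restrict measurableSet_Iio,
          Iio_inter_Ioi]

lemma MM_bdd_compact (hf : Univ f) (t : ℝ) {r₀ : ℝ} (hr₀ : r₀ < 1) :
    ∃ B : ℝ, ∀ r ∈ Ioo (0 : ℝ) r₀, MM f t r ≤ B := by
  have hd : ∀ z ∈ ball (0 : ℂ) 1, deriv f z ≠ 0 := fun z hz => univ_deriv_ne_zero hf hz
  have hc : ContinuousOn (fun z => ‖deriv f z‖ ^ t) (ball 0 1) := by
    apply ContinuousOn.rpow_const (continuousOn_deriv hf.1).norm
    intro z hz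
    exact Or.inl (norm_ne_zero_iff.mpr (hd z hz))
  have h1 := continuousOn_circle_integral hc
  have h2 : ContinuousOn (MM f t) (Icc 0 r₀) := by
    apply h1.mono
    intro r hr
    exact ⟨by linarith [hr.1], by linarith [hr.2]⟩
  obtain ⟨B, hB⟩ := isCompact_Icc.exists_bound_of_continuousOn h2
  exact ⟨B, fun r hr => le_trans (le_abs_self _) (hB r ⟨hr.1.le, hr.2.le⟩)⟩

/-- Area integrability from a power bound. -/
theorem lintegral_ball_lt_top (hf : Univ f) {C r₀ b : ℝ} (hr₁ : r₀ < 1)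
    (hb : b < 1) (h : ∀ r ∈ Ico r₀ 1, MM f t r ≤ C * (1 - r) ^ (-b)) :
    ∫⁻ z in ball (0 : ℂ) 1, ENNReal.ofReal (‖deriv f z‖ ^ t) < ⊤ := by
  refine lt_of_le_of_lt (lintegral_ball_le hf t) ?_
  obtain ⟨B, hB⟩ := MM_bdd_compact hf t hr₁
  have hint : IntegrableOn (fun r : ℝ => |B| + |C| * (1 - r) ^ (-b)) (Ioo 0 1) := by
    have h1 : IntervalIntegrable (fun x : ℝ => x ^ (-b)) volume 0 1 :=
      intervalIntegral.intervalIntegrable_rpow' (by linarith)
    have h2 := (h1.comp_sub_left 1)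
    simp only [sub_zero, sub_self] at h2
    have h3 : IntegrableOn (fun x : ℝ => (1 - x) ^ (-b)) (Ioo 0 1) := by
      have := h2.symm.1
      exact this.mono_set Ioo_subset_Ioc_self
    have h4 : IntegrableOn (fun _ : ℝ => |B|) (Ioo (0 : ℝ) 1) := by simp
    exact h4.add (h3.const_mul |C|)
  have hbound : ∀ r ∈ Ioo (0 : ℝ) 1, ENNReal.ofReal (MM f t r) ≤
      ENNReal.ofReal (|B| + |C| * (1 - r) ^ (-b)) := by
    intro r hr
    apply ENNReal.ofReal_le_ofReal
    have hp : 0 ≤ (1 - r) ^ (-b) := Real.rpow_nonneg (by linarith [hr.2]) _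
    rcases lt_or_ge r r₀ with h1 | h1
    · have h2 := hB r ⟨hr.1, h1⟩
      have h3 : 0 ≤ |C| * (1 - r) ^ (-b) := mul_nonneg (abs_nonneg _) hp
      linarith [le_abs_self B]
    · have h2 := h r ⟨h1, hr.2⟩
      have h3 : C * (1 - r) ^ (-b) ≤ |C| * (1 - r) ^ (-b) :=
        mul_le_mul_of_nonneg_right (le_abs_self C) hp
      linarith [abs_nonneg B]
  refine lt_of_le_of_lt (setLIntegral_mono' measurableSet_Ioo hbound) ?_
  exact hint.lintegral_lt_top

/-- From the mean bound at `t` to area integrability at `t s`, when `β s < 1`. -/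
theorem lintegral_ball_lt_top_of_mean (hf : Univ f) {C r₀ s : ℝ} (hr₀ : 0 < r₀)
    (hr₁ : r₀ < 1) (h : ∀ r ∈ Ico r₀ 1, (1 - r) ^ β * MM f t r ≤ C) (hs0 : 0 ≤ s) (hs1 : s ≤ 1)
    (hb : β * s < 1) :
    ∫⁻ z in ball (0 : ℂ) 1, ENNReal.ofReal (‖deriv f z‖ ^ (t * s)) < ⊤ := by
  apply lintegral_ball_lt_top hf (C := 2 * π + C) hr₁ hb
  intro r hr
  have hr' : 0 < 1 - r := by linarith [hr.2]
  have hl : 0 < (1 - r) ^ (-β) := Real.rpow_pos_of_pos hr' _
  have h1 := MM_young (t := t) hf hs0 hs1 hl (le_trans hr₀.le hr.1) hr.2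
  have e1 : ((1 - r) ^ (-β)) ^ s = (1 - r) ^ (-(β * s)) := by
    rw [← Real.rpow_mul hr'.le]; ring_nf
  have e2 : ((1 - r) ^ (-β))⁻¹ = (1 - r) ^ β := by
    rw [Real.rpow_neg hr'.le, inv_inv]
  rw [e1, e2] at h1
  refine le_trans h1 ?_
  rw [mul_comm]
  apply mul_le_mul_of_nonneg_right _ (Real.rpow_nonneg hr'.le _)
  linarith [h r hr]

/-! ### Conformal maps onto the disc -/

/-- Change of variables: `∫_W |φ'| ^ s dA = ∫_D |f'| ^ (2 - s) dA` for the inverse `f` of `φ`. -/
theorem exists_inverse {W : Set ℂ} (hW : IsOpen W) {φ : ℂ → ℂ} (hφ : DifferentiableOn ℂ φ W)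
    (hbij : BijOn φ W (ball 0 1)) : ∃ f : ℂ → ℂ, Univ f ∧ ∀ s : ℝ,
    ∫⁻ w in W, ENNReal.ofReal (‖deriv φ w‖ ^ s) =
      ∫⁻ z in ball (0 : ℂ) 1, ENNReal.ofReal (‖deriv f z‖ ^ (2 - s)) := by
  set f : ℂ → ℂ := Function.invFunOn φ W with hf
  have hinv : InvOn f φ W (ball 0 1) := hbij.invOn_invFunOn
  have hbij' : BijOn f (ball 0 1) W := (bijOn_comm hinv).mpr hbij
  have hder : ∀ z ∈ ball (0 : ℂ) 1, HasDerivAt f (deriv φ (f z))⁻¹ z := by
    intro z hz
    have ha : f z ∈ W := hbij'.mapsTo hz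
    have hd : HasStrictDerivAt φ (deriv φ (f z)) (f z) :=
      (hφ.analyticAt (hW.mem_nhds ha)).hasStrictDerivAt
    have hne : deriv φ (f z) ≠ 0 := injOn_deriv_ne_zero hW hφ hbij.injOn ha
    have hev : ∀ᶠ x in 𝓝 (f z), f (φ x) = x := by
      filter_upwards [hW.mem_nhds ha] with x hx
      exact hinv.1 hx
    have h1 := hd.to_local_left_inverse hne hev
    rw [hinv.2 hz] at h1
    exact h1.hasDerivAt
  have hfU : Univ f := ⟨fun z hz => (hder z hz).differentiableAt.differentiableWithinAt,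
    hbij'.injOn⟩
  refine ⟨f, hfU, fun s => ?_⟩
  have h1 := lintegral_image_eq_lintegral_abs_det_fderiv_mul volume (s := ball (0 : ℂ) 1)
    (f := f) (f' := fun z => (ContinuousLinearMap.toSpanSingleton ℂ (deriv f z)).restrictScalars ℝ)
    measurableSet_ball (fun z hz =>
      (((hfU.1.differentiableAt (isOpen_ball.mem_nhds hz)).hasDerivAt.hasFDerivAt).restrictScalars
        ℝ).hasFDerivWithinAt) hfU.2 (fun w => ENNReal.ofReal (‖deriv φ w‖ ^ s))
  rw [hbij'.image_eq] at h1
  rw [h1]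
  apply setLIntegral_congr_fun measurableSet_ball
  intro z hz
  simp only [abs_det_holo]
  have hne : deriv f z ≠ 0 := univ_deriv_ne_zero hfU hz
  have hpos : 0 < ‖deriv f z‖ := norm_pos_iff.mpr hne
  have e : deriv φ (f z) = (deriv f z)⁻¹ := by
    rw [(hder z hz).deriv, inv_inv]
  rw [e, norm_inv, Real.inv_rpow hpos.le, ← ENNReal.ofReal_mul (by positivity)]
  congr 1
  rw [Real.rpow_sub hpos, Real.rpow_two, div_eq_mul_inv]

end

end Vale.Agent.P142
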