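import Vale.Agent.P142.Koebe
import Vale.Agent.P142.SpectrumGlue
import Vale.Agent.P142.FRineq

open Complex MeasureTheory Metric Set Filter Topology intervalIntegral
open scoped Real ComplexConjugate ENNReal Nat

namespace Vale.Agent.P142

namespace FF

noncomputable section

variable {f : ℂ → ℂ} {z : ℂ}

lemma zero_mem_ball : (0 : ℂ) ∈ ball (0 : ℂ) 1 := mem_ball_self one_pos

/-- `A(z, u) = 1 / (u - z) - f' z / (f u - f z)`. -/
def Afun (f : ℂ → ℂ) (z u : ℂ) : ℂ := dslope (dslope f z) z u / dslope f z u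

lemma ds_diff (hf : DifferentiableOn ℂ f (ball 0 1)) (hz : z ∈ ball (0 : ℂ) 1) :
    DifferentiableOn ℂ (dslope f z) (ball 0 1) :=
  (Complex.differentiableOn_dslope (isOpen_ball.mem_nhds hz)).mpr hf

lemma ds_ne (hf : Univ f) (hz : z ∈ ball (0 : ℂ) 1) {u : ℂ} (hu : u ∈ ball (0 : ℂ) 1) :
    dslope f z u ≠ 0 := by
  by_cases h : u = z
  · rw [h, dslope_same]
    exact univ_deriv_ne_zero hf hz
  · intro h0
    have h1 := sub_smul_dslope f z u
    rw [h0, smul_zero] at h1
    exact h (hf.2 hu hz (sub_eq_zero.mp h1.symm))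

lemma Afun_diff (hf : Univ f) (hz : z ∈ ball (0 : ℂ) 1) :
    DifferentiableOn ℂ (Afun f z) (ball 0 1) :=
  (ds_diff (ds_diff hf.1 hz) hz).div (ds_diff hf.1 hz) (fun _ hu => ds_ne hf hz hu)

lemma analyticAt_zero_of_diff {g : ℂ → ℂ} (hg : DifferentiableOn ℂ g (ball 0 1)) :
    AnalyticAt ℂ g 0 := hg.analyticAt (isOpen_ball.mem_nhds zero_mem_ball)

/-! ### Taylor coefficients of divided differences -/

/-- Iterated divided differences at `0`. -/
def its (f : ℂ → ℂ) : ℕ → ℂ → ℂ
  | 0 => f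
  | n + 1 => dslope (its f n) 0

lemma its_diff (hf : DifferentiableOn ℂ f (ball 0 1)) (n : ℕ) :
    DifferentiableOn ℂ (its f n) (ball 0 1) := by
  induction n with
  | zero => exact hf
  | succ n ih => exact ds_diff ih zero_mem_ball

lemma tc_zero_eq (U : ℂ → ℂ) : tc U 0 = U 0 := by simp [tc]

/-- Shifting Taylor coefficients. -/
lemma tc_dslope_zero {g : ℂ → ℂ} (hg : DifferentiableOn ℂ g (ball 0 1)) (n : ℕ) :
    tc (dslope g 0) n = tc g (n + 1) := by
  have hd := analyticAt_zero_of_diff (ds_diff hg zero_mem_ball)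
  have hi : AnalyticAt ℂ (fun z : ℂ => z) 0 := analyticAt_id
  have e : g = fun z => g 0 + z * dslope g 0 z := by
    ext w
    have := sub_smul_dslope g 0 w
    rw [smul_eq_mul, sub_zero] at this
    linear_combination -this
  have h1 : PS g = PowerSeries.C (g 0) + PowerSeries.X * PS (dslope g 0) := by
    conv_lhs => rw [e]
    rw [PS_add (U := fun _ => g 0) (V := fun z => z * dslope g 0 z) analyticAt_const
      (hi.fun_mul hd), PS_const, PS_mul (U := fun z => z) hi hd, PS_id]
  have h2 := congrArg (PowerSeries.coeff (n + 1)) h1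
  rw [map_add, PowerSeries.coeff_succ_X_mul, PowerSeries.coeff_C, if_neg (Nat.succ_ne_zero n),
    zero_add, coeff_PS, coeff_PS] at h2
  exact h2.symm

lemma tc_its (hf : DifferentiableOn ℂ f (ball 0 1)) (n k : ℕ) :
    tc (its f n) k = tc f (n + k) := by
  induction n generalizing k with
  | zero => simp [its]
  | succ n ih =>
    rw [its, tc_dslope_zero (its_diff hf n), ih]
    congr 1
    ring

lemma dslope_symm (f : ℂ → ℂ) (z u : ℂ) : dslope f z u = dslope f u z := by
  by_cases h : u = z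
  · rw [h]
  · rw [dslope_of_ne _ h, dslope_of_ne _ (Ne.symm h), slope_comm]

/-- The commutation `f[z, u, 0]`. -/
lemma dslope_comm3 (hf : DifferentiableOn ℂ f (ball 0 1)) (hz : z ∈ ball (0 : ℂ) 1) {u : ℂ}
    (hu : u ∈ ball (0 : ℂ) 1) (hz0 : z ≠ 0) :
    dslope (dslope f z) 0 u = dslope (dslope f 0) z u := by
  -- both sides are holomorphic in `u`; check for generic `u`
  have hL := ds_diff (ds_diff hf hz) zero_mem_ball
  have hR := ds_diff (ds_diff hf zero_mem_ball) hz
  have hgen : ∀ u : ℂ, u ≠ 0 → u ≠ z → dslope (dslope f z) 0 u = dslope (dslope f 0) z u := by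
    intro u hu0 huz
    rw [dslope_of_ne _ hu0, dslope_of_ne _ huz, slope_def_field, slope_def_field,
      dslope_of_ne _ huz, dslope_of_ne _ (Ne.symm hz0), dslope_of_ne _ hu0, dslope_of_ne _ hz0,
      slope_def_field, slope_def_field, slope_def_field, slope_def_field]
    have h1 : u - z ≠ 0 := sub_ne_zero.mpr huz
    have h2 : (0 : ℂ) - z ≠ 0 := by simpa using hz0
    field_simp
    ring
  by_cases h0 : u = 0 ∨ u = z
  · -- by continuity
    have hcont : ContinuousAt (fun u => dslope (dslope f z) 0 u - dslope (dslope f 0) z u) u :=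
      ((hL.differentiableAt (isOpen_ball.mem_nhds hu)).continuousAt).sub
        ((hR.differentiableAt (isOpen_ball.mem_nhds hu)).continuousAt)
    have h1 : ∀ᶠ w in 𝓝[≠] u, dslope (dslope f z) 0 w - dslope (dslope f 0) z w = 0 := by
      have h2 : ∀ᶠ w in 𝓝[≠] u, w ≠ 0 ∧ w ≠ z := by
        have h3 : ∀ c : ℂ, ∀ᶠ w in 𝓝[≠] u, w ≠ c := by
          intro c
          by_cases hc : c = u
          · rw [hc]; exact self_mem_nhdsWithin
          · exact (eventually_ne_nhds (Ne.symm hc)).filter_mono nhdsWithin_le_nhds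
        exact (h3 0).and (h3 z)
      filter_upwards [h2] with w hw
      rw [hgen w hw.1 hw.2, sub_self]
    have h4 : Tendsto (fun u => dslope (dslope f z) 0 u - dslope (dslope f 0) z u) (𝓝[≠] u)
        (𝓝 (dslope (dslope f z) 0 u - dslope (dslope f 0) z u)) :=
      hcont.tendsto.mono_left nhdsWithin_le_nhds
    have h5 : Tendsto (fun u => dslope (dslope f z) 0 u - dslope (dslope f 0) z u) (𝓝[≠] u)
        (𝓝 0) := tendsto_const_nhds.congr' (h1.mono fun w hw => hw.symm)
    exact sub_eq_zero.mp (tendsto_nhds_unique h4 h5)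
  · push Not at h0
    exact hgen u h0.1 h0.2

lemma tc_congr_ball {U V : ℂ → ℂ} (h : ∀ u ∈ ball (0 : ℂ) 1, U u = V u) (n : ℕ) :
    tc U n = tc V n := by
  have : U =ᶠ[𝓝 0] V := by
    filter_upwards [isOpen_ball.mem_nhds zero_mem_ball] with w hw
    exact h w hw
  rw [tc, tc, this.iteratedDeriv_eq n]

/-- Taylor coefficients of `u ↦ f[z, u]`. -/
lemma tc_dslope (hf : DifferentiableOn ℂ f (ball 0 1)) (hz : z ∈ ball (0 : ℂ) 1) (n : ℕ) :
    tc (dslope f z) n = its f (n + 1) z := by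
  by_cases hz0 : z = 0
  · subst hz0
    have h1 : tc (dslope f 0) n = tc f (n + 1) := tc_dslope_zero hf n
    have h2 := tc_its hf (n + 1) 0
    rw [tc_zero_eq, add_zero] at h2
    rw [h1, h2]
  · induction n generalizing f with
    | zero =>
      rw [tc_zero_eq, dslope_symm]
      rfl
    | succ n ih =>
      rw [← tc_dslope_zero (ds_diff hf hz), tc_congr_ball (fun u hu => dslope_comm3 hf hz hu hz0),
        ih (ds_diff hf zero_mem_ball)]
      -- its (dslope f 0) (n+1) = its f (n+2)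
      have h3 : ∀ m, its (dslope f 0) m = its f (m + 1) := by
        intro m
        induction m with
        | zero => rfl
        | succ m ihm => rw [its, ihm]; rfl
      rw [h3]

/-- Recursion for the derivatives of `its`. -/
lemma its_rec (hf : DifferentiableOn ℂ f (ball 0 1)) (hz : z ∈ ball (0 : ℂ) 1) (n : ℕ) :
    deriv (its f n) z = its f (n + 1) z + z * deriv (its f (n + 1)) z := by
  have h1 := its_diff hf (n + 1)
  have h2 : HasDerivAt (its f (n + 1)) (deriv (its f (n + 1)) z) z :=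
    (h1.differentiableAt (isOpen_ball.mem_nhds hz)).hasDerivAt
  have h3 : HasDerivAt (fun w => its f n 0 + w * its f (n + 1) w)
      (1 * its f (n + 1) z + z * deriv (its f (n + 1)) z) z :=
    ((hasDerivAt_id z).fun_mul h2).const_add _
  have h4 : (fun w => its f n 0 + w * its f (n + 1) w) = its f n := by
    ext w
    have := sub_smul_dslope (its f n) 0 w
    rw [smul_eq_mul, sub_zero] at this
    rw [its]
    linear_combination this
  rw [h4] at h3
  rw [h3.deriv]
  ring

/-- Taylor coefficients of `u ↦ f[z, z, u]`. -/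
lemma tc_dslope2 (hf : DifferentiableOn ℂ f (ball 0 1)) (hz : z ∈ ball (0 : ℂ) 1) (n : ℕ) :
    tc (dslope (dslope f z) z) n = deriv (its f (n + 1)) z := by
  have hS := ds_diff hf hz
  have hT := ds_diff hS hz
  have hTa := analyticAt_zero_of_diff hT
  -- (u - z) T(u) = S(u) - f'(z)
  have e : dslope f z = fun u => (u - z) * dslope (dslope f z) z u + deriv f z := by
    ext u
    have := sub_smul_dslope (dslope f z) z u
    rw [smul_eq_mul, dslope_same] at this
    linear_combination -this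
  have hlin : AnalyticAt ℂ (fun u : ℂ => u - z) 0 := by fun_prop
  have hPl : PS (fun u : ℂ => u - z) = PowerSeries.X - PowerSeries.C z := by
    have e2 : (fun u : ℂ => u - z) = fun u => u + (-z) := by ext u; ring
    rw [e2, PS_add (U := fun u => u) (V := fun _ => -z) analyticAt_id analyticAt_const, PS_id,
      PS_const, map_neg]
    ring
  have h1 : PS (dslope f z) = (PowerSeries.X - PowerSeries.C z) * PS (dslope (dslope f z) z) +
      PowerSeries.C (deriv f z) := by
    conv_lhs => rw [e]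
    rw [PS_add (U := fun u => (u - z) * dslope (dslope f z) z u) (V := fun _ => deriv f z)
      (hlin.fun_mul hTa) analyticAt_const, PS_const, PS_mul (U := fun u => u - z) hlin hTa, hPl]
  have hc0 : tc (dslope f z) 0 = -(z * tc (dslope (dslope f z) z) 0) + deriv f z := by
    have h2 := congrArg (PowerSeries.coeff 0) h1
    rw [sub_mul, map_add, map_sub, PowerSeries.coeff_zero_X_mul, PowerSeries.coeff_C_mul,
      PowerSeries.coeff_zero_C, coeff_PS, coeff_PS] at h2
    linear_combination h2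
  have hcs : ∀ n, tc (dslope f z) (n + 1) = tc (dslope (dslope f z) z) n -
      z * tc (dslope (dslope f z) z) (n + 1) := by
    intro n
    have h2 := congrArg (PowerSeries.coeff (n + 1)) h1
    rw [sub_mul, map_add, map_sub, PowerSeries.coeff_succ_X_mul, PowerSeries.coeff_C_mul,
      PowerSeries.coeff_C, if_neg (Nat.succ_ne_zero n), coeff_PS, coeff_PS, coeff_PS] at h2
    linear_combination h2
  by_cases hz0 : z = 0
  · have h3 := hcs n
    rw [tc_dslope hf hz] at h3
    have h4 := its_rec hf hz (n + 1)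
    rw [h4]
    rw [hz0] at h3 ⊢
    linear_combination -h3
  · induction n with
    | zero =>
      rw [tc_dslope hf hz] at hc0
      have h4 := its_rec hf hz 0
      have h5 : its f 0 = f := rfl
      rw [h5] at h4
      have h6 : z * tc (dslope (dslope f z) z) 0 = z * deriv (its f (0 + 1)) z := by
        linear_combination h4 + hc0
      exact mul_left_cancel₀ hz0 h6
    | succ n ih =>
      have h3 := hcs n
      rw [tc_dslope hf hz, ih] at h3
      have h4 := its_rec hf hz (n + 1)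
      have h6 : z * tc (dslope (dslope f z) z) (n + 1) = z * deriv (its f (n + 1 + 1)) z := by
        linear_combination h4 + h3
      exact mul_left_cancel₀ hz0 h6

/-- Holomorphy of the Taylor coefficients of `Afun` in the first variable. -/
theorem tc_Afun_diff (hf : Univ f) (n : ℕ) :
    DifferentiableOn ℂ (fun z => tc (Afun f z) n) (ball 0 1) := by
  induction n using Nat.strong_induction_on with
  | _ n ih =>
    have hrec : ∀ z ∈ ball (0 : ℂ) 1, tc (Afun f z) n =
        (deriv (its f (n + 1)) z - ∑ i ∈ Finset.range n, tc (Afun f z) i * its f (n - i + 1) z) /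
          its f 1 z := by
      intro z hz
      have hS := analyticAt_zero_of_diff (ds_diff hf.1 hz)
      have hA := analyticAt_zero_of_diff (Afun_diff hf hz)
      have h1 : PS (dslope (dslope f z) z) = PS (Afun f z) * PS (dslope f z) := by
        rw [← PS_mul hA hS]
        apply PS_congr
        filter_upwards [isOpen_ball.mem_nhds zero_mem_ball] with u hu
        rw [Afun, div_mul_cancel₀ _ (ds_ne hf hz hu)]
      have h2 := congrArg (PowerSeries.coeff n) h1
      rw [PowerSeries.coeff_mul, Finset.Nat.sum_antidiagonal_eq_sum_range_succ_mk,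
        Finset.sum_range_succ, coeff_PS, tc_dslope2 hf.1 hz] at h2
      simp only [coeff_PS, tc_dslope hf.1 hz, Nat.sub_self, zero_add] at h2
      have hne : its f 1 z ≠ 0 := by
        have h3 := tc_dslope hf.1 hz 0
        rw [tc_zero_eq] at h3
        rw [← show (0 + 1) = 1 from rfl, ← h3]
        exact ds_ne hf hz zero_mem_ball
      rw [eq_div_iff hne]
      linear_combination -h2
    have hne : ∀ z ∈ ball (0 : ℂ) 1, its f 1 z ≠ 0 := by
      intro z hz
      have h3 := tc_dslope hf.1 hz 0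
      rw [tc_zero_eq] at h3
      rw [← show (0 + 1) = 1 from rfl, ← h3]
      exact ds_ne hf hz zero_mem_ball
    have hd : DifferentiableOn ℂ (fun z => (deriv (its f (n + 1)) z -
        ∑ i ∈ Finset.range n, tc (Afun f z) i * its f (n - i + 1) z) / its f 1 z) (ball 0 1) := by
      apply DifferentiableOn.fun_div _ (its_diff hf.1 1) hne
      apply DifferentiableOn.fun_sub ((its_diff hf.1 (n + 1)).deriv isOpen_ball)
      apply DifferentiableOn.fun_sum
      intro i hi
      exact (ih i (Finset.mem_range.mp hi)).fun_mul (its_diff hf.1 _)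
    exact hd.congr hrec

/-! ### Jets of `Afun` on the diagonal -/

theorem iteratedDeriv_Afun (hf : Univ f) (hz : z ∈ ball (0 : ℂ) 1) (k : ℕ) :
    iteratedDeriv k (Afun f z) z = -((k ! : ℂ) * lam f k z) := by
  have hd := univ_deriv_ne_zero hf hz
  have hS := dslope_analytic hf.1 hz
  have hG := Gfun_analytic hf.1 hz hd
  have hAa : AnalyticAt ℂ (fun h => Afun f z (z + h)) 0 := by
    have h1 : AnalyticAt ℂ (Afun f z) z := (Afun_diff hf hz).analyticAt (isOpen_ball.mem_nhds hz)
    have h2 : AnalyticAt ℂ (fun h : ℂ => z + h) 0 := by fun_prop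
    have h3 : AnalyticAt ℂ (Afun f z ∘ (fun h : ℂ => z + h)) 0 :=
      AnalyticAt.comp (by simpa using h1) h2
    exact h3
  have hi : AnalyticAt ℂ (fun z : ℂ => z) 0 := analyticAt_id
  have e : (fun h => h * Afun f z (z + h) + Gfun f z h) =ᶠ[𝓝 0] fun _ => 1 := by
    have h3 : ∀ᶠ h in 𝓝 (0 : ℂ), dslope f z (z + h) ≠ 0 := by
      apply hS.continuousAt.eventually_ne
      rw [add_zero, dslope_same]
      exact hd
    filter_upwards [h3] with h hh
    have h4 := sub_smul_dslope (dslope f z) z (z + h)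
    rw [smul_eq_mul, dslope_same, add_sub_cancel_left] at h4
    rw [Afun, Gfun, mul_div_assoc', h4]
    field_simp
    ring
  have h1 := PS_congr e
  rw [PS_add (U := fun h => h * Afun f z (z + h)) (V := Gfun f z) (hi.fun_mul hAa) hG, PS_const,
    PS_mul (U := fun h => h) hi hAa, PS_id, PS_Gfun hf.1 hz hd, map_one] at h1
  have h2 := congrArg (PowerSeries.coeff (k + 1)) h1
  rw [map_add, PowerSeries.coeff_succ_X_mul, PowerSeries.coeff_one, if_neg (Nat.succ_ne_zero k),
    coeff_PS, tc, iteratedDeriv_comp_const_add] at h2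
  simp only [add_zero] at h2
  have hk : ((k ! : ℕ) : ℂ) ≠ 0 := by exact_mod_cast Nat.factorial_ne_zero k
  rw [lam]
  field_simp at h2
  linear_combination h2

/-! ### The area theorem in the fixed frame -/

/-- Polar coordinates on the disc. -/
lemma lintegral_ball_polar {H : ℂ → ℝ≥0∞} (hH : Measurable H) :
    ∫⁻ z in ball (0 : ℂ) 1, H z = ∫⁻ r in Ioo (0 : ℝ) 1, ENNReal.ofReal r *
      ∫⁻ θ in Ioo (-π) π, H (circleMap 0 r θ) := by
  rw [← lintegral_indicator measurableSet_ball, ← Complex.lintegral_comp_polarCoord_symm]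
  have hgm : Measurable ((ball (0 : ℂ) 1).indicator H) := hH.indicator measurableSet_ball
  have e0 : ∀ p : ℝ × ℝ, Complex.polarCoord.symm p = circleMap 0 p.1 p.2 := by
    intro p
    rw [Complex.polarCoord_symm_apply, circleMap_zero, Complex.exp_mul_I]
    push_cast
    rfl
  simp only [e0]
  have hm : Measurable (fun p : ℝ × ℝ => ENNReal.ofReal p.1 •
      (ball (0 : ℂ) 1).indicator H (circleMap 0 p.1 p.2)) := by
    simp only [smul_eq_mul]
    exact (ENNReal.measurable_ofReal.comp measurable_fst).mul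
      (hgm.comp continuous_circleMap_uncurry.measurable)
  have e2 : polarCoord.target = Ioi (0 : ℝ) ×ˢ Ioo (-π) π := rfl
  rw [e2, Measure.volume_eq_prod, setLIntegral_prod _ (hm.aemeasurable)]
  have e3 : ∀ r ∈ Ioi (0 : ℝ), (∫⁻ θ in Ioo (-π) π, ENNReal.ofReal r •
      (ball (0 : ℂ) 1).indicator H (circleMap 0 r θ)) =
      (Iio (1 : ℝ)).indicator (fun r => ENNReal.ofReal r *
      ∫⁻ θ in Ioo (-π) π, H (circleMap 0 r θ)) r := by
    intro r hr
    have hr0 : (0 : ℝ) < r := hr
    by_cases h : r < 1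
    · rw [indicator_of_mem (show r ∈ Iio (1 : ℝ) from h)]
      have h1 : ∀ θ, (ball (0 : ℂ) 1).indicator H (circleMap 0 r θ) = H (circleMap 0 r θ) :=
        fun θ => indicator_of_mem (circleMap_mem_unit hr0.le h θ) _
      simp only [h1, smul_eq_mul]
      rw [lintegral_const_mul' _ _ ENNReal.ofReal_ne_top]
    · rw [indicator_of_notMem (show r ∉ Iio (1 : ℝ) from h)]
      have h1 : ∀ θ, (ball (0 : ℂ) 1).indicator H (circleMap 0 r θ) = 0 := by
        intro θ
        apply indicator_of_notMem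
        rw [mem_ball_zero_iff, norm_circleMap_zero, abs_of_pos hr0]
        exact h
      simp [h1]
  rw [setLIntegral_congr_fun measurableSet_Ioi e3, lintegral_indicator measurableSet_Iio,
    Measure.restrict_restrict measurableSet_Iio, Iio_inter_Ioi]

/-- Dirichlet integral in coefficients. -/
lemma dirichlet {h : ℂ → ℂ} (hh : DifferentiableOn ℂ h (ball 0 1)) :
    ∫⁻ z in ball (0 : ℂ) 1, ENNReal.ofReal (‖deriv h z‖ ^ 2) =
      ENNReal.ofReal π * ∑' k : ℕ, ENNReal.ofReal (((k : ℝ) + 1) * ‖tc h (k + 1)‖ ^ 2) := by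
  have hd := hh.deriv isOpen_ball
  have hm : Measurable (fun z : ℂ => ENNReal.ofReal (‖deriv h z‖ ^ 2)) :=
    ENNReal.measurable_ofReal.comp (((measurable_deriv h).norm).pow_const 2)
  rw [lintegral_ball_polar hm]
  have h1 := lintegral_mean2 hd (show (-1 : ℝ) < 0 by norm_num)
  have e1 : ∀ k : ℕ, ENNReal.ofReal (‖tc (deriv h) k‖ ^ 2 / ((0 + 1) * cc (0 + 2) k)) =
      ENNReal.ofReal (((k : ℝ) + 1) * ‖tc h (k + 1)‖ ^ 2) := by
    intro k
    congr 1
    rw [zero_add, zero_add, cc_two, tc_deriv, norm_mul]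
    have : ‖(k : ℂ) + 1‖ = (k : ℝ) + 1 := by
      have h2 : ((k : ℂ) + 1) = (((k : ℝ) + 1 : ℝ) : ℂ) := by push_cast; ring
      rw [h2, Complex.norm_real, Real.norm_eq_abs, abs_of_pos (by positivity)]
    rw [this]
    have hk : (k : ℝ) + 1 ≠ 0 := by positivity
    field_simp
  simp only [e1] at h1
  rw [← h1, ← lintegral_const_mul' _ _ ENNReal.ofReal_ne_top]
  apply setLIntegral_congr_fun measurableSet_Ioo
  intro r hr
  have hc : Continuous (fun θ : ℝ => ‖deriv h (circleMap 0 r θ)‖ ^ 2) :=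
    ((hd.continuousOn.comp_continuous (continuous_circleMap 0 r)
      (fun θ => circleMap_mem_unit hr.1.le hr.2 θ)).norm).pow 2
  have hint : IntegrableOn (fun θ => ‖deriv h (circleMap 0 r θ)‖ ^ 2) (Ioo (-π) π) :=
    (hc.integrableOn_Icc (a := -π) (b := π)).mono_set Ioo_subset_Icc_self
  simp only
  rw [← ofReal_integral_eq_lintegral_ofReal hint (Eventually.of_forall fun θ => by positivity),
    ← ENNReal.ofReal_mul hr.1.le, ← ENNReal.ofReal_mul Real.pi_pos.le]
  congr 1
  rw [mean2, bw, intervalIntegral.integral_of_le (by linarith [Real.pi_pos]),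
    integral_Ioc_eq_integral_Ioo]
  simp only [Real.rpow_zero]
  have hpi : π ≠ 0 := Real.pi_ne_zero
  field_simp
  ring

/-- The Möbius image of the disc. -/
lemma mob_image (hz : z ∈ ball (0 : ℂ) 1) :
    (fun ζ => (ζ + z) / (1 + conj z * ζ)) '' ball (0 : ℂ) 1 = ball 0 1 := by
  apply Subset.antisymm
  · rintro _ ⟨ζ, hζ, rfl⟩
    exact mob_mem hz hζ
  · intro w hw
    have hz' : -z ∈ ball (0 : ℂ) 1 := by
      rw [mem_ball_zero_iff, norm_neg]
      exact mem_ball_zero_iff.mp hz
    refine ⟨(w + -z) / (1 + conj (-z) * w), mob_mem hz' hw, ?_⟩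
    have h1 := den_ne hz' hw
    have h2 := den_ne hz (mob_mem hz' hw)
    simp only [map_neg] at h1 h2 ⊢
    have h1' : 1 - w * conj z ≠ 0 := by
      intro h; apply h1; linear_combination h
    have hu : ((1 - ‖z‖ ^ 2 : ℝ) : ℂ) ≠ 0 := by exact_mod_cast (unit_pos hz).ne'
    have e : ((1 - ‖z‖ ^ 2 : ℝ) : ℂ) = 1 - z * conj z := by
      rw [mul_conj, normSq_eq_norm_sq]; push_cast; ring
    rw [e] at hu
    have e3 : 1 + -(conj z) * w = 1 - w * conj z := by ring
    rw [e3] at h2 ⊢
    rw [div_eq_iff h2]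
    field_simp
    ring

lemma mob_injOn (hz : z ∈ ball (0 : ℂ) 1) :
    InjOn (fun ζ => (ζ + z) / (1 + conj z * ζ)) (ball (0 : ℂ) 1) := by
  intro ζ₁ h₁ ζ₂ h₂ h
  have huc : ((1 - ‖z‖ ^ 2 : ℝ) : ℂ) ≠ 0 := by exact_mod_cast (unit_pos hz).ne'
  have h4 := mob_sub hz h₁
  simp only at h
  rw [h, mob_sub hz h₂] at h4
  have d1 := den_ne hz h₁
  have d2 := den_ne hz h₂
  rw [div_eq_div_iff d2 d1] at h4
  have h5 : ((1 - ‖z‖ ^ 2 : ℝ) : ℂ) * ζ₂ = ((1 - ‖z‖ ^ 2 : ℝ) : ℂ) * ζ₁ := by
    linear_combination h4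
  exact (mul_left_cancel₀ huc h5).symm

/-- Möbius invariance of the Dirichlet integral. -/
lemma dirichlet_mob (hz : z ∈ ball (0 : ℂ) 1) {h : ℂ → ℂ} (hh : DifferentiableOn ℂ h (ball 0 1)) :
    ∫⁻ w in ball (0 : ℂ) 1, ENNReal.ofReal (‖deriv h w‖ ^ 2) =
      ∫⁻ ζ in ball (0 : ℂ) 1,
        ENNReal.ofReal (‖deriv (fun ζ => h ((ζ + z) / (1 + conj z * ζ))) ζ‖ ^ 2) := by
  set T : ℂ → ℂ := fun ζ => (ζ + z) / (1 + conj z * ζ) with hT
  have hTd := mob_diff hz
  have h1 := lintegral_image_eq_lintegral_abs_det_fderiv_mul volume (s := ball (0 : ℂ) 1)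
    (f := T) (f' := fun ζ => (ContinuousLinearMap.toSpanSingleton ℂ (deriv T ζ)).restrictScalars ℝ)
    measurableSet_ball (fun ζ hζ =>
      (((hTd.differentiableAt (isOpen_ball.mem_nhds hζ)).hasDerivAt.hasFDerivAt).restrictScalars
        ℝ).hasFDerivWithinAt) (mob_injOn hz) (fun w => ENNReal.ofReal (‖deriv h w‖ ^ 2))
  rw [mob_image hz] at h1
  rw [h1]
  apply setLIntegral_congr_fun measurableSet_ball
  intro ζ hζ
  simp only [abs_det_holo]
  have h2 : HasDerivAt (fun ζ => h (T ζ)) (deriv h (T ζ) * deriv T ζ) ζ := by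
    have h3 : HasDerivAt h (deriv h (T ζ)) (T ζ) :=
      (hh.differentiableAt (isOpen_ball.mem_nhds (mob_mem hz hζ))).hasDerivAt
    have h4 : HasDerivAt T (deriv T ζ) ζ :=
      (hTd.differentiableAt (isOpen_ball.mem_nhds hζ)).hasDerivAt
    exact HasDerivAt.comp ζ h3 h4
  rw [h2.deriv, ← ENNReal.ofReal_mul (by positivity), norm_mul, mul_pow]
  congr 1
  ring

/-- Coefficients of `Afun f z ∘ T`. -/
lemma tc_Afun_mob (hf : Univ f) (hz : z ∈ ball (0 : ℂ) 1) (m : ℕ) :
    tc (fun ζ => Afun f z ((ζ + z) / (1 + conj z * ζ))) (m + 1) =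
      -(((1 - ‖z‖ ^ 2 : ℝ) : ℂ))⁻¹ * tc (Rfun (koebeT f z)) (m + 2) := by
  have huc : ((1 - ‖z‖ ^ 2 : ℝ) : ℂ) ≠ 0 := by exact_mod_cast (unit_pos hz).ne'
  have hT := koebeT_univ hf hz
  have hRa := analyticAt_zero_of_diff (Rfun_diff hT.1 hT.2 (koebeT_zero f z) (koebeT_deriv hf hz))
  have hAd : DifferentiableOn ℂ (fun ζ => Afun f z ((ζ + z) / (1 + conj z * ζ))) (ball 0 1) :=
    (Afun_diff hf hz).comp (mob_diff hz) (fun ζ hζ => mob_mem hz hζ)
  have hAa := analyticAt_zero_of_diff hAd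
  have hi : AnalyticAt ℂ (fun z : ℂ => z) 0 := analyticAt_id
  -- u ζ A(Tζ) + R(ζ) = 1 + conj z ζ
  have e : (fun ζ => (((1 - ‖z‖ ^ 2 : ℝ) : ℂ) * ζ) * Afun f z ((ζ + z) / (1 + conj z * ζ)) +
      Rfun (koebeT f z) ζ) =ᶠ[𝓝 0] fun ζ => 1 + conj z * ζ := by
    filter_upwards [isOpen_ball.mem_nhds zero_mem_ball] with ζ hζ
    have hden := den_ne hz hζ
    have hTm := mob_mem hz hζ
    have hS := ds_ne hf hz hTm
    rw [Rfun_koebeT hf hz hζ, Gfun]
    have hm : z + mfun z ζ = (ζ + z) / (1 + conj z * ζ) := by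
      have := mob_sub hz hζ
      rw [mfun, ← div_eq_mul_inv]
      linear_combination -this
    rw [hm]
    have h4 := sub_smul_dslope (dslope f z) z ((ζ + z) / (1 + conj z * ζ))
    rw [smul_eq_mul, dslope_same, mob_sub hz hζ] at h4
    rw [Afun]
    set S := dslope f z ((ζ + z) / (1 + conj z * ζ)) with hSdef
    set T2 := dslope (dslope f z) z ((ζ + z) / (1 + conj z * ζ)) with hT2
    set c := 1 + conj z * ζ with hc
    set uu := ((1 - ‖z‖ ^ 2 : ℝ) : ℂ) with huu
    have h5 : uu * ζ * T2 = c * (S - deriv f z) := by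
      rw [← h4]
      field_simp
    have h6 : uu * ζ * (T2 / S) = c * (S - deriv f z) / S := by
      rw [← h5]; ring
    rw [h6]
    field_simp
    ring
  have hlin : AnalyticAt ℂ (fun ζ : ℂ => ((1 - ‖z‖ ^ 2 : ℝ) : ℂ) * ζ) 0 := by fun_prop
  have h1 := PS_congr e
  rw [PS_add (U := fun ζ => (((1 - ‖z‖ ^ 2 : ℝ) : ℂ) * ζ) *
    Afun f z ((ζ + z) / (1 + conj z * ζ))) (V := Rfun (koebeT f z)) (hlin.fun_mul hAa) hRa,
    PS_mul (U := fun ζ => ((1 - ‖z‖ ^ 2 : ℝ) : ℂ) * ζ) hlin hAa, PS_linear, PS_one_add] at h1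
  have h2 := congrArg (PowerSeries.coeff (m + 2)) h1
  rw [mul_assoc, map_add, map_add, PowerSeries.coeff_C_mul, PowerSeries.coeff_C_mul,
    PowerSeries.coeff_succ_X_mul, PowerSeries.coeff_one, PowerSeries.coeff_X, coeff_PS, coeff_PS,
    if_neg (by omega), if_neg (by omega)] at h2
  apply mul_left_cancel₀ huc
  rw [← mul_assoc, mul_neg, mul_inv_cancel₀ huc]
  linear_combination h2

/-- The area theorem in the fixed frame. -/
theorem area_fixed (hf : Univ f) (hz : z ∈ ball (0 : ℂ) 1) (M : ℕ) :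
    ∑ n ∈ Finset.range M, ((n : ℝ) + 1) * ‖tc (Afun f z) (n + 1)‖ ^ 2 ≤
      ((1 - ‖z‖ ^ 2)⁻¹) ^ 2 := by
  have hu := unit_pos hz
  have hA := Afun_diff hf hz
  have hAd : DifferentiableOn ℂ (fun ζ => Afun f z ((ζ + z) / (1 + conj z * ζ))) (ball 0 1) :=
    hA.comp (mob_diff hz) (fun ζ hζ => mob_mem hz hζ)
  have h1 := dirichlet_mob hz hA
  rw [dirichlet hA, dirichlet hAd] at h1
  have hpi : ENNReal.ofReal π ≠ 0 := by
    rw [Ne, ENNReal.ofReal_eq_zero, not_le]
    exact Real.pi_pos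
  have h2 := (ENNReal.mul_right_inj hpi ENNReal.ofReal_ne_top).mp h1
  have hT := koebeT_univ hf hz
  have h3 : ∑' k : ℕ, ENNReal.ofReal (((k : ℝ) + 1) *
      ‖tc (fun ζ => Afun f z ((ζ + z) / (1 + conj z * ζ))) (k + 1)‖ ^ 2) ≤
      ENNReal.ofReal (((1 - ‖z‖ ^ 2)⁻¹) ^ 2) := by
    apply ENNReal.tsum_le_of_sum_range_le
    intro K
    rw [← ENNReal.ofReal_sum_of_nonneg (fun i _ => by positivity)]
    apply ENNReal.ofReal_le_ofReal
    have h4 := area_theorem hT.1 hT.2 (koebeT_zero f z) (koebeT_deriv hf hz) K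
    have h5 : ∑ k ∈ Finset.range K, ((k : ℝ) + 1) *
        ‖tc (fun ζ => Afun f z ((ζ + z) / (1 + conj z * ζ))) (k + 1)‖ ^ 2 =
        ((1 - ‖z‖ ^ 2)⁻¹) ^ 2 * ∑ k ∈ Finset.range K, ((k : ℝ) + 1) *
          ‖tc (Rfun (koebeT f z)) (k + 2)‖ ^ 2 := by
      rw [Finset.mul_sum]
      apply Finset.sum_congr rfl
      intro k _
      rw [tc_Afun_mob hf hz, norm_mul, norm_neg, norm_inv, Complex.norm_real, Real.norm_eq_abs,
        abs_of_pos hu]
      ring
    rw [h5]
    calc ((1 - ‖z‖ ^ 2)⁻¹) ^ 2 * ∑ k ∈ Finset.range K, ((k : ℝ) + 1) *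
          ‖tc (Rfun (koebeT f z)) (k + 2)‖ ^ 2 ≤ ((1 - ‖z‖ ^ 2)⁻¹) ^ 2 * 1 := by gcongr
      _ = _ := mul_one _
  rw [← h2] at h3
  have h6 : ENNReal.ofReal (∑ n ∈ Finset.range M, ((n : ℝ) + 1) * ‖tc (Afun f z) (n + 1)‖ ^ 2) ≤
      ENNReal.ofReal (((1 - ‖z‖ ^ 2)⁻¹) ^ 2) := by
    rw [ENNReal.ofReal_sum_of_nonneg (fun i _ => by positivity)]
    exact le_trans (ENNReal.sum_le_tsum _) h3
  exact (ENNReal.ofReal_le_ofReal_iff (by positivity)).mp h6

end

end FF

end Vale.Agent.P142
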