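import Vale.Agent.P142.PosGrowth
import Vale.Agent.P142.FixedFrame
import Vale.Agent.P142.SpectrumGlue

open Complex MeasureTheory Metric Set Filter Topology intervalIntegral
open scoped Real ComplexConjugate ENNReal

namespace Vale.Agent.P142

noncomputable section

variable {f k h : ℂ → ℂ} {z : ℂ} {t r : ℝ}

lemma lintegral_pow_lt_top (ht : 0 < t) :
    ∫⁻ w in ball (0 : ℂ) 1, ENNReal.ofReal (‖w‖ ^ (t - 2)) < ⊤ := by
  have hm : Measurable (fun w : ℂ => ENNReal.ofReal (‖w‖ ^ (t - 2))) := by fun_prop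
  rw [FF.lintegral_ball_polar hm]
  have hint : IntegrableOn (fun r : ℝ => 2 * π * r ^ (t - 1)) (Ioo 0 1) := by
    have h1 : IntervalIntegrable (fun x : ℝ => x ^ (t - 1)) volume 0 1 :=
      intervalIntegral.intervalIntegrable_rpow' (by linarith)
    exact (h1.1.mono_set Ioo_subset_Ioc_self).const_mul _
  refine lt_of_le_of_lt (setLIntegral_mono' measurableSet_Ioo (g := fun r : ℝ =>
    ENNReal.ofReal (2 * π * r ^ (t - 1))) ?_) hint.lintegral_lt_top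
  intro r hr
  have e1 : ∀ θ : ℝ, ENNReal.ofReal (‖circleMap 0 r θ‖ ^ (t - 2)) = ENNReal.ofReal (r ^ (t - 2)) := by
    intro θ
    rw [norm_circleMap_zero, abs_of_pos hr.1]
  simp only [e1, lintegral_const, Measure.restrict_apply, MeasurableSet.univ, univ_inter,
    Real.volume_Ioo]
  have hp : 0 ≤ r ^ (t - 2) := Real.rpow_nonneg hr.1.le _
  rw [← ENNReal.ofReal_mul hp, ← ENNReal.ofReal_mul hr.1.le]
  apply ENNReal.ofReal_le_ofReal
  apply le_of_eq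
  have e2 : r ^ (t - 1) = r * r ^ (t - 2) := by
    rw [show t - 1 = (t - 2) + 1 by ring, Real.rpow_add_one hr.1.ne']
    ring
  rw [e2]
  ring

/-- The weighted area of the image. -/
lemma area_pow {K : ℂ → ℂ} (hK : Univ K) (hKb : ∀ z ∈ ball (0 : ℂ) 1, K z ∈ ball (0 : ℂ) 1) :
    ∫⁻ z in ball (0 : ℂ) 1, ENNReal.ofReal (‖deriv K z‖ ^ 2 * ‖K z‖ ^ (t - 2)) ≤
      ∫⁻ w in ball (0 : ℂ) 1, ENNReal.ofReal (‖w‖ ^ (t - 2)) := by
  have h1 := lintegral_image_eq_lintegral_abs_det_fderiv_mul volume (s := ball (0 : ℂ) 1)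
    (f := K) (f' := fun z => (ContinuousLinearMap.toSpanSingleton ℂ (deriv K z)).restrictScalars ℝ)
    measurableSet_ball (fun z hz =>
      (((hK.1.differentiableAt (isOpen_ball.mem_nhds hz)).hasDerivAt.hasFDerivAt).restrictScalars
        ℝ).hasFDerivWithinAt) hK.2 (fun w => ENNReal.ofReal (‖w‖ ^ (t - 2)))
  simp only [abs_det_holo] at h1
  calc ∫⁻ z in ball (0 : ℂ) 1, ENNReal.ofReal (‖deriv K z‖ ^ 2 * ‖K z‖ ^ (t - 2))
      = ∫⁻ z in ball (0 : ℂ) 1, ENNReal.ofReal (‖deriv K z‖ ^ 2) *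
          ENNReal.ofReal (‖K z‖ ^ (t - 2)) := by
        congr 1; ext z; rw [ENNReal.ofReal_mul (by positivity)]
    _ = ∫⁻ w in K '' ball (0 : ℂ) 1, ENNReal.ofReal (‖w‖ ^ (t - 2)) := h1.symm
    _ ≤ _ := lintegral_mono_set (by rintro _ ⟨z, hz, rfl⟩; exact hKb z hz)

lemma iteratedDeriv_dil (hh : DifferentiableOn ℂ h (ball 0 1)) {ρ : ℝ} (h0 : 0 < ρ)
    (h1 : ρ ≤ 1) (n : ℕ) : ∀ z ∈ ball (0 : ℂ) 1,
    iteratedDeriv n (fun z => h (ρ * z)) z = (ρ : ℂ) ^ n * iteratedDeriv n h (ρ * z) := by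
  induction n with
  | zero => intro z _; simp
  | succ n ih =>
    intro z hz
    rw [iteratedDeriv_succ]
    have e : iteratedDeriv n (fun z => h (ρ * z)) =ᶠ[𝓝 z] fun z =>
        (ρ : ℂ) ^ n * iteratedDeriv n h (ρ * z) := by
      filter_upwards [isOpen_ball.mem_nhds hz] with y hy using ih y hy
    rw [e.deriv_eq]
    have h2 := hasDerivAt_iteratedDeriv hh (dil_mem h0 h1 hz) n
    have h3 : HasDerivAt (fun z : ℂ => (ρ : ℂ) * z) ρ z := by
      simpa using (hasDerivAt_id z).const_mul (ρ : ℂ)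
    have h4 := (h2.comp z h3).const_mul ((ρ : ℂ) ^ n)
    have h5 := h4.deriv
    simp only [Function.comp_def] at h5
    rw [h5]
    ring

lemma tc_dil (hh : DifferentiableOn ℂ h (ball 0 1)) {ρ : ℝ} (h0 : 0 < ρ) (h1 : ρ ≤ 1) (n : ℕ) :
    tc (fun z => h (ρ * z)) n = (ρ : ℂ) ^ n * tc h n := by
  rw [tc, tc, iteratedDeriv_dil hh h0 h1 n 0 (mem_ball_self one_pos), mul_zero]
  ring

/-- Coefficient bound for `h = k ^ (t / 2)`. -/
theorem coef_bound (hk : Univ k) (hne : ∀ z ∈ ball (0 : ℂ) 1, k z ≠ 0) (ht : 0 < t)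
    (hh : DifferentiableOn ℂ h (ball 0 1))
    (hd : ∀ z ∈ ball (0 : ℂ) 1, ‖deriv h z‖ ^ 2 = (t / 2) ^ 2 * (‖deriv k z‖ ^ 2 * ‖k z‖ ^ (t - 2))) :
    ∃ B : ℝ, 0 ≤ B ∧ ∀ ρ ∈ Ioo (0 : ℝ) 1, ∀ N : ℕ,
      ∑ n ∈ Finset.range N, ((n : ℝ) + 1) * ‖tc h (n + 1)‖ ^ 2 * ρ ^ (2 * (n + 1)) ≤
        B * (1 - ρ) ^ (-(2 * t)) := by
  set A : ℝ≥0∞ := ∫⁻ w in ball (0 : ℂ) 1, ENNReal.ofReal (‖w‖ ^ (t - 2)) with hA
  have hAt : A ≠ ⊤ := (lintegral_pow_lt_top ht).ne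
  have h00 : (0 : ℂ) ∈ ball (0 : ℂ) 1 := mem_ball_self one_pos
  have hk0 : 0 < ‖k 0‖ := norm_pos_iff.mpr (hne 0 h00)
  refine ⟨π⁻¹ * ((t / 2) ^ 2 * A.toReal) * (4 * ‖k 0‖) ^ t, by positivity, ?_⟩
  intro ρ hρ N
  have hρ1 : 0 < 1 - ρ := by linarith [hρ.2]
  set M : ℝ := ‖k 0‖ * (4 * (1 - ρ) ^ (-2 : ℝ)) with hM
  have hMp : 0 < M := by
    have := Real.rpow_pos_of_pos hρ1 (-2 : ℝ)
    positivity
  have hmem : ∀ z ∈ ball (0 : ℂ) 1, (ρ : ℂ) * z ∈ ball (0 : ℂ) 1 := fun z hz =>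
    dil_mem hρ.1 hρ.2.le hz
  have hlt : ∀ z ∈ ball (0 : ℂ) 1, ‖(ρ : ℂ) * z‖ < ρ := by
    intro z hz
    rw [mem_ball_zero_iff] at hz
    rw [norm_mul, Complex.norm_real, Real.norm_eq_abs, abs_of_pos hρ.1]
    nlinarith [hρ.1]
  -- the scaled map
  set K : ℂ → ℂ := fun z => (M : ℂ)⁻¹ * k (ρ * z) with hK
  have hMc : (M : ℂ) ≠ 0 := by exact_mod_cast hMp.ne'
  have hρc : (ρ : ℂ) ≠ 0 := by exact_mod_cast hρ.1.ne'
  have hder : ∀ (g : ℂ → ℂ), DifferentiableOn ℂ g (ball 0 1) → ∀ (c : ℂ), ∀ z ∈ ball (0 : ℂ) 1,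
      HasDerivAt (fun z => c * g (ρ * z)) (c * (deriv g (ρ * z) * ρ)) z := by
    intro g hg c z hz
    have h2 := (hg.differentiableAt (isOpen_ball.mem_nhds (hmem z hz))).hasDerivAt
    have h3 : HasDerivAt (fun z : ℂ => (ρ : ℂ) * z) ρ z := by
      simpa using (hasDerivAt_id z).const_mul (ρ : ℂ)
    exact (h2.comp z h3).const_mul c
  have hKU : Univ K := by
    constructor
    · intro z hz
      exact (hder k hk.1 _ z hz).differentiableAt.differentiableWithinAt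
    · intro a ha b hb hab
      have h1 := mul_left_cancel₀ (inv_ne_zero hMc) hab
      exact mul_left_cancel₀ hρc (hk.2 (hmem a ha) (hmem b hb) h1)
  have hKb : ∀ z ∈ ball (0 : ℂ) 1, K z ∈ ball (0 : ℂ) 1 := by
    intro z hz
    rw [mem_ball_zero_iff, hK]
    simp only
    rw [norm_mul, norm_inv, Complex.norm_real, Real.norm_eq_abs, abs_of_pos hMp,
      inv_mul_lt_iff₀ hMp, mul_one]
    refine lt_of_le_of_lt (growth hk hne (hmem z hz)) ?_
    rw [hM]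
    apply mul_lt_mul_of_pos_left _ hk0
    apply mul_lt_mul_of_pos_left _ (by norm_num)
    apply Real.rpow_lt_rpow_of_neg hρ1 _ (by norm_num)
    linarith [hlt z hz]
  set c : ℝ := M ^ (-(t / 2)) with hc
  have hcp : 0 < c := Real.rpow_pos_of_pos hMp _
  set H : ℂ → ℂ := fun z => (c : ℂ) * h (ρ * z) with hH
  have hHd : DifferentiableOn ℂ H (ball 0 1) := fun z hz =>
    (hder h hh _ z hz).differentiableAt.differentiableWithinAt
  have hHn : ∀ z ∈ ball (0 : ℂ) 1, ‖deriv H z‖ ^ 2 =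
      (t / 2) ^ 2 * (‖deriv K z‖ ^ 2 * ‖K z‖ ^ (t - 2)) := by
    intro z hz
    rw [(hder h hh c z hz).deriv, (hder k hk.1 _ z hz).deriv, hK]
    simp only [norm_mul, norm_inv, Complex.norm_real, Real.norm_eq_abs, abs_of_pos hMp,
      abs_of_pos hcp, abs_of_pos hρ.1]
    have h1 := hd _ (hmem z hz)
    have hkz : 0 < ‖k (ρ * z)‖ := norm_pos_iff.mpr (hne _ (hmem z hz))
    rw [mul_pow, mul_pow, h1, Real.mul_rpow (by positivity) hkz.le]
    have e1 : c ^ 2 = M⁻¹ ^ 2 * M⁻¹ ^ (t - 2) := by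
      rw [hc, ← Real.rpow_two (M⁻¹), ← Real.rpow_add (by positivity), ← Real.rpow_mul_natCast hMp.le,
        ← Real.rpow_neg_one M, ← Real.rpow_mul hMp.le]
      congr 1
      push_cast
      ring
    rw [e1]
    ring
  have h2 := FF.dirichlet hHd
  have h3 : ∫⁻ z in ball (0 : ℂ) 1, ENNReal.ofReal (‖deriv H z‖ ^ 2) ≤
      ENNReal.ofReal ((t / 2) ^ 2) * A := by
    rw [setLIntegral_congr_fun measurableSet_ball (g := fun z => ENNReal.ofReal ((t / 2) ^ 2) *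
      ENNReal.ofReal (‖deriv K z‖ ^ 2 * ‖K z‖ ^ (t - 2))) (fun z hz => by
        simp only
        rw [hHn z hz, ENNReal.ofReal_mul (by positivity)])]
    rw [lintegral_const_mul' _ _ ENNReal.ofReal_ne_top]
    exact mul_le_mul_right (area_pow hKU hKb) _
  rw [h2] at h3
  -- coefficients of `H`
  have htc : ∀ n, ‖tc H n‖ ^ 2 = c ^ 2 * (ρ ^ (2 * n) * ‖tc h n‖ ^ 2) := by
    intro n
    have e1 : tc H n = c * ((ρ : ℂ) ^ n * tc h n) := by
      have hhd : DifferentiableOn ℂ (fun z => h (ρ * z)) (ball 0 1) := by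
        intro z hz
        have := (hder h hh 1 z hz).differentiableAt.differentiableWithinAt (s := ball (0 : ℂ) 1)
        simpa using this
      rw [← tc_dil hh hρ.1 hρ.2.le n, hH, tc, tc, iteratedDeriv_const_mul_field]
      ring
    rw [e1, norm_mul, norm_mul, norm_pow, Complex.norm_real, Complex.norm_real, Real.norm_eq_abs,
      Real.norm_eq_abs, abs_of_pos hcp, abs_of_pos hρ.1]
    ring
  have h4 : ENNReal.ofReal π * ENNReal.ofReal (∑ n ∈ Finset.range N,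
      ((n : ℝ) + 1) * ‖tc H (n + 1)‖ ^ 2) ≤ ENNReal.ofReal ((t / 2) ^ 2) * A := by
    refine le_trans (mul_le_mul_right ?_ _) h3
    rw [ENNReal.ofReal_sum_of_nonneg (fun i _ => by positivity)]
    exact ENNReal.sum_le_tsum _
  have h5 : ∑ n ∈ Finset.range N, ((n : ℝ) + 1) * ‖tc H (n + 1)‖ ^ 2 ≤
      π⁻¹ * ((t / 2) ^ 2 * A.toReal) := by
    rw [← ENNReal.ofReal_mul Real.pi_pos.le] at h4
    have h6 := ENNReal.toReal_mono (ENNReal.mul_ne_top ENNReal.ofReal_ne_top hAt) h4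
    rw [ENNReal.toReal_ofReal (mul_nonneg Real.pi_pos.le (Finset.sum_nonneg fun i _ => by
      positivity)), ENNReal.toReal_mul, ENNReal.toReal_ofReal (by positivity)] at h6
    rw [← div_eq_inv_mul, le_div_iff₀ Real.pi_pos]
    linarith
  have e6 : ∑ n ∈ Finset.range N, ((n : ℝ) + 1) * ‖tc h (n + 1)‖ ^ 2 * ρ ^ (2 * (n + 1)) =
      (c ^ 2)⁻¹ * ∑ n ∈ Finset.range N, ((n : ℝ) + 1) * ‖tc H (n + 1)‖ ^ 2 := by
    rw [Finset.mul_sum]
    apply Finset.sum_congr rfl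
    intro n _
    rw [htc]
    field_simp
  have e7 : (c ^ 2)⁻¹ = (4 * ‖k 0‖) ^ t * (1 - ρ) ^ (-(2 * t)) := by
    have hp : 0 ≤ (1 - ρ) ^ (-2 : ℝ) := Real.rpow_nonneg hρ1.le _
    rw [hc, ← Real.rpow_mul_natCast hMp.le, ← Real.rpow_neg hMp.le,
      show -(-(t / 2) * ((2 : ℕ) : ℝ)) = t by push_cast; ring, hM,
      show ‖k 0‖ * (4 * (1 - ρ) ^ (-2 : ℝ)) = 4 * ‖k 0‖ * (1 - ρ) ^ (-2 : ℝ) by ring,
      Real.mul_rpow (by positivity) hp, ← Real.rpow_mul hρ1.le]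
    congr 2
    ring
  rw [e6, e7]
  have hp2 : 0 ≤ (4 * ‖k 0‖) ^ t * (1 - ρ) ^ (-(2 * t)) :=
    mul_nonneg (Real.rpow_nonneg (by positivity) _) (Real.rpow_nonneg hρ1.le _)
  calc _ ≤ (4 * ‖k 0‖) ^ t * (1 - ρ) ^ (-(2 * t)) * (π⁻¹ * ((t / 2) ^ 2 * A.toReal)) :=
        mul_le_mul_of_nonneg_left h5 hp2
    _ = _ := by ring

/-! ### Means -/

lemma pow_mid (hr0 : 0 ≤ r) (hr1 : r < 1) (n : ℕ) :
    ((n : ℝ) + 1) * (1 - r) * r ^ (2 * n) ≤ ((1 + r) / 2) ^ (2 * n) := by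
  have h1 : r ≤ ((1 + r) / 2) ^ 2 := by nlinarith [sq_nonneg (1 - r)]
  have h2 : r ^ n ≤ ((1 + r) / 2) ^ (2 * n) := by
    rw [pow_mul]
    exact pow_le_pow_left₀ hr0 h1 n
  have h3 : ((n : ℝ) + 1) * (1 - r) * r ^ n ≤ 1 := by
    have h4 : (1 - r) * ∑ i ∈ Finset.range (n + 1), r ^ i = 1 - r ^ (n + 1) :=
      mul_neg_geom_sum r (n + 1)
    have h5 : ((n : ℝ) + 1) * r ^ n ≤ ∑ i ∈ Finset.range (n + 1), r ^ i := by
      have h6 : ∑ _i ∈ Finset.range (n + 1), r ^ n ≤ ∑ i ∈ Finset.range (n + 1), r ^ i := by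
        apply Finset.sum_le_sum
        intro i hi
        exact pow_le_pow_of_le_one hr0 hr1.le (by rw [Finset.mem_range] at hi; omega)
      rw [Finset.sum_const, Finset.card_range, nsmul_eq_mul] at h6
      push_cast at h6
      exact h6
    have h7 : 0 ≤ r ^ (n + 1) := pow_nonneg hr0 _
    nlinarith
  have h8 : 0 ≤ r ^ n := pow_nonneg hr0 n
  calc ((n : ℝ) + 1) * (1 - r) * r ^ (2 * n) = (((n : ℝ) + 1) * (1 - r) * r ^ n) * r ^ n := by
        rw [two_mul, pow_add]; ring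
    _ ≤ 1 * r ^ n := mul_le_mul_of_nonneg_right h3 h8
    _ ≤ _ := by rw [one_mul]; exact h2

lemma le_of_fin {a : ℕ → ℝ} {s b : ℝ} (h : HasSum a s)
    (hb : ∀ N, ∑ n ∈ Finset.range N, a n ≤ b) : s ≤ b :=
  le_of_tendsto' h.tendsto_sum_nat hb

/-- The mean of `|h'| ^ 2`. -/
lemma mean2_deriv_le (hh : DifferentiableOn ℂ h (ball 0 1)) {B : ℝ}
    (hc : ∀ ρ ∈ Ioo (0 : ℝ) 1, ∀ N : ℕ,
      ∑ n ∈ Finset.range N, ((n : ℝ) + 1) * ‖tc h (n + 1)‖ ^ 2 * ρ ^ (2 * (n + 1)) ≤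
        B * (1 - ρ) ^ (-(2 * t))) (hr : r ∈ Ico (1 / 2 : ℝ) 1) :
    mean2 (deriv h) r ≤ 4 * 2 ^ (2 * t) * B * (1 - r) ^ (-(1 + 2 * t)) := by
  have hr0 : 0 ≤ r := by linarith [hr.1]
  have hr1 : 0 < 1 - r := by linarith [hr.2]
  have hs := hasSum_mean2 (hh.deriv isOpen_ball) hr0 hr.2
  apply le_of_fin hs
  intro N
  set ρ : ℝ := (1 + r) / 2 with hρ
  have hρ1 : ρ ∈ Ioo (0 : ℝ) 1 := ⟨by rw [hρ]; linarith, by rw [hρ]; linarith [hr.2]⟩
  have h1 := hc ρ hρ1 N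
  have e1 : (1 - ρ) ^ (-(2 * t)) = 2 ^ (2 * t) * (1 - r) ^ (-(2 * t)) := by
    rw [show 1 - ρ = (1 - r) * 2⁻¹ by rw [hρ]; ring, Real.mul_rpow hr1.le (by norm_num),
      Real.inv_rpow (by norm_num), Real.rpow_neg (by norm_num : (0 : ℝ) ≤ 2), inv_inv]
    ring
  rw [e1] at h1
  have e2 : (1 - r) ^ (-(1 + 2 * t)) = (1 - r)⁻¹ * (1 - r) ^ (-(2 * t)) := by
    rw [show -(1 + 2 * t) = -1 + -(2 * t) by ring, Real.rpow_add hr1, Real.rpow_neg_one]
  have h2 : ∀ n : ℕ, ‖tc (deriv h) n‖ ^ 2 * r ^ (2 * n) ≤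
      4 * (1 - r)⁻¹ * (((n : ℝ) + 1) * ‖tc h (n + 1)‖ ^ 2 * ρ ^ (2 * (n + 1))) := by
    intro n
    rw [tc_deriv, norm_mul]
    have e3 : ‖(n : ℂ) + 1‖ = (n : ℝ) + 1 := by
      have h2 : ((n : ℂ) + 1) = (((n : ℝ) + 1 : ℝ) : ℂ) := by push_cast; ring
      rw [h2, Complex.norm_real, Real.norm_eq_abs, abs_of_pos (by positivity)]
    rw [e3]
    have h3 := pow_mid hr0 hr.2 n
    rw [← hρ] at h3
    have h4 : 1 ≤ 4 * ρ ^ 2 := by
      have : 1 / 2 ≤ ρ := by rw [hρ]; linarith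
      nlinarith
    have h5 : 0 ≤ ρ ^ (2 * n) := pow_nonneg hρ1.1.le _
    have h6 : ((n : ℝ) + 1) * r ^ (2 * n) ≤ (1 - r)⁻¹ * ρ ^ (2 * n) := by
      rw [← div_eq_inv_mul, le_div_iff₀ hr1]
      linarith
    have h7 : 0 ≤ (1 - r)⁻¹ := by positivity
    have h8 : ρ ^ (2 * n) ≤ 4 * ρ ^ (2 * (n + 1)) := by
      rw [show 2 * (n + 1) = 2 * n + 2 by ring, pow_add]
      nlinarith
    calc (((n : ℝ) + 1) * ‖tc h (n + 1)‖) ^ 2 * r ^ (2 * n)
        = (((n : ℝ) + 1) * ‖tc h (n + 1)‖ ^ 2) * (((n : ℝ) + 1) * r ^ (2 * n)) := by ring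
      _ ≤ (((n : ℝ) + 1) * ‖tc h (n + 1)‖ ^ 2) * ((1 - r)⁻¹ * (4 * ρ ^ (2 * (n + 1)))) := by
          apply mul_le_mul_of_nonneg_left _ (by positivity)
          exact le_trans h6 (mul_le_mul_of_nonneg_left h8 h7)
      _ = _ := by ring
  calc ∑ n ∈ Finset.range N, ‖tc (deriv h) n‖ ^ 2 * r ^ (2 * n)
      ≤ ∑ n ∈ Finset.range N, 4 * (1 - r)⁻¹ *
          (((n : ℝ) + 1) * ‖tc h (n + 1)‖ ^ 2 * ρ ^ (2 * (n + 1))) :=
        Finset.sum_le_sum fun n _ => h2 n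
    _ = 4 * (1 - r)⁻¹ * ∑ n ∈ Finset.range N,
          (((n : ℝ) + 1) * ‖tc h (n + 1)‖ ^ 2 * ρ ^ (2 * (n + 1))) := by rw [Finset.mul_sum]
    _ ≤ 4 * (1 - r)⁻¹ * (B * (2 ^ (2 * t) * (1 - r) ^ (-(2 * t)))) :=
        mul_le_mul_of_nonneg_left h1 (by positivity)
    _ = _ := by rw [e2]; ring

/-- The mean of `|h| ^ 2`. -/
lemma mean2_le (hh : DifferentiableOn ℂ h (ball 0 1)) (ht : 1 / 2 < t) {B : ℝ} (hB : 0 ≤ B)
    (hc : ∀ ρ ∈ Ioo (0 : ℝ) 1, ∀ N : ℕ,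
      ∑ n ∈ Finset.range N, ((n : ℝ) + 1) * ‖tc h (n + 1)‖ ^ 2 * ρ ^ (2 * (n + 1)) ≤
        B * (1 - ρ) ^ (-(2 * t))) (hr : r ∈ Ico (1 / 2 : ℝ) 1) :
    mean2 h r ≤ (‖tc h 0‖ ^ 2 + 6 * B / (2 * t - 1)) * (1 - r) ^ (-(2 * t - 1)) := by
  have hr0 : 0 < r := by linarith [hr.1]
  have hr1 : 0 < 1 - r := by linarith [hr.2]
  have ht1 : 0 < 2 * t - 1 := by linarith
  have hs := hasSum_mean2 hh hr0.le hr.2
  have hs1 := (hasSum_nat_add_iff' 1).mpr hs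
  rw [Finset.sum_range_one, mul_zero, pow_zero, mul_one] at hs1
  set P : ℝ := (1 - r) ^ (-(2 * t - 1)) with hP
  have hP1 : 1 ≤ P := Real.one_le_rpow_of_pos_of_le_one_of_nonpos hr1 (by linarith) (by linarith)
  have key : mean2 h r - ‖tc h 0‖ ^ 2 ≤ 6 * B / (2 * t - 1) * P := by
    apply le_of_fin hs1
    intro N
    -- integrate the coefficient bound over `[0, r]`
    have hd : ∀ x ∈ uIcc 0 r, HasDerivAt (fun x : ℝ => B / (2 * t - 1) * (1 - x) ^ (-(2 * t - 1)))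
        (B * (1 - x) ^ (-(2 * t))) x := by
      intro x hx
      rw [uIcc_of_le hr0.le] at hx
      have hx1 : 0 < 1 - x := by linarith [hx.2]
      have h2 : HasDerivAt (fun x : ℝ => 1 - x) (-1) x := by
        simpa using (hasDerivAt_id x).const_sub 1
      refine ((h2.rpow_const (p := -(2 * t - 1)) (Or.inl hx1.ne')).const_mul
        (B / (2 * t - 1))).congr_deriv ?_
      rw [show -(2 * t - 1) - 1 = -(2 * t) by ring]
      field_simp
    have hcont : ContinuousOn (fun x : ℝ => B * (1 - x) ^ (-(2 * t))) (uIcc 0 r) := by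
      apply ContinuousOn.const_mul
      apply ContinuousOn.rpow_const (by fun_prop)
      intro x hx
      rw [uIcc_of_le hr0.le] at hx
      left
      linarith [hx.2]
    have hI := intervalIntegral.integral_eq_sub_of_hasDerivAt hd hcont.intervalIntegrable
    have hpc : Continuous (fun x : ℝ => ∑ n ∈ Finset.range N,
        ((n : ℝ) + 1) * ‖tc h (n + 1)‖ ^ 2 * x ^ (2 * (n + 1))) := by fun_prop
    have hmono : ∫ x in (0 : ℝ)..r, ∑ n ∈ Finset.range N,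
        ((n : ℝ) + 1) * ‖tc h (n + 1)‖ ^ 2 * x ^ (2 * (n + 1)) ≤
        ∫ x in (0 : ℝ)..r, B * (1 - x) ^ (-(2 * t)) := by
      apply intervalIntegral.integral_mono_on_of_le_Ioo hr0.le (hpc.intervalIntegrable _ _)
        hcont.intervalIntegrable
      intro x hx
      exact hc x ⟨hx.1, by linarith [hx.2]⟩ N
    rw [hI, intervalIntegral.integral_finsetSum (fun n _ => by
      apply Continuous.intervalIntegrable; fun_prop)] at hmono
    simp only [intervalIntegral.integral_const_mul, integral_pow, sub_zero, Real.one_rpow] at hmono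
    have h3 : ∀ n : ℕ, r / 3 * (‖tc h (n + 1)‖ ^ 2 * r ^ (2 * (n + 1))) ≤
        ((n : ℝ) + 1) * ‖tc h (n + 1)‖ ^ 2 * ((r ^ (2 * (n + 1) + 1) - 0 ^ (2 * (n + 1) + 1)) /
          (((2 * (n + 1) : ℕ) : ℝ) + 1)) := by
      intro n
      rw [zero_pow (by omega), sub_zero, pow_succ]
      have h4 : (1 : ℝ) / 3 ≤ ((n : ℝ) + 1) / (((2 * (n + 1) : ℕ) : ℝ) + 1) := by
        rw [div_le_div_iff₀ (by norm_num) (by positivity)]
        push_cast
        have : (0 : ℝ) ≤ n := Nat.cast_nonneg n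
        linarith
      have h5 : 0 ≤ ‖tc h (n + 1)‖ ^ 2 * (r ^ (2 * (n + 1)) * r) := by positivity
      calc r / 3 * (‖tc h (n + 1)‖ ^ 2 * r ^ (2 * (n + 1)))
          = 1 / 3 * (‖tc h (n + 1)‖ ^ 2 * (r ^ (2 * (n + 1)) * r)) := by ring
        _ ≤ ((n : ℝ) + 1) / (((2 * (n + 1) : ℕ) : ℝ) + 1) *
            (‖tc h (n + 1)‖ ^ 2 * (r ^ (2 * (n + 1)) * r)) := mul_le_mul_of_nonneg_right h4 h5
        _ = _ := by ring
    have h6 : r / 3 * ∑ n ∈ Finset.range N, ‖tc h (n + 1)‖ ^ 2 * r ^ (2 * (n + 1)) ≤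
        B / (2 * t - 1) * P := by
      rw [Finset.mul_sum]
      refine le_trans (Finset.sum_le_sum fun n _ => h3 n) (le_trans hmono ?_)
      have : 0 ≤ B / (2 * t - 1) := by positivity
      rw [← hP]
      linarith
    have h7 : 0 ≤ ∑ n ∈ Finset.range N, ‖tc h (n + 1)‖ ^ 2 * r ^ (2 * (n + 1)) :=
      Finset.sum_nonneg fun n _ => by positivity
    have h8 : 1 / 6 * ∑ n ∈ Finset.range N, ‖tc h (n + 1)‖ ^ 2 * r ^ (2 * (n + 1)) ≤
        B / (2 * t - 1) * P := by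
      refine le_trans (mul_le_mul_of_nonneg_right ?_ h7) h6
      linarith [hr.1]
    calc _ ≤ 6 * (B / (2 * t - 1) * P) := by linarith
      _ = _ := by ring
  have h9 : ‖tc h 0‖ ^ 2 ≤ ‖tc h 0‖ ^ 2 * P := le_mul_of_one_le_right (by positivity) hP1
  calc mean2 h r ≤ ‖tc h 0‖ ^ 2 * P + 6 * B / (2 * t - 1) * P := by linarith
    _ = _ := by ring

/-- Integral means of the derivative for `1 / 2 < t < 2`. -/
theorem pos_mean (hf : Univ f) (ht : 1 / 2 < t) (ht2 : t < 2) :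
    ∃ C : ℝ, ∀ r ∈ Ico (1 / 2 : ℝ) 1, (1 - r) ^ (3 * t - 1) * MM f t r ≤ C := by
  obtain ⟨c, hc⟩ := exists_omitted hf
  set k : ℂ → ℂ := fun z => f z - c with hk
  have hkU : Univ k := ⟨hf.1.sub_const c, fun a ha b hb hab => hf.2 ha hb (by
    simp only [hk] at hab
    linear_combination hab)⟩
  have hne : ∀ z ∈ ball (0 : ℂ) 1, k z ≠ 0 := fun z hz => sub_ne_zero.mpr (hc z hz)
  have hkd : ∀ z, deriv k z = deriv f z := fun z => by rw [hk, deriv_sub_const]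
  obtain ⟨L, hL1, hL2, hL3⟩ := exists_logf hkU.1 hne
  set h : ℂ → ℂ := fun z => Complex.exp (((t / 2 : ℝ) : ℂ) * L z) with hh
  have hhd : ∀ z ∈ ball (0 : ℂ) 1, HasDerivAt h (h z * (((t / 2 : ℝ) : ℂ) * (deriv k z / k z))) z :=
    fun z hz => ((hL1 z hz).const_mul _).cexp
  have hhD : DifferentiableOn ℂ h (ball 0 1) := fun z hz =>
    (hhd z hz).differentiableAt.differentiableWithinAt
  have hhn : ∀ z ∈ ball (0 : ℂ) 1, ‖h z‖ = ‖k z‖ ^ (t / 2) := by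
    intro z hz
    rw [hL2 z hz, hh, Complex.norm_exp, Complex.norm_exp, re_ofReal_mul, ← Real.exp_mul]
    congr 1
    ring
  have ht0 : 0 < t := by linarith
  have hkp : ∀ z ∈ ball (0 : ℂ) 1, 0 < ‖k z‖ := fun z hz => norm_pos_iff.mpr (hne z hz)
  have hdn : ∀ z ∈ ball (0 : ℂ) 1, ‖deriv h z‖ = ‖k z‖ ^ (t / 2) * (t / 2 * (‖deriv k z‖ / ‖k z‖)) := by
    intro z hz
    rw [(hhd z hz).deriv, norm_mul, norm_mul, norm_div, hhn z hz, Complex.norm_real,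
      Real.norm_eq_abs, abs_of_pos (by positivity)]
  have hd : ∀ z ∈ ball (0 : ℂ) 1, ‖deriv h z‖ ^ 2 =
      (t / 2) ^ 2 * (‖deriv k z‖ ^ 2 * ‖k z‖ ^ (t - 2)) := by
    intro z hz
    rw [hdn z hz, Real.rpow_sub (hkp z hz), Real.rpow_two, mul_pow, ← Real.rpow_mul_natCast
      (hkp z hz).le]
    have e : t / 2 * ((2 : ℕ) : ℝ) = t := by push_cast; ring
    rw [e]
    have := (hkp z hz).ne'
    field_simp
  obtain ⟨B, hB, hco⟩ := coef_bound hkU hne ht0 hhD hd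
  set C1 : ℝ := 4 * 2 ^ (2 * t) * B with hC1
  set C2 : ℝ := ‖tc h 0‖ ^ 2 + 6 * B / (2 * t - 1) with hC2
  refine ⟨(2 / t) ^ t * (2 * π) * (C1 + C2), ?_⟩
  intro r hr
  have hr0 : 0 ≤ r := by linarith [hr.1]
  have hr1 : 0 < 1 - r := by linarith [hr.2]
  have m1 := mean2_deriv_le hhD hco hr
  have m2 := mean2_le hhD ht hB hco hr
  have hmem := fun θ : ℝ => circleMap_mem_unit hr0 hr.2 θ
  -- pointwise Young
  have hpt : ∀ z ∈ ball (0 : ℂ) 1, ‖deriv f z‖ ^ t ≤ (2 / t) ^ t *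
      (‖deriv h z‖ ^ 2 * (1 - r) ^ (2 - t) + ‖h z‖ ^ 2 * (1 - r) ^ (-t)) := by
    intro z hz
    have hkz := hkp z hz
    have e1 : ‖deriv f z‖ ^ t = (2 / t) ^ t * ((‖deriv h z‖ ^ 2) ^ (t / 2) *
        (‖h z‖ ^ 2) ^ (1 - t / 2)) := by
      rw [← Real.rpow_natCast_mul (norm_nonneg _), ← Real.rpow_natCast_mul (norm_nonneg _),
        show ((2 : ℕ) : ℝ) * (t / 2) = t by push_cast; ring,
        show ((2 : ℕ) : ℝ) * (1 - t / 2) = 2 - t by push_cast; ring, hdn z hz, hhn z hz,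
        Real.mul_rpow (by positivity) (by positivity), Real.mul_rpow (by positivity) (by positivity),
        Real.div_rpow (norm_nonneg _) hkz.le, hkd, ← Real.rpow_mul hkz.le, ← Real.rpow_mul hkz.le]
      have e2 : ‖k z‖ ^ (t / 2 * t) * ‖k z‖ ^ (t / 2 * (2 - t)) = ‖k z‖ ^ t := by
        rw [← Real.rpow_add hkz]; congr 1; ring
      have e3 : (2 / t) ^ t * (t / 2) ^ t = 1 := by
        rw [← Real.mul_rpow (by positivity) (by positivity)]
        have : 2 / t * (t / 2) = 1 := by field_simp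
        rw [this, Real.one_rpow]
      have e4 : ‖k z‖ ^ t ≠ 0 := (Real.rpow_pos_of_pos hkz t).ne'
      calc ‖deriv f z‖ ^ t = 1 * (‖k z‖ ^ t / ‖k z‖ ^ t) * ‖deriv f z‖ ^ t := by
            rw [div_self e4]; ring
        _ = ((2 / t) ^ t * (t / 2) ^ t) *
            ((‖k z‖ ^ (t / 2 * t) * ‖k z‖ ^ (t / 2 * (2 - t))) / ‖k z‖ ^ t) * ‖deriv f z‖ ^ t := by
            rw [e2, e3]
        _ = _ := by ring
    rw [e1]
    apply mul_le_mul_of_nonneg_left _ (Real.rpow_nonneg (by positivity) _)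
    set x := ‖deriv h z‖ ^ 2 with hx
    set y := ‖h z‖ ^ 2 with hy
    have hx0 : 0 ≤ x := by positivity
    have hy0 : 0 ≤ y := by positivity
    set u := (1 - r) ^ (2 - t) with hu
    set v := (1 - r) ^ (-t) with hv
    have hu0 : 0 < u := Real.rpow_pos_of_pos hr1 _
    have hv0 : 0 < v := Real.rpow_pos_of_pos hr1 _
    have huv : u ^ (t / 2) * v ^ (1 - t / 2) = 1 := by
      rw [hu, hv, ← Real.rpow_mul hr1.le, ← Real.rpow_mul hr1.le, ← Real.rpow_add hr1]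
      have : (2 - t) * (t / 2) + -t * (1 - t / 2) = 0 := by ring
      rw [this, Real.rpow_zero]
    have h1 := Real.geom_mean_le_arith_mean2_weighted (w₁ := t / 2) (w₂ := 1 - t / 2)
      (p₁ := x * u) (p₂ := y * v) (by positivity) (by linarith) (by positivity) (by positivity)
      (by ring)
    rw [Real.mul_rpow hx0 hu0.le, Real.mul_rpow hy0 hv0.le] at h1
    have h2 : x ^ (t / 2) * u ^ (t / 2) * (y ^ (1 - t / 2) * v ^ (1 - t / 2)) =
        x ^ (t / 2) * y ^ (1 - t / 2) := by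
      calc _ = x ^ (t / 2) * y ^ (1 - t / 2) * (u ^ (t / 2) * v ^ (1 - t / 2)) := by ring
        _ = _ := by rw [huv, mul_one]
    rw [h2] at h1
    have h3 : 0 ≤ x * u := by positivity
    have h4 : 0 ≤ y * v := by positivity
    nlinarith
  -- integrate
  have hd' : ∀ z ∈ ball (0 : ℂ) 1, deriv f z ≠ 0 := fun z hz => univ_deriv_ne_zero hf hz
  have hc1 := continuous_weight (t := t) hf.1 hd' hr0 hr.2
  have hc2 : Continuous (fun θ : ℝ => ‖deriv h (circleMap 0 r θ)‖ ^ 2) :=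
    (((hhD.deriv isOpen_ball).continuousOn.comp_continuous (continuous_circleMap 0 r) hmem).norm).pow 2
  have hc3 : Continuous (fun θ : ℝ => ‖h (circleMap 0 r θ)‖ ^ 2) :=
    ((hhD.continuousOn.comp_continuous (continuous_circleMap 0 r) hmem).norm).pow 2
  have hpi : (-π) ≤ π := by linarith [Real.pi_pos]
  have hM : MM f t r ≤ (2 / t) ^ t * (2 * π) *
      (mean2 (deriv h) r * (1 - r) ^ (2 - t) + mean2 h r * (1 - r) ^ (-t)) := by
    have e1 : (2 / t) ^ t * (2 * π) *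
      (mean2 (deriv h) r * (1 - r) ^ (2 - t) + mean2 h r * (1 - r) ^ (-t)) =
      ∫ θ in (-π)..π, (2 / t) ^ t * (‖deriv h (circleMap 0 r θ)‖ ^ 2 * (1 - r) ^ (2 - t) +
        ‖h (circleMap 0 r θ)‖ ^ 2 * (1 - r) ^ (-t)) := by
      rw [intervalIntegral.integral_const_mul, intervalIntegral.integral_add
        ((hc2.mul_const _).intervalIntegrable _ _) ((hc3.mul_const _).intervalIntegrable _ _),
        intervalIntegral.integral_mul_const, intervalIntegral.integral_mul_const, mean2, mean2]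
      have : (2 * π : ℝ) ≠ 0 := by positivity
      field_simp
    rw [e1, MM]
    apply intervalIntegral.integral_mono_on hpi (hc1.intervalIntegrable _ _)
    · apply Continuous.intervalIntegrable
      exact continuous_const.mul ((hc2.mul_const _).add (hc3.mul_const _))
    · intro θ _
      exact hpt _ (hmem θ)
  have hq : 0 ≤ (1 - r) ^ (3 * t - 1) := Real.rpow_nonneg hr1.le _
  have q1 : (1 - r) ^ (3 * t - 1) * ((1 - r) ^ (-(1 + 2 * t)) * (1 - r) ^ (2 - t)) = 1 := by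
    rw [← Real.rpow_add hr1, ← Real.rpow_add hr1]
    have : 3 * t - 1 + (-(1 + 2 * t) + (2 - t)) = 0 := by ring
    rw [this, Real.rpow_zero]
  have q2 : (1 - r) ^ (3 * t - 1) * ((1 - r) ^ (-(2 * t - 1)) * (1 - r) ^ (-t)) = 1 := by
    rw [← Real.rpow_add hr1, ← Real.rpow_add hr1]
    have : 3 * t - 1 + (-(2 * t - 1) + -t) = 0 := by ring
    rw [this, Real.rpow_zero]
  have hcc : 0 ≤ (2 / t) ^ t * (2 * π) :=
    mul_nonneg (Real.rpow_nonneg (by positivity) _) (by positivity)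
  have n1 : 0 ≤ (1 - r) ^ (2 - t) := Real.rpow_nonneg hr1.le _
  have n2 : 0 ≤ (1 - r) ^ (-t) := Real.rpow_nonneg hr1.le _
  calc (1 - r) ^ (3 * t - 1) * MM f t r ≤ (1 - r) ^ (3 * t - 1) * ((2 / t) ^ t * (2 * π) *
      (mean2 (deriv h) r * (1 - r) ^ (2 - t) + mean2 h r * (1 - r) ^ (-t))) :=
        mul_le_mul_of_nonneg_left hM hq
    _ ≤ (1 - r) ^ (3 * t - 1) * ((2 / t) ^ t * (2 * π) *
      (C1 * (1 - r) ^ (-(1 + 2 * t)) * (1 - r) ^ (2 - t) +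
        C2 * (1 - r) ^ (-(2 * t - 1)) * (1 - r) ^ (-t))) := by
        apply mul_le_mul_of_nonneg_left _ hq
        apply mul_le_mul_of_nonneg_left _ hcc
        exact add_le_add (mul_le_mul_of_nonneg_right m1 n1) (mul_le_mul_of_nonneg_right m2 n2)
    _ = (2 / t) ^ t * (2 * π) * (C1 *
          ((1 - r) ^ (3 * t - 1) * ((1 - r) ^ (-(1 + 2 * t)) * (1 - r) ^ (2 - t))) + C2 *
          ((1 - r) ^ (3 * t - 1) * ((1 - r) ^ (-(2 * t - 1)) * (1 - r) ^ (-t)))) := by ring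
    _ = _ := by rw [q1, q2]; ring

/-- Area integrability for `0 < t < 2 / 3`. -/
theorem lintegral_pos_range (hf : Univ f) (ht0 : 0 < t) (ht : t < 2 / 3) :
    ∫⁻ z in ball (0 : ℂ) 1, ENNReal.ofReal (‖deriv f z‖ ^ t) < ⊤ := by
  obtain ⟨u, hu1, hu2⟩ := exists_between (max_lt ht (by norm_num : (1 / 2 : ℝ) < 2 / 3))
  have hu3 : t < u := lt_of_le_of_lt (le_max_left _ _) hu1
  have hu4 : 1 / 2 < u := lt_of_le_of_lt (le_max_right _ _) hu1
  have hu0 : 0 < u := by linarith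
  obtain ⟨C, hC⟩ := pos_mean hf hu4 (by linarith)
  have hs1 : t / u ≤ 1 := (div_le_one hu0).mpr hu3.le
  have hs0 : 0 ≤ t / u := by positivity
  have h := lintegral_ball_lt_top_of_mean (s := t / u) hf (by norm_num) (by norm_num) hC hs0 hs1
    (by nlinarith)
  have e : u * (t / u) = t := by field_simp
  rwa [e] at h

end

end Vale.Agent.P142
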