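import Mathlib

open Complex MeasureTheory Metric Set Filter Topology intervalIntegral
open scoped Real ComplexConjugate

namespace Vale.Agent.P142

noncomputable section

lemma circleMap_mem_unit {s : ℝ} (hs0 : 0 ≤ s) (hs1 : s < 1) (θ : ℝ) :
    circleMap 0 s θ ∈ ball (0 : ℂ) 1 := by
  rw [mem_ball_zero_iff, norm_circleMap_zero, abs_of_nonneg hs0]
  exact hs1

lemma hasDerivAt_circleMap_radius (s θ : ℝ) :
    HasDerivAt (fun s : ℝ => circleMap 0 s θ) (cexp (θ * I)) s := by
  simp only [circleMap_zero]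
  simpa using (Complex.ofRealCLM.hasDerivAt (x := s)).mul_const (cexp (θ * I))

lemma continuous_circleMap_uncurry :
    Continuous (fun p : ℝ × ℝ => circleMap 0 p.1 p.2) := by
  simp only [circleMap_zero]
  fun_prop

/-- Continuity of circle integrals with respect to the radius. -/
lemma continuousOn_circle_integral {E : Type*} [NormedAddCommGroup E] [NormedSpace ℝ E]
    {G : ℂ → E} (hG : ContinuousOn G (ball (0 : ℂ) 1)) :
    ContinuousOn (fun s : ℝ => ∫ θ in (-π)..π, G (circleMap 0 s θ)) (Ioo (-1) 1) := by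
  intro s0 hs0
  apply ContinuousAt.continuousWithinAt
  have habs : |s0| < 1 := abs_lt.mpr hs0
  obtain ⟨b, hb1, hb2⟩ := exists_between habs
  have hb0 : 0 < b := lt_of_le_of_lt (abs_nonneg _) hb1
  have hsub : closedBall (0 : ℂ) b ⊆ ball 0 1 := closedBall_subset_ball hb2
  obtain ⟨C, hC⟩ := (isCompact_closedBall (0 : ℂ) b).exists_bound_of_continuousOn (hG.mono hsub)
  have hev : ∀ᶠ s : ℝ in 𝓝 s0, |s| ≤ b := by
    have : ∀ᶠ s : ℝ in 𝓝 s0, |s| < b := (continuous_abs.tendsto s0).eventually (gt_mem_nhds hb1)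
    exact this.mono fun s hs => hs.le
  have hmem : ∀ s : ℝ, |s| ≤ b → ∀ θ : ℝ, circleMap 0 s θ ∈ closedBall (0 : ℂ) b := by
    intro s hs θ
    rw [mem_closedBall_zero_iff, norm_circleMap_zero]
    exact hs
  apply intervalIntegral.continuousAt_of_dominated_interval (bound := fun _ => C)
  · filter_upwards [hev] with s hs
    apply Continuous.aestronglyMeasurable
    exact hG.comp_continuous (continuous_circleMap 0 s) (fun θ => hsub (hmem s hs θ))
  · filter_upwards [hev] with s hs
    exact Eventually.of_forall fun θ _ => hC _ (hmem s hs θ)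
  · exact intervalIntegrable_const
  · refine Eventually.of_forall fun θ _ => ?_
    have h1 : ContinuousAt G (circleMap 0 s0 θ) :=
      hG.continuousAt (isOpen_ball.mem_nhds (hsub (hmem s0 hb1.le θ)))
    have h2 : ContinuousAt (fun s : ℝ => circleMap 0 s θ) s0 :=
      (hasDerivAt_circleMap_radius s0 θ).continuousAt
    exact ContinuousAt.comp (f := fun s : ℝ => circleMap 0 s θ) h1 h2

/-- Differentiation of circle integrals with respect to the radius. -/
lemma hasDerivAt_circle_integral {H : ℂ → ℂ} {H' : ℂ → (ℂ →L[ℝ] ℂ)}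
    (hH : ∀ z ∈ ball (0 : ℂ) 1, HasFDerivAt H (H' z) z)
    (hc : ContinuousOn H' (ball (0 : ℂ) 1)) {s : ℝ} (hs0 : 0 < s) (hs1 : s < 1) :
    HasDerivAt (fun s : ℝ => ∫ θ in (-π)..π, H (circleMap 0 s θ))
      (∫ θ in (-π)..π, H' (circleMap 0 s θ) (cexp (θ * I))) s := by
  set a : ℝ := s / 2 with ha
  set b : ℝ := (s + 1) / 2 with hb
  have ha0 : 0 < a := by positivity
  have hb1 : b < 1 := by rw [hb]; linarith
  have hab : Icc a b ∈ 𝓝 s := Icc_mem_nhds (by rw [ha]; linarith) (by rw [hb]; linarith)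
  have hmem : ∀ x ∈ Icc a b, ∀ θ : ℝ, circleMap 0 x θ ∈ ball (0 : ℂ) 1 := fun x hx θ =>
    circleMap_mem_unit (by linarith [hx.1]) (by linarith [hx.2]) θ
  have hHc : ContinuousOn H (ball (0 : ℂ) 1) := fun z hz => (hH z hz).continuousAt.continuousWithinAt
  have hcont : ContinuousOn (fun p : ℝ × ℝ => H' (circleMap 0 p.1 p.2) (cexp (p.2 * I)))
      (Icc a b ×ˢ Icc (-π) π) := by
    apply ContinuousOn.clm_apply
    · exact hc.comp continuous_circleMap_uncurry.continuousOn (fun p hp => hmem _ hp.1 _)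
    · fun_prop
  obtain ⟨C, hC⟩ := (isCompact_Icc.prod isCompact_Icc).exists_bound_of_continuousOn hcont
  have hpi : (-π) ≤ π := by linarith [Real.pi_pos]
  refine (intervalIntegral.hasDerivAt_integral_of_dominated_loc_of_deriv_le
    (F := fun s θ => H (circleMap 0 s θ))
    (F' := fun s θ => H' (circleMap 0 s θ) (cexp (θ * I)))
    (bound := fun _ => C) hab ?_ ?_ ?_ ?_ ?_ ?_).2
  · filter_upwards [hab] with x hx
    apply Continuous.aestronglyMeasurable
    exact hHc.comp_continuous (continuous_circleMap 0 x) (fun θ => hmem x hx θ)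
  · apply Continuous.intervalIntegrable
    exact hHc.comp_continuous (continuous_circleMap 0 s) (fun θ => circleMap_mem_unit hs0.le hs1 θ)
  · apply Continuous.aestronglyMeasurable
    apply Continuous.clm_apply
    · exact hc.comp_continuous (continuous_circleMap 0 s)
        (fun θ => circleMap_mem_unit hs0.le hs1 θ)
    · fun_prop
  · refine Eventually.of_forall fun θ hθ x hx => ?_
    rw [uIoc_of_le hpi] at hθ
    exact hC (x, θ) ⟨hx, Ioc_subset_Icc_self hθ⟩
  · exact intervalIntegrable_const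
  · refine Eventually.of_forall fun θ hθ x hx => ?_
    have h1 := (hH _ (hmem x hx θ)).comp_hasDerivAt x (hasDerivAt_circleMap_radius x θ)
    exact h1

/-- The tangential derivative integrates to zero. -/
lemma circle_integral_tangential {H : ℂ → ℂ} {H' : ℂ → (ℂ →L[ℝ] ℂ)}
    (hH : ∀ z ∈ ball (0 : ℂ) 1, HasFDerivAt H (H' z) z)
    (hc : ContinuousOn H' (ball (0 : ℂ) 1)) {s : ℝ} (hs0 : 0 ≤ s) (hs1 : s < 1) :
    ∫ θ in (-π)..π, H' (circleMap 0 s θ) (circleMap 0 s θ * I) = 0 := by
  have h : ∀ θ ∈ uIcc (-π) π, HasDerivAt (fun θ : ℝ => H (circleMap 0 s θ))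
      (H' (circleMap 0 s θ) (circleMap 0 s θ * I)) θ := fun θ _ => by
    have h2 := (hH _ (circleMap_mem_unit hs0 hs1 θ)).comp_hasDerivAt θ (hasDerivAt_circleMap 0 s θ)
    exact h2
  rw [intervalIntegral.integral_eq_sub_of_hasDerivAt h]
  · have : circleMap 0 s π = circleMap 0 s (-π) := by
      have := periodic_circleMap 0 s (-π)
      rw [← this]; congr 1; ring
    rw [this, sub_self]
  · apply Continuous.intervalIntegrable
    apply Continuous.clm_apply
    · exact hc.comp_continuous (continuous_circleMap 0 s)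
        (fun θ => circleMap_mem_unit hs0 hs1 θ)
    · fun_prop

/-- Real-linear map with Wirtinger coefficients `a` and `b`. -/
def wirt (a b : ℂ) : ℂ →L[ℝ] ℂ :=
  ContinuousLinearMap.mul ℝ ℂ a + (ContinuousLinearMap.mul ℝ ℂ b).comp
    (conjCLE : ℂ →L[ℝ] ℂ)

@[simp] lemma wirt_apply (a b v : ℂ) : wirt a b v = a * v + b * conj v := by
  simp [wirt]

/-- `H` has Wirtinger derivatives `a`, `b` at `z`. -/
def HasW (H : ℂ → ℂ) (a b z : ℂ) : Prop := HasFDerivAt H (wirt a b) z

lemma clm_ext_complex {L M : ℂ →L[ℝ] ℂ} (h : ∀ v, L v = M v) : L = M :=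
  ContinuousLinearMap.ext h

lemma HasW.of_hasDerivAt {H : ℂ → ℂ} {a z : ℂ} (h : HasDerivAt H a z) : HasW H a 0 z := by
  have h1 := h.hasFDerivAt.restrictScalars ℝ
  exact h1.congr_fderiv (clm_ext_complex fun v => by simp [mul_comm])

lemma HasW.congr_coeff {H : ℂ → ℂ} {a b a' b' z : ℂ} (h : HasW H a b z) (ha : a = a')
    (hb : b = b') : HasW H a' b' z := by
  subst ha; subst hb; exact h

lemma HasW.const (c z : ℂ) : HasW (fun _ => c) 0 0 z := HasW.of_hasDerivAt (hasDerivAt_const z c)

lemma HasW.conj {H : ℂ → ℂ} {a b z : ℂ} (h : HasW H a b z) :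
    HasW (fun z => conj (H z)) (conj b) (conj a) z := by
  have h1 := (conjCLE : ℂ →L[ℝ] ℂ).hasFDerivAt.comp z h
  exact h1.congr_fderiv (clm_ext_complex fun v => by simp [add_comm])

lemma HasW.mul {H K : ℂ → ℂ} {a b c d z : ℂ} (h : HasW H a b z) (k : HasW K c d z) :
    HasW (fun z => H z * K z) (a * K z + H z * c) (b * K z + H z * d) z := by
  have h1 := HasFDerivAt.mul h k
  exact h1.congr_fderiv (clm_ext_complex fun v => by simp; ring)

lemma HasW.add {H K : ℂ → ℂ} {a b c d z : ℂ} (h : HasW H a b z) (k : HasW K c d z) :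
    HasW (fun z => H z + K z) (a + c) (b + d) z := by
  have h1 := HasFDerivAt.add h k
  exact h1.congr_fderiv (clm_ext_complex fun v => by simp; ring)

lemma HasW.comp {H φ : ℂ → ℂ} {a b c z : ℂ} (hφ : HasDerivAt φ c (H z)) (h : HasW H a b z) :
    HasW (fun z => φ (H z)) (c * a) (c * b) z := by
  have h1 := (hφ.hasFDerivAt.restrictScalars ℝ).comp z h
  exact h1.congr_fderiv (clm_ext_complex fun v => by simp; ring)

lemma HasW.inv {H : ℂ → ℂ} {a b z : ℂ} (h : HasW H a b z) (h0 : H z ≠ 0) :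
    HasW (fun z => (H z)⁻¹) (-a / (H z) ^ 2) (-b / (H z) ^ 2) z := by
  refine (HasW.comp (hasDerivAt_inv h0) h).congr_coeff ?_ ?_ <;> field_simp

lemma continuousOn_wirt {a b : ℂ → ℂ} {s : Set ℂ} (ha : ContinuousOn a s) (hb : ContinuousOn b s) :
    ContinuousOn (fun z => wirt (a z) (b z)) s := by
  unfold wirt
  apply ContinuousOn.add
  · exact (ContinuousLinearMap.mul ℝ ℂ).continuous.comp_continuousOn ha
  · exact ((ContinuousLinearMap.mul ℝ ℂ).continuous.comp_continuousOn hb).clm_comp
      continuousOn_const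

/-- Radial derivative of a circle integral through the `z`-derivative and the `conj z`-derivative. -/
lemma circle_integral_wirt {H a b : ℂ → ℂ}
    (hH : ∀ z ∈ ball (0 : ℂ) 1, HasW H (a z) (b z) z)
    (ha : ContinuousOn a (ball (0 : ℂ) 1)) (hb : ContinuousOn b (ball (0 : ℂ) 1))
    {s : ℝ} (hs0 : 0 < s) (hs1 : s < 1) :
    HasDerivAt (fun s : ℝ => ∫ θ in (-π)..π, H (circleMap 0 s θ))
      ((2 / s) * ∫ θ in (-π)..π, b (circleMap 0 s θ) * conj (circleMap 0 s θ)) s ∧
    (∫ θ in (-π)..π, b (circleMap 0 s θ) * conj (circleMap 0 s θ)) =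
      ∫ θ in (-π)..π, a (circleMap 0 s θ) * circleMap 0 s θ := by
  have hW := continuousOn_wirt ha hb
  have h1 := hasDerivAt_circle_integral (H' := fun z => wirt (a z) (b z)) hH hW hs0 hs1
  have h2 := circle_integral_tangential (H' := fun z => wirt (a z) (b z)) hH hW hs0.le hs1
  have hmem := fun θ : ℝ => circleMap_mem_unit hs0.le hs1 θ
  have hac : Continuous (fun θ : ℝ => a (circleMap 0 s θ)) :=
    ha.comp_continuous (continuous_circleMap 0 s) hmem
  have hbc : Continuous (fun θ : ℝ => b (circleMap 0 s θ)) :=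
    hb.comp_continuous (continuous_circleMap 0 s) hmem
  have hzc : Continuous (fun θ : ℝ => circleMap 0 s θ) := continuous_circleMap 0 s
  have hzc' : Continuous (fun θ : ℝ => conj (circleMap 0 s θ)) :=
    Complex.continuous_conj.comp hzc
  have iA : IntervalIntegrable (fun θ : ℝ => a (circleMap 0 s θ) * circleMap 0 s θ) volume (-π) π :=
    (hac.mul hzc).intervalIntegrable _ _
  have iB : IntervalIntegrable (fun θ : ℝ => b (circleMap 0 s θ) * conj (circleMap 0 s θ))
      volume (-π) π := (hbc.mul hzc').intervalIntegrable _ _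
  have hs : (s : ℂ) ≠ 0 := by exact_mod_cast hs0.ne'
  have e2 : (∫ θ in (-π)..π, a (circleMap 0 s θ) * circleMap 0 s θ) -
      ∫ θ in (-π)..π, b (circleMap 0 s θ) * conj (circleMap 0 s θ) = 0 := by
    rw [← intervalIntegral.integral_sub iA iB]
    have : ∀ θ : ℝ, wirt (a (circleMap 0 s θ)) (b (circleMap 0 s θ)) (circleMap 0 s θ * I) =
        I * (a (circleMap 0 s θ) * circleMap 0 s θ -
          b (circleMap 0 s θ) * conj (circleMap 0 s θ)) := by
      intro θ
      simp only [wirt_apply, map_mul, conj_I]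
      ring
    simp only [this, intervalIntegral.integral_const_mul] at h2
    exact (mul_eq_zero.mp h2).resolve_left I_ne_zero
  have e3 : (∫ θ in (-π)..π, b (circleMap 0 s θ) * conj (circleMap 0 s θ)) =
      ∫ θ in (-π)..π, a (circleMap 0 s θ) * circleMap 0 s θ := (sub_eq_zero.mp e2).symm
  refine ⟨?_, e3⟩
  convert h1 using 1
  have e4 : ∀ θ : ℝ, wirt (a (circleMap 0 s θ)) (b (circleMap 0 s θ)) (cexp (θ * I)) =
      (s : ℂ)⁻¹ * (a (circleMap 0 s θ) * circleMap 0 s θ +
        b (circleMap 0 s θ) * conj (circleMap 0 s θ)) := by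
    intro θ
    simp only [wirt_apply, circleMap_zero, map_mul, conj_ofReal]
    field_simp
  simp only [e4, intervalIntegral.integral_const_mul]
  rw [intervalIntegral.integral_add iA iB, ← e3]
  field_simp
  ring

end

end Vale.Agent.P142
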