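import Vale.Agent.P142.MeansCalc

open Complex MeasureTheory Metric Set Filter Topology intervalIntegral
open scoped Real ComplexConjugate

namespace Vale.Agent.P142

noncomputable section

variable {f : ℂ → ℂ} {t β : ℝ} {r : ℝ}

/-! ### Linearity of the weighted integrals -/

lemma wInt_intervalIntegrable (hf : DifferentiableOn ℂ f (ball 0 1))
    (hd : ∀ z ∈ ball (0 : ℂ) 1, deriv f z ≠ 0) {H : ℂ → ℂ} (hH : ContinuousOn H (ball 0 1))
    (hr0 : 0 ≤ r) (hr1 : r < 1) (a b : ℝ) :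
    IntervalIntegrable (fun θ => H (circleMap 0 r θ) * wgt f t (circleMap 0 r θ)) volume a b := by
  apply Continuous.intervalIntegrable
  exact (hH.mul (continuousOn_wgt hf hd t)).comp_continuous (continuous_circleMap 0 r)
    (fun θ => circleMap_mem_unit hr0 hr1 θ)

lemma wInt_add (hf : DifferentiableOn ℂ f (ball 0 1))
    (hd : ∀ z ∈ ball (0 : ℂ) 1, deriv f z ≠ 0) {H K : ℂ → ℂ} (hH : ContinuousOn H (ball 0 1))
    (hK : ContinuousOn K (ball 0 1)) (hr0 : 0 ≤ r) (hr1 : r < 1) :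
    wInt f t (fun z => H z + K z) r = wInt f t H r + wInt f t K r := by
  unfold wInt
  rw [← intervalIntegral.integral_add (wInt_intervalIntegrable hf hd hH hr0 hr1 _ _)
    (wInt_intervalIntegrable hf hd hK hr0 hr1 _ _)]
  apply intervalIntegral.integral_congr
  intro θ _
  ring

lemma wInt_const_mul (c : ℂ) (H : ℂ → ℂ) (r : ℝ) :
    wInt f t (fun z => c * H z) r = c * wInt f t H r := by
  unfold wInt
  rw [← intervalIntegral.integral_const_mul]
  apply intervalIntegral.integral_congr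
  intro θ _
  ring

lemma wInt_congr {H K : ℂ → ℂ} (hr0 : 0 ≤ r) (h : ∀ z, ‖z‖ = r → H z = K z) :
    wInt f t H r = wInt f t K r := by
  unfold wInt
  apply intervalIntegral.integral_congr
  intro θ _
  simp only
  rw [h]
  rw [norm_circleMap_zero, abs_of_nonneg hr0]

/-! ### Graded jets -/

/-- The derivation on the jets. -/
def del (x : ℕ → ℂ) (n : ℕ) : ℂ :=
  ((n : ℂ) + 3) * x (n + 1) + ∑ p ∈ Finset.HasAntidiagonal.antidiagonal n, x p.1 * x p.2 -
    2 * x 0 * x n

/-- The box of a priori bounds. -/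
def Box (x : ℕ → ℂ) : Prop := ‖x 0‖ ≤ 6 ∧ ∀ n, ‖x (n + 1)‖ ≤ 2 ^ n

/-- `g` is a polynomial of weight `p` in the jets and `Dg` its derivation. -/
structure Good (p : ℕ) (g Dg : (ℕ → ℂ) → ℂ) : Prop where
  hom : ∀ (c : ℂ) (x : ℕ → ℂ), g (fun n => c ^ (n + 1) * x n) = c ^ p * g x
  homD : ∀ (c : ℂ) (x : ℕ → ℂ), Dg (fun n => c ^ (n + 1) * x n) = c ^ (p + 1) * Dg x
  der : ∀ (w : ℂ → ℕ → ℂ) (z : ℂ), (∀ n, ∃ d, HasDerivAt (fun z => w z n) d z ∧
    z * d = (n + 1) * w z n + del (w z) n) →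
    ∃ d, HasDerivAt (fun z => g (w z)) d z ∧ z * d = p * g (w z) + Dg (w z)
  bdd : ∃ C : ℝ, ∀ x, Box x → ‖g x‖ ≤ C
  cont : Continuous g
  contD : Continuous Dg

lemma del_hom (c : ℂ) (x : ℕ → ℂ) (n : ℕ) :
    del (fun n => c ^ (n + 1) * x n) n = c ^ (n + 1 + 1) * del x n := by
  unfold del
  rw [mul_sub, mul_add, Finset.mul_sum]
  congr 1
  · congr 1
    · ring
    · apply Finset.sum_congr rfl
      intro p hp
      have h : p.1 + p.2 = n := Finset.HasAntidiagonal.mem_antidiagonal.mp hp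
      rw [← h]
      ring
  · ring

lemma del_continuous (n : ℕ) : Continuous (fun x : ℕ → ℂ => del x n) := by
  unfold del
  fun_prop

lemma Good.var (n : ℕ) : Good (n + 1) (fun x => x n) (fun x => del x n) where
  hom c x := rfl
  homD c x := del_hom c x n
  der w z h := by
    obtain ⟨d, h1, h2⟩ := h n
    exact ⟨d, h1, by rw [h2]; push_cast; ring⟩
  bdd := by
    cases n with
    | zero => exact ⟨6, fun x hx => hx.1⟩
    | succ n => exact ⟨2 ^ n, fun x hx => hx.2 n⟩
  cont := continuous_apply n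
  contD := del_continuous n

lemma Good.one : Good 0 (fun _ => 1) (fun _ => 0) where
  hom c x := by simp
  homD c x := by simp
  der w z _ := ⟨0, hasDerivAt_const z _, by simp⟩
  bdd := ⟨1, fun _ _ => by simp⟩
  cont := continuous_const
  contD := continuous_const

lemma Good.mul {p q : ℕ} {g Dg h Dh : (ℕ → ℂ) → ℂ} (hg : Good p g Dg) (hh : Good q h Dh) :
    Good (p + q) (fun x => g x * h x) (fun x => Dg x * h x + g x * Dh x) where
  hom c x := by rw [hg.hom, hh.hom]; ring
  homD c x := by rw [hg.hom, hh.hom, hg.homD, hh.homD]; ring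
  der w z hw := by
    obtain ⟨d, h1, h2⟩ := hg.der w z hw
    obtain ⟨e, h3, h4⟩ := hh.der w z hw
    refine ⟨_, h1.fun_mul h3, ?_⟩
    push_cast
    linear_combination h (w z) * h2 + g (w z) * h4
  bdd := by
    obtain ⟨C, hC⟩ := hg.bdd
    obtain ⟨D, hD⟩ := hh.bdd
    refine ⟨C * D, fun x hx => ?_⟩
    rw [norm_mul]
    exact mul_le_mul (hC x hx) (hD x hx) (norm_nonneg _) (le_trans (norm_nonneg _) (hC x hx))
  cont := hg.cont.mul hh.cont
  contD := (hg.contD.mul hh.cont).add (hg.cont.mul hh.contD)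

lemma Good.congr {p : ℕ} {g Dg h Dh : (ℕ → ℂ) → ℂ} (hg : Good p g Dg) (e : g = h)
    (e' : Dg = Dh) : Good p h Dh := by
  subst e; subst e'; exact hg

lemma Good.pow {p : ℕ} {g Dg : (ℕ → ℂ) → ℂ} (hg : Good p g Dg) (k : ℕ) :
    Good (k * p) (fun x => g x ^ k) (fun x => k * g x ^ (k - 1) * Dg x) := by
  induction k with
  | zero =>
    rw [zero_mul]
    refine Good.one.congr ?_ ?_
    · ext x; simp
    · ext x; simp
  | succ k ih =>
    rw [add_mul, one_mul]
    refine (ih.mul hg).congr ?_ ?_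
    · ext x; rw [pow_succ]
    · ext x
      cases k with
      | zero => simp
      | succ k =>
        simp only [Nat.add_sub_cancel, pow_succ]
        push_cast
        ring

/-! ### The jets of a univalent function -/

/-- Normalised jets as a sequence. -/
def XX (f : ℂ → ℂ) (z : ℂ) : ℕ → ℂ := fun n => X f n z

/-- Unscaled jets `z ^ (n + 1) * lam f n z`. -/
def WW (f : ℂ → ℂ) (z : ℂ) : ℕ → ℂ := fun n => z ^ (n + 1) * lam f n z

lemma XX_eq (f : ℂ → ℂ) (z : ℂ) :
    XX f z = fun n => (((1 - ‖z‖ ^ 2 : ℝ) : ℂ)) ^ (n + 1) * WW f z n := by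
  ext n
  rw [XX, WW, X, mul_pow]
  ring

lemma WW_der (hf : DifferentiableOn ℂ f (ball 0 1)) (hd : ∀ z ∈ ball (0 : ℂ) 1, deriv f z ≠ 0)
    {z : ℂ} (hz : z ∈ ball (0 : ℂ) 1) (n : ℕ) :
    ∃ d, HasDerivAt (fun z => WW f z n) d z ∧ z * d = (n + 1) * WW f z n + del (WW f z) n := by
  have h1 := hasDerivAt_lam hf hd n hz
  have h2 : HasDerivAt (fun z : ℂ => z ^ (n + 1)) (((n + 1 : ℕ) : ℂ) * z ^ n) z := by
    simpa using hasDerivAt_pow (n + 1) z
  refine ⟨_, h2.fun_mul h1, ?_⟩
  have e : ∑ p ∈ Finset.HasAntidiagonal.antidiagonal n, WW f z p.1 * WW f z p.2 =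
      z ^ (n + 2) * ∑ p ∈ Finset.HasAntidiagonal.antidiagonal n, lam f p.1 z * lam f p.2 z := by
    rw [Finset.mul_sum]
    apply Finset.sum_congr rfl
    intro p hp
    have h : p.1 + p.2 = n := Finset.HasAntidiagonal.mem_antidiagonal.mp hp
    rw [← h, WW, WW]
    ring
  rw [del, e]
  simp only [WW]
  push_cast
  ring

lemma WW_good (hf : DifferentiableOn ℂ f (ball 0 1)) (hd : ∀ z ∈ ball (0 : ℂ) 1, deriv f z ≠ 0)
    {p : ℕ} {g Dg : (ℕ → ℂ) → ℂ} (hg : Good p g Dg) {z : ℂ} (hz : z ∈ ball (0 : ℂ) 1) :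
    HasDerivAt (fun z => g (WW f z)) (deriv (fun z => g (WW f z)) z) z ∧
      z * deriv (fun z => g (WW f z)) z = p * g (WW f z) + Dg (WW f z) := by
  obtain ⟨d, h1, h2⟩ := hg.der (WW f) z (fun n => WW_der hf hd hz n)
  rw [h1.deriv]
  exact ⟨h1, h2⟩

lemma WW_continuousOn (hf : DifferentiableOn ℂ f (ball 0 1))
    (hd : ∀ z ∈ ball (0 : ℂ) 1, deriv f z ≠ 0) : ContinuousOn (WW f) (ball 0 1) := by
  rw [continuousOn_pi]
  intro n z hz
  obtain ⟨d, h, _⟩ := WW_der hf hd hz n
  exact h.continuousAt.continuousWithinAt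

lemma XX_continuousOn (hf : DifferentiableOn ℂ f (ball 0 1))
    (hd : ∀ z ∈ ball (0 : ℂ) 1, deriv f z ≠ 0) : ContinuousOn (XX f) (ball 0 1) := by
  rw [continuousOn_pi]
  intro n
  have h := (differentiableOn_lam hf hd n).continuousOn
  unfold XX X
  apply ContinuousOn.mul _ h
  fun_prop

/-- Radial derivative of the mean of a product of graded jets. -/
theorem pair_deriv (hf : DifferentiableOn ℂ f (ball 0 1))
    (hd : ∀ z ∈ ball (0 : ℂ) 1, deriv f z ≠ 0) (t : ℝ) {p q : ℕ} {a Da b Db : (ℕ → ℂ) → ℂ}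
    (ha : Good p a Da) (hb : Good q b Db) (hr0 : 0 < r) (hr1 : r < 1) :
    HasDerivAt (wInt f t (fun z => a (XX f z) * conj (b (XX f z))))
      ((2 / (r * (1 - r ^ 2)) : ℝ) * (
        wInt f t (fun z => (Da (XX f z) - t * XX f z 0 * a (XX f z)) * conj (b (XX f z))) r -
        (((p : ℝ) + q - (1 - r ^ 2) * (2 * p + q) : ℝ) : ℂ) *
          wInt f t (fun z => a (XX f z) * conj (b (XX f z))) r)) r := by
  set A : ℂ → ℂ := fun z => a (WW f z) with hA
  set B : ℂ → ℂ := fun z => b (WW f z) with hB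
  have hAd : DifferentiableOn ℂ A (ball 0 1) := fun z hz =>
    (WW_good hf hd ha hz).1.differentiableAt.differentiableWithinAt
  have hBd : DifferentiableOn ℂ B (ball 0 1) := fun z hz =>
    (WW_good hf hd hb hz).1.differentiableAt.differentiableWithinAt
  have h1 := means_deriv hf hd t hAd hBd hr0 hr1
  have hu : 0 < 1 - r ^ 2 := by nlinarith
  -- rewriting on circles
  have key : ∀ s : ℝ, 0 ≤ s → wInt f t (fun z => a (XX f z) * conj (b (XX f z))) s =
      (((1 - s ^ 2) ^ (p + q) : ℝ) : ℂ) * wInt f t (fun z => A z * conj (B z)) s := by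
    intro s hs
    rw [← wInt_const_mul]
    apply wInt_congr hs
    intro z hz
    rw [XX_eq, ha.hom, hb.hom, hz, map_mul, map_pow, conj_ofReal]
    push_cast
    rw [pow_add]
    ring
  have key2 : wInt f t (fun z => (Da (XX f z) - t * XX f z 0 * a (XX f z)) *
      conj (b (XX f z))) r = (((1 - r ^ 2) ^ (p + q + 1) : ℝ) : ℂ) *
        wInt f t (fun z => (Da (WW f z) - t * WW f z 0 * a (WW f z)) * conj (B z)) r := by
    rw [← wInt_const_mul]
    apply wInt_congr hr0.le
    intro z hz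
    rw [XX_eq, ha.hom, hb.hom, ha.homD, hz, map_mul, map_pow, conj_ofReal]
    push_cast
    ring
  -- the integrand in means_deriv
  have hAc := hAd.continuousOn
  have hBc : ContinuousOn (fun z => conj (B z)) (ball 0 1) :=
    Complex.continuous_conj.comp_continuousOn hBd.continuousOn
  have hWc := WW_continuousOn hf hd
  have hDc : ContinuousOn (fun z => Da (WW f z)) (ball 0 1) := ha.contD.comp_continuousOn hWc
  have hW0 : ContinuousOn (fun z => WW f z 0) (ball 0 1) := continuousOn_pi.mp hWc 0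
  have key3 : wInt f t (fun z => z * (deriv A z + (t / 2 : ℝ) *
        (deriv (deriv f) z / deriv f z) * A z) * conj (B z)) r =
      p * wInt f t (fun z => A z * conj (B z)) r +
        wInt f t (fun z => (Da (WW f z) - t * WW f z 0 * a (WW f z)) * conj (B z)) r := by
    have hac : ContinuousOn (fun z => a (WW f z)) (ball 0 1) := hAc
    have hcc : ContinuousOn (fun z => (Da (WW f z) - t * WW f z 0 * a (WW f z)) * conj (B z))
        (ball 0 1) := (hDc.sub ((continuousOn_const.mul hW0).mul hac)).mul hBc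
    rw [← wInt_const_mul, ← wInt_add hf hd (by fun_prop) hcc hr0.le hr1]
    apply wInt_congr hr0.le
    intro z hz
    have hzb : z ∈ ball (0 : ℂ) 1 := by rw [mem_ball_zero_iff, hz]; exact hr1
    have h2 := (WW_good hf hd ha hzb).2
    rw [lam_zero (hd z hzb)]
    have e0 : WW f z 0 = z * lam f 0 z := by simp [WW]
    rw [e0]
    have e1 : z * (deriv A z + (t / 2 : ℝ) * (-2 * lam f 0 z) * A z) * conj (B z) =
        (z * deriv A z) * conj (B z) - t * (z * lam f 0 z) * A z * conj (B z) := by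
      push_cast; ring
    rw [e1, hA, h2]
    ring
  rw [key3] at h1
  have hpow : HasDerivAt (fun s : ℝ => ((((1 - s ^ 2) ^ (p + q) : ℝ)) : ℂ))
      ((((p + q : ℕ) : ℝ) * (1 - r ^ 2) ^ (p + q - 1) * (-(2 * r)) : ℝ) : ℂ) r := by
    have h2 : HasDerivAt (fun s : ℝ => 1 - s ^ 2) (-(2 * r)) r := by
      have := (hasDerivAt_pow 2 r).const_sub 1
      simpa using this
    exact (h2.pow (p + q)).ofReal_comp
  have h3 := hpow.fun_mul h1
  have h4 : HasDerivAt (wInt f t (fun z => a (XX f z) * conj (b (XX f z))))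
      (((((p + q : ℕ) : ℝ) * (1 - r ^ 2) ^ (p + q - 1) * (-(2 * r)) : ℝ) : ℂ) *
        wInt f t (fun z => A z * conj (B z)) r + (((1 - r ^ 2) ^ (p + q) : ℝ) : ℂ) *
        (2 / r * (p * wInt f t (fun z => A z * conj (B z)) r +
        wInt f t (fun z => (Da (WW f z) - t * WW f z 0 * a (WW f z)) * conj (B z)) r))) r := by
    refine h3.congr_of_eventuallyEq ?_
    filter_upwards [Ioi_mem_nhds hr0] with s hs
    exact key s (le_of_lt hs)
  refine h4.congr_deriv ?_
  rw [key r hr0.le, key2]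
  have e5 : (((p + q : ℕ) : ℝ) * (1 - r ^ 2) ^ (p + q - 1)) =
      ((p : ℝ) + q) * (1 - r ^ 2) ^ (p + q) / (1 - r ^ 2) := by
    rw [eq_div_iff hu.ne']
    rcases Nat.eq_zero_or_pos (p + q) with h0 | h0
    · have hp0 : p = 0 := by omega
      have hq0 : q = 0 := by omega
      subst hp0; subst hq0; simp
    · obtain ⟨k, hk⟩ := Nat.exists_eq_succ_of_ne_zero h0.ne'
      rw [hk]
      have : ((p : ℝ) + q) = ((k.succ : ℕ) : ℝ) := by rw [← hk]; push_cast; ring
      rw [this]
      simp only [Nat.succ_eq_add_one, Nat.add_sub_cancel, pow_succ]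
      ring
  rw [e5]
  have hrc : (r : ℂ) ≠ 0 := by exact_mod_cast hr0.ne'
  have huc : (1 : ℂ) - (r : ℂ) ^ 2 ≠ 0 := by
    have : ((1 - r ^ 2 : ℝ) : ℂ) ≠ 0 := by exact_mod_cast hu.ne'
    simpa using this
  push_cast
  field_simp
  ring

end

end Vale.Agent.P142
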