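import Vale.Agent.P142.Koebe

open Complex Metric Set Filter Topology
open scoped Real ComplexConjugate Nat

namespace Vale.Agent.P142

noncomputable section

variable {F f : ℂ → ℂ} {z : ℂ}

/-- Tail bound for `R = ζ / F` on the circle of radius `3/5`. -/
lemma Rfun_tail (hF : DifferentiableOn ℂ F (ball 0 1)) (hinj : InjOn F (ball 0 1))
    (h0 : F 0 = 0) (h1 : deriv F 0 = 1) {ζ : ℂ} (hζ : ‖ζ‖ = 3 / 5) :
    ‖Rfun F ζ - tc (Rfun F) 1 * ζ‖ ≤ 29 / 20 := by
  have hR := Rfun_diff hF hinj h0 h1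
  have hζb : ζ ∈ ball (0 : ℂ) 1 := by rw [mem_ball_zero_iff, hζ]; norm_num
  have hs := hasSum_tc hR hζb
  have ht0 : tc (Rfun F) 0 = 1 := by simp [tc, Rfun, h1]
  set t := tc (Rfun F) with ht
  have hs2 : HasSum (fun n => t (n + 2) * ζ ^ (n + 2)) (Rfun F ζ - (1 + t 1 * ζ)) := by
    have := (hasSum_nat_add_iff' 2).mpr hs
    refine hasSum_of_eq (fun n => rfl) ?_
    rw [Finset.sum_range_succ, Finset.sum_range_one, ht0] at this
    simpa using this
  have hb : ‖Rfun F ζ - (1 + t 1 * ζ)‖ ≤ 9 / 20 := by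
    have hl := hs2.tendsto_sum_nat
    refine le_of_tendsto (hl.norm) (Eventually.of_forall fun N => ?_)
    have hA := area_theorem hF hinj h0 h1 N
    have hg : ∑ n ∈ Finset.range N, ((3 / 5 : ℝ) ^ (n + 2)) ^ 2 ≤ (9 / 20) ^ 2 := by
      have e : ∀ n : ℕ, ((3 / 5 : ℝ) ^ (n + 2)) ^ 2 = (81 / 625) * (9 / 25) ^ n := by
        intro n
        rw [← pow_mul, add_mul, pow_add, mul_comm n 2, pow_mul]
        norm_num
        ring
      simp only [e]
      rw [← Finset.mul_sum]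
      have h2 : ∑ n ∈ Finset.range N, (9 / 25 : ℝ) ^ n ≤ (1 - 9 / 25)⁻¹ := by
        have hsum := hasSum_geometric_of_lt_one (r := (9 / 25 : ℝ)) (by norm_num) (by norm_num)
        exact sum_le_hasSum _ (fun i _ => by positivity) hsum
      calc (81 / 625 : ℝ) * ∑ n ∈ Finset.range N, (9 / 25 : ℝ) ^ n
          ≤ (81 / 625) * (1 - 9 / 25)⁻¹ := by gcongr
        _ ≤ (9 / 20) ^ 2 := by norm_num
    calc ‖∑ n ∈ Finset.range N, t (n + 2) * ζ ^ (n + 2)‖
        ≤ ∑ n ∈ Finset.range N, ‖t (n + 2)‖ * (3 / 5 : ℝ) ^ (n + 2) := by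
          refine le_trans (norm_sum_le _ _) (le_of_eq ?_)
          apply Finset.sum_congr rfl
          intro n _
          rw [norm_mul, norm_pow, hζ]
      _ ≤ 9 / 20 := by
          have hcs := Finset.sum_mul_sq_le_sq_mul_sq (Finset.range N) (fun n => ‖t (n + 2)‖)
            (fun n => (3 / 5 : ℝ) ^ (n + 2))
          have h3 : ∑ n ∈ Finset.range N, ‖t (n + 2)‖ ^ 2 ≤ 1 := by
            refine le_trans (Finset.sum_le_sum ?_) hA
            intro n _
            have hn : (0 : ℝ) ≤ n := Nat.cast_nonneg n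
            nlinarith [sq_nonneg ‖t (n + 2)‖]
          have h4 : (∑ n ∈ Finset.range N, ‖t (n + 2)‖ * (3 / 5 : ℝ) ^ (n + 2)) ^ 2 ≤
              (9 / 20) ^ 2 := by
            refine le_trans hcs ?_
            have h5 : (0 : ℝ) ≤ ∑ n ∈ Finset.range N, ((3 / 5 : ℝ) ^ (n + 2)) ^ 2 :=
              Finset.sum_nonneg (fun i _ => by positivity)
            nlinarith
          exact le_of_sq_le_sq₀ h4
  have e : Rfun F ζ - t 1 * ζ = (Rfun F ζ - (1 + t 1 * ζ)) + 1 := by ring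
  rw [e]
  refine le_trans (norm_add_le _ _) ?_
  rw [norm_one]
  linarith
where
  le_of_sq_le_sq₀ {a : ℝ} (h : a ^ 2 ≤ (9 / 20) ^ 2) : a ≤ 9 / 20 := by nlinarith

/-- A cheap bound for the second coefficient. -/
lemma norm_tc_one_le (hF : DifferentiableOn ℂ F (ball 0 1)) (hinj : InjOn F (ball 0 1))
    (h0 : F 0 = 0) (h1 : deriv F 0 = 1) : ‖tc (Rfun F) 1‖ ≤ 29 / 6 := by
  by_contra hcon
  push Not at hcon
  set b := tc (Rfun F) 1 with hb
  set d : ℝ := 3 / 5 * ‖b‖ - 29 / 20 with hd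
  have hd1 : 29 / 20 < d := by rw [hd]; linarith
  have hdiff : DifferentiableOn ℂ (fun ζ => 1 - b * F ζ) (ball 0 1) :=
    (differentiableOn_const _).sub (hF.const_mul b)
  have hcl : closedBall (0 : ℂ) (3 / 5) ⊆ ball 0 1 := by
    apply closedBall_subset_ball; norm_num
  have hdc : DiffContOnCl ℂ (fun ζ => 1 - b * F ζ) (ball 0 (3 / 5)) := by
    apply DifferentiableOn.diffContOnCl
    rw [closure_ball _ (by norm_num)]
    exact hdiff.mono hcl
  have hbd : ∀ ζ ∈ frontier (ball (0 : ℂ) (3 / 5)), ‖1 - b * F ζ‖ ≤ (29 / 20) / d := by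
    intro ζ hζ
    rw [frontier_ball _ (by norm_num), mem_sphere_zero_iff_norm] at hζ
    have hζb : ζ ∈ ball (0 : ℂ) 1 := by rw [mem_ball_zero_iff, hζ]; norm_num
    have ht := Rfun_tail hF hinj h0 h1 hζ
    rw [← hb] at ht
    have hR0 := Rfun_ne hinj h0 h1 hζb
    have hRd : d ≤ ‖Rfun F ζ‖ := by
      have h2 : ‖b * ζ‖ ≤ ‖Rfun F ζ‖ + ‖Rfun F ζ - b * ζ‖ := by
        have : b * ζ = Rfun F ζ - (Rfun F ζ - b * ζ) := by ring
        calc ‖b * ζ‖ = ‖Rfun F ζ - (Rfun F ζ - b * ζ)‖ := by rw [← this]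
          _ ≤ _ := norm_sub_le _ _
      rw [norm_mul, hζ] at h2
      rw [hd]
      linarith
    have e : 1 - b * F ζ = (Rfun F ζ - b * ζ) / Rfun F ζ := by
      rw [F_eq_div h0 ζ]
      field_simp
    rw [e, norm_div]
    have hdpos : 0 < d := by linarith
    gcongr
  have hmax := Complex.norm_le_of_forall_mem_frontier_norm_le isBounded_ball hdc hbd
    (subset_closure (mem_ball_self (x := (0 : ℂ)) (by norm_num)))
  rw [h0, mul_zero, sub_zero, norm_one, le_div_iff₀ (by linarith)] at hmax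
  linarith

theorem norm_X_zero_le (hf : Univ f) (hz : z ∈ ball (0 : ℂ) 1) : ‖X f 0 z‖ ≤ 6 := by
  have hT := koebeT_univ hf hz
  have h := norm_tc_one_le hT.1 hT.2 (koebeT_zero f z) (koebeT_deriv hf hz)
  rw [tc_koebe_one hf hz] at h
  have e : X f 0 z = z * (((1 - ‖z‖ ^ 2 : ℝ) : ℂ) * lam f 0 z) := by
    rw [X]; ring
  have hz1 : ‖z‖ ≤ 1 := by rw [mem_ball_zero_iff] at hz; exact hz.le
  have h2 : ‖((1 - ‖z‖ ^ 2 : ℝ) : ℂ) * lam f 0 z‖ ≤ 6 := by
    have e2 : ((1 - ‖z‖ ^ 2 : ℝ) : ℂ) * lam f 0 z =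
        (conj z + ((1 - ‖z‖ ^ 2 : ℝ) : ℂ) * lam f 0 z) - conj z := by ring
    rw [e2]
    refine le_trans (norm_sub_le _ _) ?_
    rw [RCLike.norm_conj]
    linarith
  rw [e, norm_mul]
  have h3 := mul_le_mul hz1 h2 (norm_nonneg _) (by norm_num)
  linarith

end

end Vale.Agent.P142
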