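import Mathlib

open Set Filter Topology

namespace Vale.Agent.P142

noncomputable section

/-- The weight `(1 - r ^ 2) / r ^ 2`. -/
def Wr (r : ℝ) : ℝ := (1 - r ^ 2) / r ^ 2

/-- The rate `2 / (r (1 - r ^ 2))`. -/
def qr (r : ℝ) : ℝ := 2 / (r * (1 - r ^ 2))

lemma Wr_pos {r : ℝ} (h0 : 0 < r) (h1 : r < 1) : 0 < Wr r := by
  unfold Wr
  have : 0 < 1 - r ^ 2 := by nlinarith
  positivity

lemma qr_pos {r : ℝ} (h0 : 0 < r) (h1 : r < 1) : 0 < qr r := by
  unfold qr
  have : 0 < 1 - r ^ 2 := by nlinarith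
  positivity

lemma hasDerivAt_Wr {r : ℝ} (h0 : 0 < r) (h1 : r < 1) : HasDerivAt Wr (-(qr r) * Wr r) r := by
  have hu : 0 < 1 - r ^ 2 := by nlinarith
  have h2 : HasDerivAt (fun s : ℝ => 1 - s ^ 2) (-(2 * r)) r := by
    have := (hasDerivAt_pow 2 r).const_sub 1
    simpa using this
  have h3 : HasDerivAt (fun s : ℝ => s ^ 2) (2 * r) r := by
    simpa using hasDerivAt_pow 2 r
  have h4 := h2.fun_div h3 (by positivity)
  refine h4.congr_deriv ?_
  unfold qr Wr
  field_simp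
  ring

lemma hasDerivAt_Wr_rpow {r β : ℝ} (h0 : 0 < r) (h1 : r < 1) :
    HasDerivAt (fun s => Wr s ^ β) (-(β * qr r) * Wr r ^ β) r := by
  have hW := Wr_pos h0 h1
  have h := (hasDerivAt_Wr h0 h1).rpow_const (p := β) (Or.inl hW.ne')
  refine h.congr_deriv ?_
  rw [Real.rpow_sub_one hW.ne']
  field_simp

lemma tendsto_Wr_rpow {β : ℝ} (hβ : 0 < β) :
    Tendsto (fun s => Wr s ^ β) (𝓝[<] 1) (𝓝 0) := by
  have h1 : ContinuousAt Wr 1 := by
    unfold Wr
    apply ContinuousAt.div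
    · fun_prop
    · fun_prop
    · norm_num
  have h2 : ContinuousAt (fun s => Wr s ^ β) 1 := h1.rpow_const (Or.inr hβ.le)
  have h3 : (Wr 1) ^ β = 0 := by
    have : Wr 1 = 0 := by unfold Wr; norm_num
    rw [this, Real.zero_rpow hβ.ne']
  have h4 := h2.tendsto
  rw [h3] at h4
  exact h4.mono_left nhdsWithin_le_nhds

/-- The Lyapunov lemma. -/
theorem ode_lyap {L M L' M' : ℝ → ℝ} {β τ κ C B r₀ : ℝ} (hβ : 0 < β) (hτ : 0 < τ) (hκ : 0 ≤ κ)
    (hr0 : 0 < r₀) (hL : ∀ r ∈ Ico r₀ 1, HasDerivAt L (L' r) r)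
    (hM : ∀ r ∈ Ico r₀ 1, HasDerivAt M (M' r) r)
    (hL' : ∀ r ∈ Ico r₀ 1, L' r ≤ qr r * (β * L r - τ * M r))
    (hM' : ∀ r ∈ Ico r₀ 1, -(κ * qr r * M r) ≤ M' r)
    (hM0 : ∀ r ∈ Ico r₀ 1, 0 ≤ M r) (hMB : ∀ r ∈ Ico r₀ 1, M r ≤ B)
    (hLM : ∀ r ∈ Ico r₀ 1, |L r| ≤ C * M r) :
    ∀ r ∈ Ico r₀ 1, Wr r ^ β * (τ / (β + κ) * M r) ≤ Wr r₀ ^ β * (C * M r₀) := by
  set k : ℝ := τ / (β + κ) with hk
  have hbk : 0 < β + κ := by linarith
  have hk0 : 0 < k := by positivity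
  have hkeq : k * (β + κ) = τ := by rw [hk]; field_simp
  have hpos : ∀ r ∈ Ico r₀ 1, 0 < r := fun r hr => lt_of_lt_of_le hr0 hr.1
  -- G = W^β (L - k M)
  have hG : ∀ r ∈ Ico r₀ 1, HasDerivAt (fun s => Wr s ^ β * (L s - k * M s))
      (-(β * qr r) * Wr r ^ β * (L r - k * M r) + Wr r ^ β * (L' r - k * M' r)) r := fun r hr =>
    (hasDerivAt_Wr_rpow (hpos r hr) hr.2).fun_mul ((hL r hr).fun_sub ((hM r hr).const_mul k))
  have hH : ∀ r ∈ Ico r₀ 1, HasDerivAt (fun s => Wr s ^ β * L s)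
      (-(β * qr r) * Wr r ^ β * L r + Wr r ^ β * L' r) r := fun r hr =>
    (hasDerivAt_Wr_rpow (hpos r hr) hr.2).fun_mul (hL r hr)
  have hGanti : AntitoneOn (fun s => Wr s ^ β * (L s - k * M s)) (Ico r₀ 1) := by
    apply antitoneOn_of_deriv_nonpos (convex_Ico r₀ 1)
    · intro r hr; exact (hG r hr).continuousAt.continuousWithinAt
    · intro r hr
      rw [interior_Ico] at hr
      exact (hG r ⟨hr.1.le, hr.2⟩).differentiableAt.differentiableWithinAt
    · intro r hr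
      rw [interior_Ico] at hr
      have hr' : r ∈ Ico r₀ 1 := ⟨hr.1.le, hr.2⟩
      rw [(hG r hr').deriv]
      have hW : 0 < Wr r ^ β := Real.rpow_pos_of_pos (Wr_pos (hpos r hr') hr.2) β
      have hq := qr_pos (hpos r hr') hr.2
      have h1 := hL' r hr'
      have h2 := hM' r hr'
      have h3 : L' r - k * M' r - β * qr r * (L r - k * M r) ≤ 0 := by
        have h4 : k * (-(κ * qr r * M r)) ≤ k * M' r := mul_le_mul_of_nonneg_left h2 hk0.le
        have h5 : qr r * (β * L r - τ * M r) + k * (κ * qr r * M r) -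
            β * qr r * (L r - k * M r) = qr r * M r * (k * (β + κ) - τ) := by ring
        rw [hkeq, sub_self, mul_zero] at h5
        linarith
      have h6 : -(β * qr r) * Wr r ^ β * (L r - k * M r) + Wr r ^ β * (L' r - k * M' r) =
          Wr r ^ β * (L' r - k * M' r - β * qr r * (L r - k * M r)) := by ring
      rw [h6]
      exact mul_nonpos_of_nonneg_of_nonpos hW.le h3
  have hHanti : AntitoneOn (fun s => Wr s ^ β * L s) (Ico r₀ 1) := by
    apply antitoneOn_of_deriv_nonpos (convex_Ico r₀ 1)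
    · intro r hr; exact (hH r hr).continuousAt.continuousWithinAt
    · intro r hr
      rw [interior_Ico] at hr
      exact (hH r ⟨hr.1.le, hr.2⟩).differentiableAt.differentiableWithinAt
    · intro r hr
      rw [interior_Ico] at hr
      have hr' : r ∈ Ico r₀ 1 := ⟨hr.1.le, hr.2⟩
      rw [(hH r hr').deriv]
      have hW : 0 < Wr r ^ β := Real.rpow_pos_of_pos (Wr_pos (hpos r hr') hr.2) β
      have hq := qr_pos (hpos r hr') hr.2
      have h1 := hL' r hr'
      have h3 : L' r - β * qr r * L r ≤ 0 := by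
        have h5 : qr r * (β * L r - τ * M r) - β * qr r * L r = -(qr r * τ * M r) := by ring
        have h6 : 0 ≤ qr r * τ * M r := mul_nonneg (mul_pos hq hτ).le (hM0 r hr')
        linarith
      have h6 : -(β * qr r) * Wr r ^ β * L r + Wr r ^ β * L' r =
          Wr r ^ β * (L' r - β * qr r * L r) := by ring
      rw [h6]
      exact mul_nonpos_of_nonneg_of_nonpos hW.le h3
  -- limit of G
  have hlim : ∀ r ∈ Ico r₀ 1, 0 ≤ Wr r ^ β * (L r - k * M r) := by
    intro r hr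
    have hCB : ∀ s ∈ Ico r₀ 1, |L s - k * M s| ≤ |C| * |B| + k * |B| := by
      intro s hs
      have h1 := hLM s hs
      have h2 := hMB s hs
      have h3 := hM0 s hs
      have h4 : M s ≤ |B| := le_trans h2 (le_abs_self B)
      have h5 : C * M s ≤ |C| * |B| := by
        calc C * M s ≤ |C| * M s := mul_le_mul_of_nonneg_right (le_abs_self C) h3
          _ ≤ |C| * |B| := mul_le_mul_of_nonneg_left h4 (abs_nonneg C)
      calc |L s - k * M s| ≤ |L s| + |k * M s| := abs_sub _ _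
        _ = |L s| + k * M s := by rw [abs_of_nonneg (mul_nonneg hk0.le h3)]
        _ ≤ _ := by
          have := mul_le_mul_of_nonneg_left h4 hk0.le
          linarith
    have ht : Tendsto (fun s => Wr s ^ β * (L s - k * M s)) (𝓝[<] 1) (𝓝 0) := by
      have h0 : Tendsto (fun s => Wr s ^ β * (|C| * |B| + k * |B|)) (𝓝[<] 1) (𝓝 0) := by
        have := (tendsto_Wr_rpow hβ).mul_const (|C| * |B| + k * |B|)
        rwa [zero_mul] at this
      apply squeeze_zero_norm' _ h0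
      have hev : ∀ᶠ s in 𝓝[<] (1 : ℝ), s ∈ Ico r₀ 1 := by
        apply Ico_mem_nhdsLT
        exact lt_of_le_of_lt hr.1 hr.2
      filter_upwards [hev] with s hs
      have hW : 0 ≤ Wr s ^ β := (Real.rpow_pos_of_pos (Wr_pos (hpos s hs) hs.2) β).le
      rw [norm_mul, Real.norm_eq_abs, Real.norm_eq_abs, abs_of_nonneg hW]
      exact mul_le_mul_of_nonneg_left (hCB s hs) hW
    refine le_of_tendsto ht ?_
    have hev : ∀ᶠ s in 𝓝[<] (1 : ℝ), s ∈ Ico r 1 := Ico_mem_nhdsLT hr.2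
    filter_upwards [hev] with s hs
    exact hGanti hr ⟨le_trans hr.1 hs.1, hs.2⟩ hs.1
  intro r hr
  have hr₀ : r₀ ∈ Ico r₀ 1 := ⟨le_rfl, lt_of_le_of_lt hr.1 hr.2⟩
  have hW : 0 < Wr r ^ β := Real.rpow_pos_of_pos (Wr_pos (hpos r hr) hr.2) β
  have hW0 : 0 < Wr r₀ ^ β := Real.rpow_pos_of_pos (Wr_pos hr0 hr₀.2) β
  have h1 := hlim r hr
  have h2 := hHanti hr₀ hr hr.1
  simp only at h2
  have h3 : L r₀ ≤ C * M r₀ := le_trans (le_abs_self _) (hLM r₀ hr₀)
  have h4 : Wr r₀ ^ β * L r₀ ≤ Wr r₀ ^ β * (C * M r₀) := mul_le_mul_of_nonneg_left h3 hW0.le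
  rw [mul_sub] at h1
  linarith

end

end Vale.Agent.P142
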