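import Vale.Agent.P142.GoodJets
import Vale.Agent.P142.KoebeBound
import Vale.Agent.P142.OdeLyap

open Complex MeasureTheory Metric Set Filter Topology intervalIntegral
open scoped Real ComplexConjugate

namespace Vale.Agent.P142

noncomputable section

variable {f : ℂ → ℂ} {t β : ℝ} {r : ℝ}

/-- Boundedness on the box. -/
def Bdd (g : (ℕ → ℂ) → ℂ) : Prop := ∃ C : ℝ, ∀ x, Box x → ‖g x‖ ≤ C

lemma Bdd.add {g h : (ℕ → ℂ) → ℂ} (hg : Bdd g) (hh : Bdd h) : Bdd (fun x => g x + h x) := by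
  obtain ⟨C, hC⟩ := hg
  obtain ⟨D, hD⟩ := hh
  exact ⟨C + D, fun x hx => le_trans (norm_add_le _ _) (add_le_add (hC x hx) (hD x hx))⟩

lemma Bdd.const_mul {g : (ℕ → ℂ) → ℂ} (c : ℂ) (hg : Bdd g) : Bdd (fun x => c * g x) := by
  obtain ⟨C, hC⟩ := hg
  refine ⟨‖c‖ * C, fun x hx => ?_⟩
  rw [norm_mul]
  exact mul_le_mul_of_nonneg_left (hC x hx) (norm_nonneg c)

lemma Bdd.mul_conj {g h : (ℕ → ℂ) → ℂ} (hg : Bdd g) (hh : Bdd h) :
    Bdd (fun x => g x * conj (h x)) := by
  obtain ⟨C, hC⟩ := hg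
  obtain ⟨D, hD⟩ := hh
  refine ⟨C * D, fun x hx => ?_⟩
  rw [norm_mul, RCLike.norm_conj]
  exact mul_le_mul (hC x hx) (hD x hx) (norm_nonneg _) (le_trans (norm_nonneg _) (hC x hx))

/-- `Φ` is a Lyapunov candidate and `P` the associated form. -/
structure GoodPhi (t β : ℝ) (Φ P : (ℕ → ℂ) → ℂ) : Prop where
  bdd : Bdd Φ
  cont : Continuous Φ
  contP : Continuous P
  ex : ∃ E : (ℕ → ℂ) → ℂ, Bdd E ∧ Continuous E ∧ ∀ f : ℂ → ℂ, DifferentiableOn ℂ f (ball 0 1) →
    (∀ z ∈ ball (0 : ℂ) 1, deriv f z ≠ 0) → ∀ r : ℝ, 0 < r → r < 1 →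
    HasDerivAt (wInt f t (fun z => Φ (XX f z))) ((qr r : ℂ) *
      (β * wInt f t (fun z => Φ (XX f z)) r - wInt f t (fun z => P (XX f z)) r +
        ((1 - r ^ 2 : ℝ) : ℂ) * wInt f t (fun z => E (XX f z)) r)) r

lemma comp_XX_cont (hf : DifferentiableOn ℂ f (ball 0 1))
    (hd : ∀ z ∈ ball (0 : ℂ) 1, deriv f z ≠ 0) {g : (ℕ → ℂ) → ℂ} (hg : Continuous g) :
    ContinuousOn (fun z => g (XX f z)) (ball 0 1) := hg.comp_continuousOn (XX_continuousOn hf hd)

lemma GoodPhi.zero : GoodPhi t β (fun _ => 0) (fun _ => 0) where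
  bdd := ⟨0, fun _ _ => by simp⟩
  cont := continuous_const
  contP := continuous_const
  ex := by
    refine ⟨fun _ => 0, ⟨0, fun _ _ => by simp⟩, continuous_const, ?_⟩
    intro f hf hd r hr0 hr1
    have h0 : wInt f t (fun _ => (0 : ℂ)) = fun _ => 0 := by
      ext r; simp [wInt]
    rw [h0]
    simpa using hasDerivAt_const r (0 : ℂ)

lemma GoodPhi.add {Φ P Ψ Q : (ℕ → ℂ) → ℂ} (h1 : GoodPhi t β Φ P) (h2 : GoodPhi t β Ψ Q) :
    GoodPhi t β (fun x => Φ x + Ψ x) (fun x => P x + Q x) where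
  bdd := h1.bdd.add h2.bdd
  cont := h1.cont.add h2.cont
  contP := h1.contP.add h2.contP
  ex := by
    obtain ⟨E, hE1, hE2, hE3⟩ := h1.ex
    obtain ⟨F, hF1, hF2, hF3⟩ := h2.ex
    refine ⟨fun x => E x + F x, hE1.add hF1, hE2.add hF2, ?_⟩
    intro f hf hd r hr0 hr1
    have h3 := (hE3 f hf hd r hr0 hr1).fun_add (hF3 f hf hd r hr0 hr1)
    have c := fun {g : (ℕ → ℂ) → ℂ} (hg : Continuous g) => comp_XX_cont hf hd hg
    have h4 : HasDerivAt (wInt f t (fun z => Φ (XX f z) + Ψ (XX f z)))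
        ((qr r : ℂ) * (β * wInt f t (fun z => Φ (XX f z)) r - wInt f t (fun z => P (XX f z)) r +
        ((1 - r ^ 2 : ℝ) : ℂ) * wInt f t (fun z => E (XX f z)) r) + (qr r : ℂ) *
        (β * wInt f t (fun z => Ψ (XX f z)) r - wInt f t (fun z => Q (XX f z)) r +
        ((1 - r ^ 2 : ℝ) : ℂ) * wInt f t (fun z => F (XX f z)) r)) r := by
      refine h3.congr_of_eventuallyEq ?_
      filter_upwards [Ioo_mem_nhds hr0 hr1] with s hs
      exact wInt_add hf hd (c h1.cont) (c h2.cont) hs.1.le hs.2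
    refine h4.congr_deriv ?_
    rw [wInt_add hf hd (c h1.cont) (c h2.cont) hr0.le hr1,
      wInt_add hf hd (c h1.contP) (c h2.contP) hr0.le hr1,
      wInt_add hf hd (c hE2) (c hF2) hr0.le hr1]
    ring

lemma GoodPhi.const_mul {Φ P : (ℕ → ℂ) → ℂ} (k : ℂ) (h1 : GoodPhi t β Φ P) :
    GoodPhi t β (fun x => k * Φ x) (fun x => k * P x) where
  bdd := h1.bdd.const_mul k
  cont := continuous_const.mul h1.cont
  contP := continuous_const.mul h1.contP
  ex := by
    obtain ⟨E, hE1, hE2, hE3⟩ := h1.ex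
    refine ⟨fun x => k * E x, hE1.const_mul k, continuous_const.mul hE2, ?_⟩
    intro f hf hd r hr0 hr1
    have h3 := (hE3 f hf hd r hr0 hr1).const_mul k
    have e : wInt f t (fun z => k * Φ (XX f z)) = fun r => k * wInt f t (fun z => Φ (XX f z)) r := by
      ext r; exact wInt_const_mul _ _ _
    rw [e]
    refine h3.congr_deriv ?_
    simp only [wInt_const_mul]
    ring

lemma GoodPhi.congr {Φ P Ψ Q : (ℕ → ℂ) → ℂ} (h : GoodPhi t β Φ P) (e : ∀ x, Φ x = Ψ x)
    (e' : ∀ x, P x = Q x) : GoodPhi t β Ψ Q := by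
  have h1 : Φ = Ψ := funext e
  have h2 : P = Q := funext e'
  subst h1; subst h2; exact h

lemma GoodPhi.sum {ι : Type*} (s : Finset ι) {Φ P : ι → (ℕ → ℂ) → ℂ}
    (h : ∀ i ∈ s, GoodPhi t β (Φ i) (P i)) :
    GoodPhi t β (fun x => ∑ i ∈ s, Φ i x) (fun x => ∑ i ∈ s, P i x) := by
  classical
  induction s using Finset.induction_on with
  | empty => simpa using GoodPhi.zero
  | insert a s ha ih =>
    simp only [Finset.sum_insert ha]
    exact (h a (Finset.mem_insert_self a s)).add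
      (ih (fun i hi => h i (Finset.mem_insert_of_mem hi)))

lemma GoodPhi.list_sum {ι : Type*} (l : List ι) {Φ P : ι → (ℕ → ℂ) → ℂ}
    (h : ∀ i ∈ l, GoodPhi t β (Φ i) (P i)) :
    GoodPhi t β (fun x => (l.map (fun i => Φ i x)).sum) (fun x => (l.map (fun i => P i x)).sum) := by
  induction l with
  | nil => simpa using GoodPhi.zero
  | cons a l ih =>
    simp only [List.map_cons, List.sum_cons]
    exact (h a List.mem_cons_self).add (ih (fun i hi => h i (List.mem_cons_of_mem a hi)))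

/-- The basic pairs. -/
theorem GoodPhi.pair {p q : ℕ} {a Da b Db : (ℕ → ℂ) → ℂ} (ha : Good p a Da) (hb : Good q b Db) :
    GoodPhi t β (fun x => a x * conj (b x))
      (fun x => ((p : ℂ) + q + β) * (a x * conj (b x)) - (Da x - t * x 0 * a x) * conj (b x)) where
  bdd := Bdd.mul_conj ha.bdd hb.bdd
  cont := ha.cont.mul (Complex.continuous_conj.comp hb.cont)
  contP := by
    have h1 := ha.cont
    have h2 := hb.cont
    have h3 := ha.contD
    have h4 : Continuous (fun x => conj (b x)) := Complex.continuous_conj.comp hb.cont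
    have h5 : Continuous (fun x : ℕ → ℂ => x 0) := continuous_apply 0
    fun_prop
  ex := by
    refine ⟨fun x => ((2 * p + q : ℝ) : ℂ) * (a x * conj (b x)),
      (Bdd.mul_conj ha.bdd hb.bdd).const_mul _,
      continuous_const.mul (ha.cont.mul (Complex.continuous_conj.comp hb.cont)), ?_⟩
    intro f hf hd r hr0 hr1
    have h1 := pair_deriv hf hd t ha hb hr0 hr1
    refine h1.congr_deriv ?_
    have hac := comp_XX_cont hf hd ha.cont
    have hDc := comp_XX_cont hf hd ha.contD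
    have hbc : ContinuousOn (fun z => conj (b (XX f z))) (ball 0 1) :=
      Complex.continuous_conj.comp_continuousOn (comp_XX_cont hf hd hb.cont)
    have hX0 : ContinuousOn (fun z => XX f z 0) (ball 0 1) :=
      continuousOn_pi.mp (XX_continuousOn hf hd) 0
    have e1 : wInt f t (fun z => ((p : ℂ) + q + β) * (a (XX f z) * conj (b (XX f z))) -
        (Da (XX f z) - t * XX f z 0 * a (XX f z)) * conj (b (XX f z))) r =
        ((p : ℂ) + q + β) * wInt f t (fun z => a (XX f z) * conj (b (XX f z))) r -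
        wInt f t (fun z => (Da (XX f z) - t * XX f z 0 * a (XX f z)) * conj (b (XX f z))) r := by
      have c1 : ContinuousOn (fun z => ((p : ℂ) + q + β) * (a (XX f z) * conj (b (XX f z))))
          (ball 0 1) := continuousOn_const.mul (hac.mul hbc)
      have c2 : ContinuousOn (fun z => (-1 : ℂ) * ((Da (XX f z) - t * XX f z 0 * a (XX f z)) *
          conj (b (XX f z)))) (ball 0 1) :=
        continuousOn_const.mul ((hDc.sub ((continuousOn_const.mul hX0).mul hac)).mul hbc)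
      have e2 := wInt_add (t := t) hf hd c1 c2 hr0.le hr1
      rw [wInt_const_mul, wInt_const_mul] at e2
      rw [show (fun z => ((p : ℂ) + q + β) * (a (XX f z) * conj (b (XX f z))) -
        (Da (XX f z) - t * XX f z 0 * a (XX f z)) * conj (b (XX f z))) =
        fun z => ((p : ℂ) + q + β) * (a (XX f z) * conj (b (XX f z))) +
        (-1 : ℂ) * ((Da (XX f z) - t * XX f z 0 * a (XX f z)) * conj (b (XX f z))) by
          ext z; ring, e2]
      ring
    rw [e1, wInt_const_mul]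
    unfold qr
    push_cast
    ring

/-! ### Real parts and bounds -/

/-- The mean `∫ |f'| ^ t`. -/
def MM (f : ℂ → ℂ) (t : ℝ) (r : ℝ) : ℝ :=
  ∫ θ in (-π)..π, ‖deriv f (circleMap 0 r θ)‖ ^ t

lemma continuous_weight (hf : DifferentiableOn ℂ f (ball 0 1))
    (hd : ∀ z ∈ ball (0 : ℂ) 1, deriv f z ≠ 0) (hr0 : 0 ≤ r) (hr1 : r < 1) :
    Continuous (fun θ => ‖deriv f (circleMap 0 r θ)‖ ^ t) := by
  have h : ContinuousOn (fun z => ‖deriv f z‖ ^ t) (ball 0 1) := by
    apply ContinuousOn.rpow_const (continuousOn_deriv hf).norm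
    intro z hz
    exact Or.inl (norm_ne_zero_iff.mpr (hd z hz))
  exact h.comp_continuous (continuous_circleMap 0 r) (fun θ => circleMap_mem_unit hr0 hr1 θ)

lemma wInt_re (hf : DifferentiableOn ℂ f (ball 0 1))
    (hd : ∀ z ∈ ball (0 : ℂ) 1, deriv f z ≠ 0) {H : ℂ → ℂ} (hH : ContinuousOn H (ball 0 1))
    (hr0 : 0 ≤ r) (hr1 : r < 1) :
    (wInt f t H r).re = ∫ θ in (-π)..π, (H (circleMap 0 r θ)).re *
      ‖deriv f (circleMap 0 r θ)‖ ^ t := by
  have h1 := wInt_intervalIntegrable (t := t) hf hd hH hr0 hr1 (-π) π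
  have h2 := intervalIntegral.intervalIntegral_re h1
  unfold wInt
  rw [← RCLike.re_eq_complex_re, ← h2]
  apply intervalIntegral.integral_congr
  intro θ _
  simp [wgt]

lemma wInt_one_re (hf : DifferentiableOn ℂ f (ball 0 1))
    (hd : ∀ z ∈ ball (0 : ℂ) 1, deriv f z ≠ 0) (hr0 : 0 ≤ r) (hr1 : r < 1) :
    (wInt f t (fun _ => 1) r).re = MM f t r := by
  rw [wInt_re hf hd continuousOn_const hr0 hr1, MM]
  simp

/-- comparison of real parts. -/
lemma wInt_re_mono (hf : DifferentiableOn ℂ f (ball 0 1))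
    (hd : ∀ z ∈ ball (0 : ℂ) 1, deriv f z ≠ 0) {H : ℂ → ℂ} (hH : ContinuousOn H (ball 0 1))
    (hr0 : 0 ≤ r) (hr1 : r < 1) {c : ℝ} (h : ∀ z, ‖z‖ = r → c ≤ (H z).re) :
    c * MM f t r ≤ (wInt f t H r).re := by
  have hpi : (-π) ≤ π := by linarith [Real.pi_pos]
  have hw := continuous_weight (t := t) hf hd hr0 hr1
  rw [wInt_re hf hd hH hr0 hr1, MM, ← intervalIntegral.integral_const_mul]
  apply intervalIntegral.integral_mono_on hpi
  · exact (continuous_const.mul hw).intervalIntegrable _ _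
  · apply Continuous.intervalIntegrable
    apply Continuous.mul _ hw
    exact Complex.continuous_re.comp (hH.comp_continuous (continuous_circleMap 0 r)
      (fun θ => circleMap_mem_unit hr0 hr1 θ))
  · intro θ _
    apply mul_le_mul_of_nonneg_right _ (Real.rpow_nonneg (norm_nonneg _) _)
    apply h
    rw [norm_circleMap_zero, abs_of_nonneg hr0]

lemma abs_wInt_re_le (hf : DifferentiableOn ℂ f (ball 0 1))
    (hd : ∀ z ∈ ball (0 : ℂ) 1, deriv f z ≠ 0) {H : ℂ → ℂ} (hH : ContinuousOn H (ball 0 1))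
    (hr0 : 0 ≤ r) (hr1 : r < 1) {C : ℝ} (h : ∀ z, ‖z‖ = r → ‖H z‖ ≤ C) :
    |(wInt f t H r).re| ≤ C * MM f t r := by
  rw [abs_le]
  constructor
  · have := wInt_re_mono (t := t) hf hd hH hr0 hr1 (c := -C) (fun z hz => by
      have h1 := (abs_le.mp (Complex.abs_re_le_norm (H z))).1
      linarith [h z hz])
    linarith
  · have hn : ContinuousOn (fun z => (-1 : ℂ) * H z) (ball 0 1) := by fun_prop
    have := wInt_re_mono (t := t) hf hd hn hr0 hr1 (c := -C) (fun z hz => by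
      have h1 := (abs_le.mp (Complex.abs_re_le_norm (H z))).2
      simp only [neg_mul, one_mul, neg_re]
      linarith [h z hz])
    rw [wInt_const_mul] at this
    simp only [neg_mul, one_mul, neg_re] at this
    linarith

lemma XX_box (hf : Univ f) {z : ℂ} (hz : z ∈ ball (0 : ℂ) 1) : Box (XX f z) :=
  ⟨norm_X_zero_le hf hz, fun n => norm_X_succ_le hf hz n⟩

lemma MM_nonneg (f : ℂ → ℂ) (t r : ℝ) : 0 ≤ MM f t r := by
  apply intervalIntegral.integral_nonneg (by linarith [Real.pi_pos])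
  intro θ _
  exact Real.rpow_nonneg (norm_nonneg _) _

/-- Derivative of the mean itself. -/
lemma MM_deriv (hf : Univ f) (t : ℝ) (hr0 : 0 < r) (hr1 : r < 1) :
    HasDerivAt (MM f t) (qr r * (wInt f t (fun z => -(t * XX f z 0)) r).re) r := by
  have hd : ∀ z ∈ ball (0 : ℂ) 1, deriv f z ≠ 0 := fun z hz => univ_deriv_ne_zero hf hz
  have h := pair_deriv hf.1 hd t Good.one Good.one hr0 hr1
  have h2 : HasDerivAt (fun r => (wInt f t (fun z => (1 : ℂ) * conj 1) r).re) _ r :=
    (Complex.reCLM.hasFDerivAt.comp_hasDerivAt r h)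
  have h3 := h2.congr_of_eventuallyEq (f₁ := MM f t) (by
    filter_upwards [Ioo_mem_nhds hr0 hr1] with s hs
    rw [← wInt_one_re hf.1 hd hs.1.le hs.2]
    simp)
  refine h3.congr_deriv ?_
  simp only [map_one, mul_one, Nat.cast_zero, mul_zero, add_zero, sub_zero, ofReal_zero, zero_mul,
    zero_sub]
  rw [Complex.reCLM_apply, re_ofReal_mul, qr]

end

end Vale.Agent.P142
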