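import Vale.Agent.P142.CircleCalc

open Complex MeasureTheory Metric Set Filter Topology
open scoped Real ComplexConjugate Nat

namespace Vale.Agent.P142

noncomputable section

/-- `f` is holomorphic and injective on the unit disc. -/
def Univ (f : ℂ → ℂ) : Prop :=
  DifferentiableOn ℂ f (ball 0 1) ∧ InjOn f (ball 0 1)

/-- Taylor coefficient at `0`. -/
def tc (U : ℂ → ℂ) (n : ℕ) : ℂ := (n ! : ℂ)⁻¹ * iteratedDeriv n U 0

/-- Normalised Taylor series of `(f (z + h) - f z) / (f' z * h)` in `h`. -/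
def Aser (f : ℂ → ℂ) (z : ℂ) : PowerSeries ℂ :=
  PowerSeries.mk fun k => iteratedDeriv (k + 1) f z / ((k + 1)! * deriv f z)

/-- Taylor series of `f' z * h / (f (z + h) - f z)` in `h`. -/
def Bser (f : ℂ → ℂ) (z : ℂ) : PowerSeries ℂ := (Aser f z)⁻¹

/-- Jets: `f' z / (f (z + h) - f z) = 1 / h + ∑ lam f n z * h ^ n`. -/
def lam (f : ℂ → ℂ) (n : ℕ) (z : ℂ) : ℂ := PowerSeries.coeff (n + 1) (Bser f z)

/-- Normalised jets. -/
def X (f : ℂ → ℂ) (n : ℕ) (z : ℂ) : ℂ := (((1 - ‖z‖ ^ 2 : ℝ) : ℂ) * z) ^ (n + 1) * lam f n z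

/-- Koebe transform of `f` at `z`. -/
def koebeT (f : ℂ → ℂ) (z ζ : ℂ) : ℂ :=
  (f ((ζ + z) / (1 + conj z * ζ)) - f z) / (((1 - ‖z‖ ^ 2 : ℝ) : ℂ) * deriv f z)

end

end Vale.Agent.P142
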