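import Vale.Agent.P142.TaylorPS
import Vale.Agent.P142.JetsDeriv
import Vale.Agent.P142.AreaTheorem

open Complex Metric Set Filter Topology
open scoped Real ComplexConjugate Nat

namespace Vale.Agent.P142

noncomputable section

variable {f : ℂ → ℂ} {z : ℂ}

lemma unit_pos (hz : z ∈ ball (0 : ℂ) 1) : 0 < 1 - ‖z‖ ^ 2 := by
  rw [mem_ball_zero_iff] at hz
  nlinarith [norm_nonneg z]

lemma den_ne {ζ : ℂ} (hz : z ∈ ball (0 : ℂ) 1) (hζ : ζ ∈ ball (0 : ℂ) 1) :
    1 + conj z * ζ ≠ 0 := by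
  rw [mem_ball_zero_iff] at hz hζ
  intro h
  have h1 : conj z * ζ = -1 := by linear_combination h
  have h2 : ‖conj z * ζ‖ = 1 := by rw [h1]; simp
  rw [norm_mul, RCLike.norm_conj] at h2
  nlinarith [norm_nonneg z, norm_nonneg ζ]

lemma mob_sub {ζ : ℂ} (hz : z ∈ ball (0 : ℂ) 1) (hζ : ζ ∈ ball (0 : ℂ) 1) :
    (ζ + z) / (1 + conj z * ζ) - z = ((1 - ‖z‖ ^ 2 : ℝ) : ℂ) * ζ / (1 + conj z * ζ) := by
  have h := den_ne hz hζ
  have e : ((1 - ‖z‖ ^ 2 : ℝ) : ℂ) = 1 - z * conj z := by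
    rw [mul_conj, normSq_eq_norm_sq]; push_cast; ring
  have h' : 1 + ζ * conj z ≠ 0 := by rwa [mul_comm ζ]
  rw [e]
  field_simp
  ring

lemma mob_mem {ζ : ℂ} (hz : z ∈ ball (0 : ℂ) 1) (hζ : ζ ∈ ball (0 : ℂ) 1) :
    (ζ + z) / (1 + conj z * ζ) ∈ ball (0 : ℂ) 1 := by
  have h := den_ne hz hζ
  have hz' := unit_pos hz
  have hζ' := unit_pos hζ
  rw [mem_ball_zero_iff, norm_div, div_lt_one (norm_pos_iff.mpr h)]
  have h1 : ‖1 + conj z * ζ‖ ^ 2 - ‖ζ + z‖ ^ 2 = (1 - ‖z‖ ^ 2) * (1 - ‖ζ‖ ^ 2) := by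
    have e : ∀ w : ℂ, ‖w‖ ^ 2 = w.re ^ 2 + w.im ^ 2 := fun w => by
      rw [← normSq_eq_norm_sq, normSq_apply]; ring
    rw [e, e, e, e]
    simp
    ring
  have h2 : ‖ζ + z‖ ^ 2 < ‖1 + conj z * ζ‖ ^ 2 := by nlinarith [mul_pos hz' hζ']
  exact lt_of_pow_lt_pow_left₀ 2 (norm_nonneg _) h2

lemma mob_diff (hz : z ∈ ball (0 : ℂ) 1) :
    DifferentiableOn ℂ (fun ζ => (ζ + z) / (1 + conj z * ζ)) (ball 0 1) := by
  apply DifferentiableOn.div
  · fun_prop
  · fun_prop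
  · intro ζ hζ; exact den_ne hz hζ

lemma hasDerivAt_mob (z : ℂ) :
    HasDerivAt (fun ζ => (ζ + z) / (1 + conj z * ζ)) (((1 - ‖z‖ ^ 2 : ℝ) : ℂ)) 0 := by
  have h1 : HasDerivAt (fun ζ : ℂ => ζ + z) 1 0 := (hasDerivAt_id (0 : ℂ)).add_const z
  have h2 : HasDerivAt (fun ζ : ℂ => 1 + conj z * ζ) (conj z * 1) 0 :=
    ((hasDerivAt_id (0 : ℂ)).const_mul (conj z)).const_add 1
  have h3 := h1.fun_div h2 (by simp)
  refine h3.congr_deriv ?_
  have e : ((1 - ‖z‖ ^ 2 : ℝ) : ℂ) = 1 - z * conj z := by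
    rw [mul_conj, normSq_eq_norm_sq]; push_cast; ring
  rw [e]
  simp

theorem koebeT_univ (hf : Univ f) (hz : z ∈ ball (0 : ℂ) 1) : Univ (koebeT f z) := by
  have hu := unit_pos hz
  have hd := univ_deriv_ne_zero hf hz
  have huc : ((1 - ‖z‖ ^ 2 : ℝ) : ℂ) ≠ 0 := by exact_mod_cast hu.ne'
  constructor
  · unfold koebeT
    apply DifferentiableOn.div_const
    apply DifferentiableOn.sub_const
    exact hf.1.comp (mob_diff hz) (fun ζ hζ => mob_mem hz hζ)
  · intro ζ₁ h₁ ζ₂ h₂ h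
    unfold koebeT at h
    rw [div_left_inj' (mul_ne_zero huc hd), sub_left_inj] at h
    have h3 := hf.2 (mob_mem hz h₁) (mob_mem hz h₂) h
    have h4 := mob_sub hz h₁
    rw [h3, mob_sub hz h₂] at h4
    have d1 := den_ne hz h₁
    have d2 := den_ne hz h₂
    rw [div_eq_div_iff d2 d1] at h4
    have h5 : ((1 - ‖z‖ ^ 2 : ℝ) : ℂ) * ζ₂ = ((1 - ‖z‖ ^ 2 : ℝ) : ℂ) * ζ₁ := by
      linear_combination h4
    exact (mul_left_cancel₀ huc h5).symm

theorem koebeT_zero (f : ℂ → ℂ) (z : ℂ) : koebeT f z 0 = 0 := by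
  simp [koebeT]

theorem koebeT_deriv (hf : Univ f) (hz : z ∈ ball (0 : ℂ) 1) : deriv (koebeT f z) 0 = 1 := by
  have hu := unit_pos hz
  have hd := univ_deriv_ne_zero hf hz
  have huc : ((1 - ‖z‖ ^ 2 : ℝ) : ℂ) ≠ 0 := by exact_mod_cast hu.ne'
  have h1 : HasDerivAt f (deriv f z) ((0 + z) / (1 + conj z * 0)) := by
    have : (0 + z) / (1 + conj z * 0) = z := by simp
    rw [this]
    exact (hf.1.differentiableAt (isOpen_ball.mem_nhds hz)).hasDerivAt
  have h2 := HasDerivAt.comp (0 : ℂ) h1 (hasDerivAt_mob z)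
  have h3 : HasDerivAt (koebeT f z)
      (deriv f z * ((1 - ‖z‖ ^ 2 : ℝ) : ℂ) / (((1 - ‖z‖ ^ 2 : ℝ) : ℂ) * deriv f z)) 0 :=
    (h2.sub_const (f z)).div_const _
  rw [h3.deriv]
  field_simp

/-! ### The function `G` and its Taylor coefficients -/

lemma PS_linear (a : ℂ) : PS (fun ζ : ℂ => a * ζ) = PowerSeries.C a * PowerSeries.X := by
  rw [PS_mul (U := fun _ => a) (V := fun ζ => ζ) analyticAt_const analyticAt_id, PS_const, PS_id]

lemma PS_one_add (a : ℂ) :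
    PS (fun ζ : ℂ => 1 + a * ζ) = 1 + PowerSeries.C a * PowerSeries.X := by
  rw [PS_add (U := fun _ => 1) (V := fun ζ => a * ζ) analyticAt_const (by fun_prop), PS_const,
    PS_linear, map_one]

/-- `G h = f' z * h / (f (z + h) - f z)`. -/
def Gfun (f : ℂ → ℂ) (z h : ℂ) : ℂ := deriv f z * (dslope f z (z + h))⁻¹

lemma dslope_analytic (hf : DifferentiableOn ℂ f (ball 0 1)) (hz : z ∈ ball (0 : ℂ) 1) :
    AnalyticAt ℂ (fun h => dslope f z (z + h)) 0 := by
  have h1 : AnalyticAt ℂ (dslope f z) z :=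
    ((Complex.differentiableOn_dslope (isOpen_ball.mem_nhds hz)).mpr hf).analyticAt
      (isOpen_ball.mem_nhds hz)
  have h2 : AnalyticAt ℂ (fun h : ℂ => z + h) 0 := by fun_prop
  have h3 : AnalyticAt ℂ (dslope f z ∘ (fun h : ℂ => z + h)) 0 :=
    AnalyticAt.comp (by simpa using h1) h2
  exact h3

lemma PS_dslope (hf : DifferentiableOn ℂ f (ball 0 1)) (hz : z ∈ ball (0 : ℂ) 1)
    (hd : deriv f z ≠ 0) :
    PS (fun h => dslope f z (z + h)) = PowerSeries.C (deriv f z) * Aser f z := by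
  have hS := dslope_analytic hf hz
  have hfa : AnalyticAt ℂ (fun h => f (z + h)) 0 := by
    have h1 : AnalyticAt ℂ f z := hf.analyticAt (isOpen_ball.mem_nhds hz)
    have h2 : AnalyticAt ℂ (fun h : ℂ => z + h) 0 := by fun_prop
    have h3 : AnalyticAt ℂ (f ∘ (fun h : ℂ => z + h)) 0 := AnalyticAt.comp (by simpa using h1) h2
    exact h3
  have e : (fun h => f (z + h)) = fun h => f z + h * dslope f z (z + h) := by
    ext h
    have := sub_smul_dslope f z (z + h)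
    rw [smul_eq_mul] at this
    linear_combination -this
  have h1 : PS (fun h => f (z + h)) = PowerSeries.C (f z) +
      PowerSeries.X * PS (fun h => dslope f z (z + h)) := by
    have hi : AnalyticAt ℂ (fun h : ℂ => h) 0 := analyticAt_id
    rw [e, PS_add (U := fun _ => f z) (V := fun h => h * dslope f z (z + h)) analyticAt_const
      (hi.fun_mul hS), PS_const, PS_mul (U := fun h => h) hi hS, PS_id]
  ext n
  have h2 := congrArg (PowerSeries.coeff (n + 1)) h1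
  rw [map_add, PowerSeries.coeff_succ_X_mul, PowerSeries.coeff_C, if_neg (Nat.succ_ne_zero n),
    zero_add] at h2
  rw [← h2, PowerSeries.coeff_C_mul, coeff_Aser, coeff_PS, tc, iteratedDeriv_comp_const_add]
  simp only [add_zero]
  field_simp

lemma Gfun_analytic (hf : DifferentiableOn ℂ f (ball 0 1)) (hz : z ∈ ball (0 : ℂ) 1)
    (hd : deriv f z ≠ 0) : AnalyticAt ℂ (Gfun f z) 0 := by
  unfold Gfun
  apply analyticAt_const.fun_mul
  apply (dslope_analytic hf hz).fun_inv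
  rw [add_zero, dslope_same]
  exact hd

lemma PS_Gfun (hf : DifferentiableOn ℂ f (ball 0 1)) (hz : z ∈ ball (0 : ℂ) 1)
    (hd : deriv f z ≠ 0) : PS (Gfun f z) = Bser f z := by
  have hS := dslope_analytic hf hz
  have hG := Gfun_analytic hf hz hd
  have h1 : PS (fun h => Gfun f z h * dslope f z (z + h)) = PS (Gfun f z) *
      PS (fun h => dslope f z (z + h)) := PS_mul hG hS
  have h2 : (fun h => Gfun f z h * dslope f z (z + h)) =ᶠ[𝓝 0] fun _ => deriv f z := by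
    have h3 : ∀ᶠ h in 𝓝 (0 : ℂ), dslope f z (z + h) ≠ 0 := by
      apply hS.continuousAt.eventually_ne
      rw [add_zero, dslope_same]
      exact hd
    filter_upwards [h3] with h hh
    rw [Gfun, mul_assoc, inv_mul_cancel₀ hh, mul_one]
  rw [PS_congr h2, PS_const, PS_dslope hf hz hd] at h1
  have h4 : PowerSeries.C (deriv f z) * 1 =
      PowerSeries.C (deriv f z) * (PS (Gfun f z) * Aser f z) := by
    rw [mul_one, mul_left_comm]; exact h1
  have hC : (PowerSeries.C (deriv f z) : PowerSeries ℂ) ≠ 0 := by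
    intro h
    apply hd
    have := congrArg (PowerSeries.coeff 0) h
    simpa using this
  have h5 : PS (Gfun f z) * Aser f z = 1 := (mul_left_cancel₀ hC h4).symm
  have h6 := A_mul_B hd
  calc PS (Gfun f z) = PS (Gfun f z) * (Aser f z * Bser f z) := by rw [h6, mul_one]
    _ = (PS (Gfun f z) * Aser f z) * Bser f z := by ring
    _ = Bser f z := by rw [h5, one_mul]

/-- the local variable `u ζ / (1 + conj z ζ)`. -/
def mfun (z ζ : ℂ) : ℂ := ((1 - ‖z‖ ^ 2 : ℝ) : ℂ) * ζ * (1 + conj z * ζ)⁻¹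

lemma mfun_analytic (z : ℂ) : AnalyticAt ℂ (mfun z) 0 := by
  unfold mfun
  apply AnalyticAt.fun_mul
  · fun_prop
  · apply AnalyticAt.fun_inv
    · fun_prop
    · simp

/-- The series of `(1 + conj z ζ)⁻¹`. -/
lemma PS_mfun (z : ℂ) : PS (mfun z) * (1 + PowerSeries.C (conj z) * PowerSeries.X) =
    PowerSeries.C (((1 - ‖z‖ ^ 2 : ℝ) : ℂ)) * PowerSeries.X := by
  have ha : AnalyticAt ℂ (fun ζ : ℂ => 1 + conj z * ζ) 0 := by fun_prop
  have h1 : PS (fun ζ => mfun z ζ * (1 + conj z * ζ)) = PS (mfun z) *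
      PS (fun ζ => 1 + conj z * ζ) := PS_mul (mfun_analytic z) ha
  have e1 : PS (fun ζ : ℂ => 1 + conj z * ζ) = 1 + PowerSeries.C (conj z) * PowerSeries.X :=
    PS_one_add _
  have e2 : (fun ζ => mfun z ζ * (1 + conj z * ζ)) =ᶠ[𝓝 0]
      fun ζ => ((1 - ‖z‖ ^ 2 : ℝ) : ℂ) * ζ := by
    have h3 : ∀ᶠ ζ in 𝓝 (0 : ℂ), 1 + conj z * ζ ≠ 0 := by
      apply ha.continuousAt.eventually_ne
      simp
    filter_upwards [h3] with ζ hζ
    rw [mfun, mul_assoc, inv_mul_cancel₀ hζ, mul_one]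
  rw [PS_congr e2, e1, PS_linear] at h1
  exact h1.symm

lemma Rfun_koebeT (hf : Univ f) (hz : z ∈ ball (0 : ℂ) 1) {ζ : ℂ} (hζ : ζ ∈ ball (0 : ℂ) 1) :
    Rfun (koebeT f z) ζ = (1 + conj z * ζ) * Gfun f z (mfun z ζ) := by
  have hu := unit_pos hz
  have hd := univ_deriv_ne_zero hf hz
  have huc : ((1 - ‖z‖ ^ 2 : ℝ) : ℂ) ≠ 0 := by exact_mod_cast hu.ne'
  have hden := den_ne hz hζ
  by_cases h0 : ζ = 0
  · subst h0
    rw [Rfun, dslope_same, koebeT_deriv hf hz]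
    simp [mfun, Gfun, hd]
  · rw [Rfun, dslope_of_ne _ h0, slope_def_field, koebeT_zero, sub_zero, sub_zero, Gfun]
    have hm : z + mfun z ζ = (ζ + z) / (1 + conj z * ζ) := by
      have := mob_sub hz hζ
      rw [mfun, ← div_eq_mul_inv]
      linear_combination -this
    have hmne : z + mfun z ζ ≠ z := by
      rw [mfun]
      intro h
      have h2 : ((1 - ‖z‖ ^ 2 : ℝ) : ℂ) * ζ * (1 + conj z * ζ)⁻¹ = 0 := by linear_combination h
      exact (mul_ne_zero (mul_ne_zero huc h0) (inv_ne_zero hden)) h2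
    have hne : f ((ζ + z) / (1 + conj z * ζ)) - f z ≠ 0 := by
      intro h
      have := hf.2 (mob_mem hz hζ) hz (sub_eq_zero.mp h)
      exact hmne (hm.trans this)
    rw [dslope_of_ne _ hmne, slope_def_field, hm, koebeT, mob_sub hz hζ]
    have hden' : 1 + ζ * conj z ≠ 0 := by rwa [mul_comm ζ]
    set c := 1 + conj z * ζ with hc
    field_simp

lemma tc_koebe_aux (hf : Univ f) (hz : z ∈ ball (0 : ℂ) 1) (k : ℕ) :
    tc (Rfun (koebeT f z)) k = ∑ i ∈ Finset.range (k + 1), PowerSeries.coeff i (Bser f z) *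
      PowerSeries.coeff k ((1 + PowerSeries.C (conj z) * PowerSeries.X) * PS (mfun z) ^ i) := by
  have hd := univ_deriv_ne_zero hf hz
  have hGa := Gfun_analytic hf.1 hz hd
  have hma := mfun_analytic z
  have hm0 : mfun z 0 = 0 := by simp [mfun]
  have ha : AnalyticAt ℂ (fun ζ : ℂ => 1 + conj z * ζ) 0 := by fun_prop
  have hGm : AnalyticAt ℂ (fun ζ => Gfun f z (mfun z ζ)) 0 := by
    have : AnalyticAt ℂ (Gfun f z ∘ mfun z) 0 := AnalyticAt.comp (by rwa [hm0]) hma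
    exact this
  have e1 : PS (fun ζ : ℂ => 1 + conj z * ζ) = 1 + PowerSeries.C (conj z) * PowerSeries.X :=
    PS_one_add _
  have h1 : Rfun (koebeT f z) =ᶠ[𝓝 0] fun ζ => (1 + conj z * ζ) * Gfun f z (mfun z ζ) := by
    filter_upwards [isOpen_ball.mem_nhds (mem_ball_self (x := (0 : ℂ)) one_pos)] with ζ hζ
    exact Rfun_koebeT hf hz hζ
  rw [← coeff_PS, PS_congr h1, PS_mul (U := fun ζ => 1 + conj z * ζ) ha hGm, e1,
    coeff_PS_comp hGa hma hm0 (Nat.lt_succ_self k)]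
  apply Finset.sum_congr rfl
  intro i _
  rw [← coeff_PS, PS_Gfun hf.1 hz hd]

theorem tc_koebe_one (hf : Univ f) (hz : z ∈ ball (0 : ℂ) 1) :
    tc (Rfun (koebeT f z)) 1 = conj z + ((1 - ‖z‖ ^ 2 : ℝ) : ℂ) * lam f 0 z := by
  have hd := univ_deriv_ne_zero hf hz
  rw [tc_koebe_aux hf hz 1]
  rw [Finset.sum_range_succ, Finset.sum_range_one, pow_zero, pow_one, mul_one,
    coeff_zero_Bser hd, mul_comm _ (PS (mfun z)), PS_mfun]
  rw [map_add, PowerSeries.coeff_C_mul, PowerSeries.coeff_C_mul, PowerSeries.coeff_one_X,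
    PowerSeries.coeff_one]
  simp [lam, mul_comm]

theorem tc_koebe (hf : Univ f) (hz : z ∈ ball (0 : ℂ) 1) (m : ℕ) :
    tc (Rfun (koebeT f z)) (m + 2) = ∑ n ∈ Finset.range (m + 1),
      (((1 - ‖z‖ ^ 2 : ℝ) : ℂ)) ^ (n + 2) * lam f (n + 1) z * (-(conj z)) ^ (m - n) *
        (m.choose n : ℂ) := by
  have hd := univ_deriv_ne_zero hf hz
  rw [tc_koebe_aux hf hz (m + 2), Finset.sum_range_succ', Finset.sum_range_succ']
  have h0 : PowerSeries.coeff (m + 2) ((1 + PowerSeries.C (conj z) * PowerSeries.X) *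
      PS (mfun z) ^ 0) = 0 := by
    rw [pow_zero, mul_one, map_add, PowerSeries.coeff_C_mul, PowerSeries.coeff_X,
      PowerSeries.coeff_one]
    simp
  have h1 : PowerSeries.coeff (m + 2) ((1 + PowerSeries.C (conj z) * PowerSeries.X) *
      PS (mfun z) ^ (0 + 1)) = 0 := by
    rw [zero_add, pow_one, mul_comm _ (PS (mfun z)), PS_mfun, PowerSeries.coeff_C_mul,
      PowerSeries.coeff_X]
    simp
  rw [h0, h1, mul_zero, mul_zero, add_zero, add_zero]
  apply Finset.sum_congr rfl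
  intro n hn
  rw [Finset.mem_range] at hn
  have hn' : n ≤ m := by omega
  set D : PowerSeries ℂ := 1 + PowerSeries.C (conj z) * PowerSeries.X with hD
  set P : PowerSeries ℂ := PowerSeries.mk fun k => (-(conj z)) ^ k * ((n + k).choose n : ℂ) with hP
  have hPD : P * D ^ (n + 1) = 1 := one_add_pow_inv (conj z) n
  have hm := PS_mfun z
  rw [← hD] at hm
  have key : D * PS (mfun z) ^ (n + 1 + 1) =
      PowerSeries.C ((((1 - ‖z‖ ^ 2 : ℝ) : ℂ)) ^ (n + 2)) * (PowerSeries.X ^ (n + 2) * P) := by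
    calc D * PS (mfun z) ^ (n + 1 + 1) = (P * D ^ (n + 1)) * (D * PS (mfun z) ^ (n + 1 + 1)) := by
          rw [hPD, one_mul]
      _ = P * (PS (mfun z) * D) ^ (n + 2) := by
          rw [mul_pow, pow_succ D (n + 1)]
          ring
      _ = _ := by
          rw [hm, map_pow]
          ring
  rw [key, PowerSeries.coeff_C_mul, show m + 2 = (m - n) + (n + 2) by omega,
    PowerSeries.coeff_X_pow_mul, hP, PowerSeries.coeff_mk, show n + (m - n) = m by omega, lam]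
  ring

/-- The Grunsky-type combinations of the normalised jets. -/
def gco (f : ℂ → ℂ) (z : ℂ) (m : ℕ) : ℂ :=
  ∑ n ∈ Finset.range (m + 1), (m.choose n : ℂ) * (-(((‖z‖ ^ 2 : ℝ) : ℂ))) ^ (m - n) * X f (n + 1) z

lemma gco_eq (hf : Univ f) (hz : z ∈ ball (0 : ℂ) 1) (m : ℕ) :
    gco f z m = z ^ (m + 2) * tc (Rfun (koebeT f z)) (m + 2) := by
  rw [gco, tc_koebe hf hz, Finset.mul_sum]
  apply Finset.sum_congr rfl
  intro n hn
  rw [Finset.mem_range] at hn
  have hn' : n ≤ m := by omega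
  have e : ((‖z‖ ^ 2 : ℝ) : ℂ) = z * conj z := by
    rw [mul_conj, normSq_eq_norm_sq]
  obtain ⟨j, rfl⟩ := Nat.exists_eq_add_of_le hn'
  rw [e, X, show n + j - n = j by omega, neg_pow, mul_pow, neg_pow (conj z), mul_pow]
  ring

/-- Area inequality for the jets. -/
theorem area_jets (hf : Univ f) (hz : z ∈ ball (0 : ℂ) 1) (K : ℕ) :
    ∑ m ∈ Finset.range K, ((m : ℝ) + 1) * ‖gco f z m‖ ^ 2 ≤ 1 := by
  have hT := koebeT_univ hf hz
  have h := area_theorem hT.1 hT.2 (koebeT_zero f z) (koebeT_deriv hf hz) K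
  refine le_trans (Finset.sum_le_sum ?_) h
  intro m _
  rw [gco_eq hf hz, norm_mul, norm_pow]
  rw [mem_ball_zero_iff] at hz
  have h1 : ‖z‖ ^ (m + 2) ≤ 1 := pow_le_one₀ (norm_nonneg z) hz.le
  have h2 : ‖z‖ ^ (m + 2) * ‖tc (Rfun (koebeT f z)) (m + 2)‖ ≤
      ‖tc (Rfun (koebeT f z)) (m + 2)‖ := by
    have := mul_le_mul_of_nonneg_right h1 (norm_nonneg (tc (Rfun (koebeT f z)) (m + 2)))
    linarith
  gcongr

lemma norm_gco_le (hf : Univ f) (hz : z ∈ ball (0 : ℂ) 1) (m : ℕ) : ‖gco f z m‖ ≤ 1 := by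
  have h := area_jets hf hz (m + 1)
  have h1 : ((m : ℝ) + 1) * ‖gco f z m‖ ^ 2 ≤
      ∑ m ∈ Finset.range (m + 1), ((m : ℝ) + 1) * ‖gco f z m‖ ^ 2 := by
    apply Finset.single_le_sum (f := fun m : ℕ => ((m : ℝ) + 1) * ‖gco f z m‖ ^ 2)
    · intro i _; positivity
    · simp
  have h2 : ‖gco f z m‖ ^ 2 ≤ 1 := by
    have hm : (0 : ℝ) ≤ m := Nat.cast_nonneg m
    nlinarith [sq_nonneg ‖gco f z m‖]
  nlinarith [norm_nonneg (gco f z m)]

/-- Binomial inversion. -/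
lemma binom_inv (x a : ℕ → ℂ) (ρ : ℂ)
    (h : ∀ m, a m = ∑ n ∈ Finset.range (m + 1), (m.choose n : ℂ) * (-ρ) ^ (m - n) * x n) (m : ℕ) :
    x m = ∑ n ∈ Finset.range (m + 1), (m.choose n : ℂ) * ρ ^ (m - n) * a n := by
  set L : Polynomial ℂ →ₗ[ℂ] ℂ := Polynomial.lsum (fun n => LinearMap.toSpanSingleton ℂ ℂ (x n))
    with hL
  have hLX : ∀ n, L (Polynomial.X ^ n) = x n := by
    intro n
    rw [hL, Polynomial.lsum_apply, ← Polynomial.monomial_one_right_eq_X_pow,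
      Polynomial.sum_monomial_index]
    · simp
    · simp
  have hLa : ∀ n, L ((Polynomial.X - Polynomial.C ρ) ^ n) = a n := by
    intro n
    rw [h n, sub_eq_add_neg, add_pow, map_sum]
    apply Finset.sum_congr rfl
    intro k _
    rw [← Polynomial.C_neg, ← Polynomial.C_pow,
      show Polynomial.X ^ k * Polynomial.C ((-ρ) ^ (n - k)) * ((n.choose k : ℕ) : Polynomial ℂ) =
        ((-ρ) ^ (n - k) * (n.choose k : ℂ)) • (Polynomial.X ^ k) by
          rw [Polynomial.smul_eq_C_mul, Polynomial.C_mul]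
          simp
          ring]
    rw [map_smul, hLX, smul_eq_mul]
    ring
  have e : (Polynomial.X : Polynomial ℂ) ^ m =
      ((Polynomial.X - Polynomial.C ρ) + Polynomial.C ρ) ^ m := by
    rw [sub_add_cancel]
  rw [← hLX m, e, add_pow, map_sum]
  apply Finset.sum_congr rfl
  intro k _
  rw [← Polynomial.C_pow,
      show (Polynomial.X - Polynomial.C ρ) ^ k * Polynomial.C (ρ ^ (m - k)) *
        ((m.choose k : ℕ) : Polynomial ℂ) =
        (ρ ^ (m - k) * (m.choose k : ℂ)) • ((Polynomial.X - Polynomial.C ρ) ^ k) by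
          rw [Polynomial.smul_eq_C_mul, Polynomial.C_mul]
          simp
          ring]
  rw [map_smul, hLa, smul_eq_mul]
  ring

theorem norm_X_succ_le (hf : Univ f) (hz : z ∈ ball (0 : ℂ) 1) (m : ℕ) :
    ‖X f (m + 1) z‖ ≤ 2 ^ m := by
  rw [binom_inv (fun n => X f (n + 1) z) (gco f z) (((‖z‖ ^ 2 : ℝ) : ℂ)) (fun m => rfl) m]
  refine le_trans (norm_sum_le _ _) ?_
  have hρ : ‖((‖z‖ ^ 2 : ℝ) : ℂ)‖ ≤ 1 := by
    rw [Complex.norm_real, Real.norm_eq_abs, abs_of_nonneg (by positivity)]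
    rw [mem_ball_zero_iff] at hz
    exact pow_le_one₀ (norm_nonneg z) hz.le
  calc ∑ n ∈ Finset.range (m + 1), ‖(m.choose n : ℂ) * (((‖z‖ ^ 2 : ℝ) : ℂ)) ^ (m - n) * gco f z n‖
      ≤ ∑ n ∈ Finset.range (m + 1), (m.choose n : ℝ) := by
        apply Finset.sum_le_sum
        intro n _
        rw [norm_mul, norm_mul, norm_pow, Complex.norm_natCast]
        have h1 := pow_le_one₀ (n := m - n) (norm_nonneg _) hρ
        have h2 := norm_gco_le hf hz n
        have h3 : (0 : ℝ) ≤ (m.choose n : ℝ) := Nat.cast_nonneg _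
        calc (m.choose n : ℝ) * ‖((‖z‖ ^ 2 : ℝ) : ℂ)‖ ^ (m - n) * ‖gco f z n‖
            ≤ (m.choose n : ℝ) * 1 * 1 := by gcongr
          _ = (m.choose n : ℝ) := by ring
    _ = 2 ^ m := by
        have := Nat.sum_range_choose m
        exact_mod_cast this

end

end Vale.Agent.P142
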