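import Vale.Agent.P142.JetsDeriv

open Complex MeasureTheory Metric Set Filter Topology intervalIntegral
open scoped Real ComplexConjugate

namespace Vale.Agent.P142

noncomputable section

variable {f : ℂ → ℂ}

/-- The weight `|f'| ^ t`. -/
def wgt (f : ℂ → ℂ) (t : ℝ) (z : ℂ) : ℂ := ((‖deriv f z‖ ^ t : ℝ) : ℂ)

/-- Weighted circle integral. -/
def wInt (f : ℂ → ℂ) (t : ℝ) (H : ℂ → ℂ) (r : ℝ) : ℂ :=
  ∫ θ in (-π)..π, H (circleMap 0 r θ) * wgt f t (circleMap 0 r θ)

lemma continuousOn_deriv (hf : DifferentiableOn ℂ f (ball 0 1)) :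
    ContinuousOn (deriv f) (ball 0 1) := (hf.deriv isOpen_ball).continuousOn

lemma continuousOn_wgt (hf : DifferentiableOn ℂ f (ball 0 1))
    (hd : ∀ z ∈ ball (0 : ℂ) 1, deriv f z ≠ 0) (t : ℝ) : ContinuousOn (wgt f t) (ball 0 1) := by
  unfold wgt
  apply continuous_ofReal.comp_continuousOn
  apply ContinuousOn.rpow_const (continuousOn_deriv hf).norm
  intro z hz
  exact Or.inl (norm_ne_zero_iff.mpr (hd z hz))

lemma wgt_eq_cpow (f : ℂ → ℂ) (t : ℝ) (z : ℂ) :
    wgt f t z = (deriv f z * conj (deriv f z)) ^ ((t / 2 : ℝ) : ℂ) := by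
  rw [mul_conj, ← ofReal_cpow (normSq_nonneg _), normSq_eq_norm_sq, wgt,
    ← Real.rpow_natCast, ← Real.rpow_mul (norm_nonneg _)]
  congr 2
  push_cast
  ring

lemma hasW_wgt (hf : DifferentiableOn ℂ f (ball 0 1)) (t : ℝ) {z : ℂ} (hz : z ∈ ball (0 : ℂ) 1)
    (hd : deriv f z ≠ 0) :
    HasW (wgt f t) ((t / 2 : ℝ) * (deriv (deriv f) z / deriv f z) * wgt f t z)
      ((t / 2 : ℝ) * conj (deriv (deriv f) z / deriv f z) * wgt f t z) z := by
  have h1 : HasDerivAt (deriv f) (deriv (deriv f) z) z :=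
    ((hf.deriv isOpen_ball).differentiableAt (isOpen_ball.mem_nhds hz)).hasDerivAt
  have h2 := HasW.of_hasDerivAt h1
  have h3 := h2.mul h2.conj
  have hn : deriv f z * conj (deriv f z) = ((normSq (deriv f z) : ℝ) : ℂ) := mul_conj _
  have hpos : 0 < normSq (deriv f z) := normSq_pos.mpr hd
  have hslit : deriv f z * conj (deriv f z) ∈ slitPlane := by
    rw [hn, ofReal_mem_slitPlane]
    exact hpos
  have h4 : HasDerivAt (fun w : ℂ => w ^ ((t / 2 : ℝ) : ℂ))
      (((t / 2 : ℝ) : ℂ) * (deriv f z * conj (deriv f z)) ^ (((t / 2 : ℝ) : ℂ) - 1) * 1)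
      (deriv f z * conj (deriv f z)) := (hasDerivAt_id _).cpow_const hslit
  have h5 := HasW.comp (H := fun z => deriv f z * conj (deriv f z)) h4 h3
  have hfun : (fun z => (deriv f z * conj (deriv f z)) ^ ((t / 2 : ℝ) : ℂ)) = wgt f t := by
    ext w; exact (wgt_eq_cpow f t w).symm
  rw [hfun] at h5
  have hne : deriv f z * conj (deriv f z) ≠ 0 := slitPlane_ne_zero hslit
  have hcd : conj (deriv f z) ≠ 0 := (map_ne_zero _).mpr hd
  have hp : (deriv f z * conj (deriv f z)) ^ (((t / 2 : ℝ) : ℂ) - 1) =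
      wgt f t z / (deriv f z * conj (deriv f z)) := by
    rw [cpow_sub _ _ hne, cpow_one, wgt_eq_cpow]
  refine h5.congr_coeff ?_ ?_
  · rw [hp, map_zero]
    field_simp
    ring
  · rw [hp, map_div₀]
    field_simp
    ring

/-- Radial derivative of the weighted means. -/
theorem means_deriv (hf : DifferentiableOn ℂ f (ball 0 1))
    (hd : ∀ z ∈ ball (0 : ℂ) 1, deriv f z ≠ 0) (t : ℝ) {A B : ℂ → ℂ}
    (hA : DifferentiableOn ℂ A (ball 0 1)) (hB : DifferentiableOn ℂ B (ball 0 1))
    {r : ℝ} (hr0 : 0 < r) (hr1 : r < 1) :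
    HasDerivAt (wInt f t (fun z => A z * conj (B z)))
      ((2 / r) * wInt f t (fun z => z * (deriv A z + (t / 2 : ℝ) *
        (deriv (deriv f) z / deriv f z) * A z) * conj (B z)) r) r := by
  have hf' := hf.deriv isOpen_ball
  have hf'' := hf'.deriv isOpen_ball
  have hA' := hA.deriv isOpen_ball
  have hB' := hB.deriv isOpen_ball
  have hq : ContinuousOn (fun z => deriv (deriv f) z / deriv f z) (ball 0 1) :=
    hf''.continuousOn.div hf'.continuousOn hd
  have hw := continuousOn_wgt hf hd t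
  have hH : ∀ z ∈ ball (0 : ℂ) 1, HasW (fun z => A z * conj (B z) * wgt f t z)
      ((deriv A z + (t / 2 : ℝ) * (deriv (deriv f) z / deriv f z) * A z) * conj (B z) * wgt f t z)
      (A z * conj (deriv B z) * wgt f t z + A z * conj (B z) *
        ((t / 2 : ℝ) * conj (deriv (deriv f) z / deriv f z) * wgt f t z)) z := by
    intro z hz
    have h1 := HasW.of_hasDerivAt (hA.differentiableAt (isOpen_ball.mem_nhds hz)).hasDerivAt
    have h2 := HasW.of_hasDerivAt (hB.differentiableAt (isOpen_ball.mem_nhds hz)).hasDerivAt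
    have h3 := (h1.mul h2.conj).mul (hasW_wgt hf t hz (hd z hz))
    refine h3.congr_coeff ?_ ?_
    · simp only [map_zero]; ring
    · simp only [zero_mul]; ring
  have hcc : ∀ {g : ℂ → ℂ}, ContinuousOn g (ball 0 1) →
      ContinuousOn (fun z => conj (g z)) (ball 0 1) := fun h =>
    Complex.continuous_conj.comp_continuousOn h
  have hac : ContinuousOn (fun z => (deriv A z + (t / 2 : ℝ) * (deriv (deriv f) z / deriv f z) *
      A z) * conj (B z) * wgt f t z) (ball 0 1) := by
    have := hcc hB.continuousOn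
    have := hA'.continuousOn
    have := hA.continuousOn
    fun_prop
  have hbc : ContinuousOn (fun z => A z * conj (deriv B z) * wgt f t z + A z * conj (B z) *
        ((t / 2 : ℝ) * conj (deriv (deriv f) z / deriv f z) * wgt f t z)) (ball 0 1) := by
    have := hcc hB.continuousOn
    have := hcc hB'.continuousOn
    have := hcc hq
    have := hA.continuousOn
    fun_prop
  obtain ⟨h1, h2⟩ := circle_integral_wirt hH hac hbc hr0 hr1
  rw [h2] at h1
  unfold wInt
  refine h1.congr_deriv ?_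
  congr 1
  apply intervalIntegral.integral_congr
  intro θ _
  ring

end

end Vale.Agent.P142
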