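import Vale.Agent.P142.KoebeBound
import Vale.Agent.P142.GoodPhi
import Vale.Agent.P142.Parseval

open Complex MeasureTheory Metric Set Filter Topology
open scoped Real ComplexConjugate ENNReal Nat

namespace Vale.Agent.P142

noncomputable section

variable {F f k : ℂ → ℂ} {z : ℂ}

/-! ### Logarithms of nonvanishing functions -/

/-- A holomorphic logarithm of a nonvanishing function on the disc. -/
lemma exists_logf (hk : DifferentiableOn ℂ k (ball 0 1))
    (hne : ∀ z ∈ ball (0 : ℂ) 1, k z ≠ 0) :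
    ∃ L : ℂ → ℂ, (∀ z ∈ ball (0 : ℂ) 1, HasDerivAt L (deriv k z / k z) z) ∧
      (∀ z ∈ ball (0 : ℂ) 1, k z = Complex.exp (L z)) ∧ L 0 = Complex.log (k 0) := by
  have hk' := hk.deriv isOpen_ball
  have hq : DifferentiableOn ℂ (fun z => deriv k z / k z) (ball 0 1) := hk'.fun_div hk hne
  obtain ⟨h, hh⟩ := hq.isExactOn_ball
  have h0 : (0 : ℂ) ∈ ball (0 : ℂ) 1 := mem_ball_self one_pos
  have hE : ∀ z ∈ ball (0 : ℂ) 1, HasDerivAt (fun z => k z * Complex.exp (-(h z))) 0 z := by
    intro z hz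
    have h1 : HasDerivAt k (deriv k z) z :=
      (hk.differentiableAt (isOpen_ball.mem_nhds hz)).hasDerivAt
    have h2 := h1.fun_mul ((hh z hz).fun_neg.cexp)
    refine h2.congr_deriv ?_
    have := hne z hz
    field_simp
    ring
  have hconst : ∀ z ∈ ball (0 : ℂ) 1, k z * Complex.exp (-(h z)) =
      k 0 * Complex.exp (-(h 0)) := by
    intro z hz
    exact (convex_ball (0 : ℂ) 1).is_const_of_fderivWithin_eq_zero
      (fun x hx => (hE x hx).differentiableAt.differentiableWithinAt)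
      (fun x hx => by
        rw [fderivWithin_eq_fderiv (isOpen_ball.uniqueDiffWithinAt hx)
          (hE x hx).differentiableAt]
        have := (hE x hx).hasFDerivAt.fderiv
        rw [this]
        ext
        simp) hz h0
  have hne0 := hne 0 h0
  refine ⟨fun z => Complex.log (k 0) + (h z - h 0), ?_, ?_, by simp⟩
  · intro z hz
    exact ((hh z hz).sub_const _).const_add _
  · intro z hz
    rw [Complex.exp_add, Complex.exp_log hne0, Complex.exp_sub]
    have h1 := hconst z hz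
    rw [Complex.exp_neg, Complex.exp_neg] at h1
    have e1 := Complex.exp_ne_zero (h z)
    have e2 := Complex.exp_ne_zero (h 0)
    field_simp at h1 ⊢
    linear_combination h1

/-! ### The second coefficient -/

/-- `|a₂| ≤ 2`, written for the function `R = ζ / F`. -/
theorem norm_tc_one_le_two (hF : DifferentiableOn ℂ F (ball 0 1)) (hinj : InjOn F (ball 0 1))
    (h0 : F 0 = 0) (h1 : deriv F 0 = 1) : ‖tc (Rfun F) 1‖ ≤ 2 := by
  have h00 : (0 : ℂ) ∈ ball (0 : ℂ) 1 := mem_ball_self one_pos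
  have hds := dslope_diff hF
  have hdne : ∀ z ∈ ball (0 : ℂ) 1, dslope F 0 z ≠ 0 := fun z hz => dslope_ne hinj h0 h1 hz
  obtain ⟨L, hL1, hL2, hL3⟩ := exists_logf hds hdne
  have hd0 : dslope F 0 0 = 1 := by rw [dslope_same, h1]
  rw [hd0, Complex.log_one] at hL3
  -- square root
  set s : ℂ → ℂ := fun z => Complex.exp (L z / 2) with hs
  have hsd : DifferentiableOn ℂ s (ball 0 1) := fun z hz =>
    ((hL1 z hz).div_const 2).cexp.differentiableAt.differentiableWithinAt
  have hs2 : ∀ z ∈ ball (0 : ℂ) 1, s z ^ 2 = dslope F 0 z := by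
    intro z hz
    rw [hL2 z hz, hs, ← Complex.exp_nat_mul]
    congr 1
    push_cast
    ring
  have hs0 : s 0 = 1 := by simp [hs, hL3]
  have hsne : ∀ z, s z ≠ 0 := fun z => Complex.exp_ne_zero _
  have hsq : ∀ z ∈ ball (0 : ℂ) 1, z ^ 2 ∈ ball (0 : ℂ) 1 := by
    intro z hz
    rw [mem_ball_zero_iff] at hz ⊢
    rw [norm_pow]
    have := norm_nonneg z
    nlinarith
  set g : ℂ → ℂ := fun z => z * s (z ^ 2) with hg
  have hsqd : DifferentiableOn ℂ (fun z => s (z ^ 2)) (ball 0 1) := by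
    intro z hz
    exact ((hsd.differentiableAt (isOpen_ball.mem_nhds (hsq z hz))).comp z
      (differentiableAt_pow 2)).differentiableWithinAt
  have hgd : DifferentiableOn ℂ g (ball 0 1) := differentiableOn_id.mul hsqd
  have hg2 : ∀ z ∈ ball (0 : ℂ) 1, g z ^ 2 = F (z ^ 2) := by
    intro z hz
    rw [hg]
    simp only
    rw [mul_pow, hs2 _ (hsq z hz), F_eq_mul_dslope h0 (z ^ 2)]
  have hg0 : g 0 = 0 := by simp [hg]
  have hginj : InjOn g (ball 0 1) := by
    intro a ha b hb hab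
    have h2 : F (a ^ 2) = F (b ^ 2) := by rw [← hg2 a ha, ← hg2 b hb, hab]
    have h3 := hinj (hsq a ha) (hsq b hb) h2
    rcases sq_eq_sq_iff_eq_or_eq_neg.mp h3 with h4 | h4
    · exact h4
    · subst h4
      simp only [hg, neg_sq] at hab
      have h5 : b * s (b ^ 2) = 0 := by linear_combination (-1 / 2 : ℂ) * hab
      rcases mul_eq_zero.mp h5 with h6 | h6
      · rw [h6, neg_zero]
      · exact absurd h6 (hsne _)
  have hgd0 : HasDerivAt g 1 0 := by
    have h2 := (hasDerivAt_id (0 : ℂ)).fun_mul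
      (hsqd.differentiableAt (isOpen_ball.mem_nhds h00)).hasDerivAt
    simp only [id, zero_mul, add_zero, one_mul] at h2
    rw [show (0 : ℂ) ^ 2 = 0 by norm_num, hs0] at h2
    exact h2
  have hA := area_theorem hgd hginj hg0 hgd0.deriv 1
  simp only [Finset.range_one, Finset.sum_singleton] at hA
  -- `v = 1 / s`
  set v : ℂ → ℂ := fun z => (s z)⁻¹ with hv
  have hvd : DifferentiableOn ℂ v (ball 0 1) := hsd.inv fun z _ => hsne z
  have hRg : ∀ z ∈ ball (0 : ℂ) 1, Rfun g z = v (z ^ 2) := by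
    intro z hz
    rw [Rfun, hv]
    simp only
    congr 1
    by_cases hz0 : z = 0
    · rw [hz0, dslope_same, hgd0.deriv]; simp [hs0]
    · rw [dslope_of_ne _ hz0, slope_def_field, hg0, hg]
      simp only
      field_simp
      ring
  have hRF : ∀ z ∈ ball (0 : ℂ) 1, Rfun F z = v z ^ 2 := by
    intro z hz
    rw [Rfun, hv]
    simp only
    rw [inv_pow, hs2 z hz]
  have hmem : ∀ᶠ z in 𝓝 (0 : ℂ), z ∈ ball (0 : ℂ) 1 := isOpen_ball.mem_nhds h00
  have hv0 : v 0 = 1 := by simp [hv, hs0]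
  have hvd0 := (hvd.differentiableAt (isOpen_ball.mem_nhds h00)).hasDerivAt
  have e1 : tc (Rfun F) 1 = 2 * deriv v 0 := by
    have h2 : Rfun F =ᶠ[𝓝 0] fun z => v z ^ 2 := by
      filter_upwards [hmem] with z hz using hRF z hz
    rw [tc, iteratedDeriv_one, h2.deriv_eq, (hvd0.fun_pow 2).deriv, hv0]
    simp
  have e2 : tc (Rfun g) 2 = deriv v 0 := by
    have h2 : deriv (Rfun g) =ᶠ[𝓝 0] fun z => deriv v (z ^ 2) * (2 * z) := by
      filter_upwards [isOpen_ball.mem_nhds h00] with z hz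
      have h3 : Rfun g =ᶠ[𝓝 z] fun z => v (z ^ 2) := by
        filter_upwards [isOpen_ball.mem_nhds hz] with y hy using hRg y hy
      rw [h3.deriv_eq]
      have h4 := (hvd.differentiableAt (isOpen_ball.mem_nhds (hsq z hz))).hasDerivAt
      have h5 := h4.comp z (hasDerivAt_pow 2 z)
      have h6 := h5.deriv
      simp only [Function.comp_def] at h6
      rw [h6]
      push_cast
      ring
    rw [tc, iteratedDeriv_succ, iteratedDeriv_one, h2.deriv_eq]
    have hv' := hvd.deriv isOpen_ball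
    have h4 : DifferentiableAt ℂ (fun z => deriv v (z ^ 2)) 0 := by
      have h5 : DifferentiableAt ℂ (deriv v) ((0 : ℂ) ^ 2) := by
        rw [show (0 : ℂ) ^ 2 = 0 by norm_num]
        exact hv'.differentiableAt (isOpen_ball.mem_nhds h00)
      exact h5.comp (0 : ℂ) (differentiableAt_pow 2)
    have h7 : HasDerivAt (fun z : ℂ => 2 * z) 2 0 := by
      simpa using (hasDerivAt_id (0 : ℂ)).const_mul 2
    have h6 := (h4.hasDerivAt.fun_mul h7).deriv
    rw [h6]
    simp only [mul_zero, zero_add]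
    rw [show (0 : ℂ) ^ 2 = 0 by norm_num]
    have : ((2 ! : ℕ) : ℂ) = 2 := by norm_num [Nat.factorial]
    rw [this]
    ring
  rw [e1, norm_mul]
  have h3 : ‖deriv v 0‖ ≤ 1 := by
    rw [← e2]
    have h4 : ‖tc (Rfun g) (0 + 2)‖ ^ 2 ≤ 1 := by simpa using hA
    have h5 := norm_nonneg (tc (Rfun g) (0 + 2))
    have h6 : ‖tc (Rfun g) (0 + 2)‖ ≤ 1 := by nlinarith
    simpa using h6
  simp only [Complex.norm_ofNat]
  linarith

/-- Koebe quarter theorem: omitted values have modulus at least `1 / 4`. -/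
theorem quarter (hF : DifferentiableOn ℂ F (ball 0 1)) (hinj : InjOn F (ball 0 1))
    (h0 : F 0 = 0) (h1 : deriv F 0 = 1) {c : ℂ} (hc : ∀ z ∈ ball (0 : ℂ) 1, F z ≠ c) :
    1 ≤ 4 * ‖c‖ := by
  have h00 : (0 : ℂ) ∈ ball (0 : ℂ) 1 := mem_ball_self one_pos
  have hc0 : c ≠ 0 := fun h => hc 0 h00 (by rw [h0, h])
  have hcs : ∀ z ∈ ball (0 : ℂ) 1, c - F z ≠ 0 := fun z hz => sub_ne_zero.mpr (hc z hz).symm
  set G : ℂ → ℂ := fun z => c * F z / (c - F z) with hG
  have hGd : DifferentiableOn ℂ G (ball 0 1) :=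
    (hF.const_mul c).fun_div ((differentiableOn_const c).sub hF) hcs
  have hGinj : InjOn G (ball 0 1) := by
    intro a ha b hb hab
    apply hinj ha hb
    simp only [hG] at hab
    rw [div_eq_div_iff (hcs a ha) (hcs b hb)] at hab
    have h2 : c ^ 2 * (F a - F b) = 0 := by linear_combination hab
    rcases mul_eq_zero.mp h2 with h3 | h3
    · exact absurd (pow_eq_zero_iff (two_ne_zero)|>.mp h3) hc0
    · exact sub_eq_zero.mp h3
  have hG0 : G 0 = 0 := by simp [hG, h0]
  have hFd0 : HasDerivAt F 1 0 := by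
    rw [← h1]; exact (hF.differentiableAt (isOpen_ball.mem_nhds h00)).hasDerivAt
  have hGd0 : HasDerivAt G 1 0 := by
    have h2 := (hFd0.const_mul c).fun_div (hFd0.const_sub c) (hcs 0 h00)
    refine h2.congr_deriv ?_
    rw [h0]
    field_simp
    ring
  have b1 := norm_tc_one_le_two hF hinj h0 h1
  have b2 := norm_tc_one_le_two hGd hGinj hG0 hGd0.deriv
  have hR : ∀ z ∈ ball (0 : ℂ) 1, Rfun G z = Rfun F z - z / c := by
    intro z hz
    by_cases hz0 : z = 0
    · rw [hz0, Rfun, Rfun, dslope_same, dslope_same, hGd0.deriv, h1]; simp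
    · rw [Rfun, Rfun, dslope_of_ne _ hz0, dslope_of_ne _ hz0, slope_def_field, slope_def_field,
        hG0, h0, hG]
      simp only
      have hFz : F z ≠ 0 := by
        intro h
        exact hz0 (hinj hz h00 (by rw [h, h0]))
      have := hcs z hz
      simp only [sub_zero]
      field_simp
  have hRFd := (Rfun_diff hF hinj h0 h1).differentiableAt (isOpen_ball.mem_nhds h00)
  have e1 : tc (Rfun G) 1 = tc (Rfun F) 1 - 1 / c := by
    have h2 : Rfun G =ᶠ[𝓝 0] fun z => Rfun F z - z / c := by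
      filter_upwards [isOpen_ball.mem_nhds h00] with z hz using hR z hz
    rw [tc, tc, iteratedDeriv_one, iteratedDeriv_one, h2.deriv_eq,
      (hRFd.hasDerivAt.fun_sub ((hasDerivAt_id' (0 : ℂ)).div_const c)).deriv]
    simp
  have h3 : ‖1 / c‖ ≤ 4 := by
    have e2 : 1 / c = tc (Rfun F) 1 - tc (Rfun G) 1 := by rw [e1]; ring
    rw [e2]
    exact le_trans (norm_sub_le _ _) (by linarith)
  rw [norm_div, norm_one, div_le_iff₀ (norm_pos_iff.mpr hc0)] at h3
  exact h3

/-- For nonvanishing univalent `k`: `(1 - |z| ^ 2) |k'| ≤ 4 |k|`. -/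
theorem nonvanish_bound (hk : Univ k) (hne : ∀ z ∈ ball (0 : ℂ) 1, k z ≠ 0)
    (hz : z ∈ ball (0 : ℂ) 1) : (1 - ‖z‖ ^ 2) * ‖deriv k z‖ ≤ 4 * ‖k z‖ := by
  have hT := koebeT_univ hk hz
  have hu := unit_pos hz
  have hd := univ_deriv_ne_zero hk hz
  have hden : ((1 - ‖z‖ ^ 2 : ℝ) : ℂ) * deriv k z ≠ 0 :=
    mul_ne_zero (by exact_mod_cast hu.ne') hd
  have h := quarter hT.1 hT.2 (koebeT_zero k z) (koebeT_deriv hk hz)
    (c := -(k z) / (((1 - ‖z‖ ^ 2 : ℝ) : ℂ) * deriv k z)) (fun ζ hζ => by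
      rw [koebeT]
      intro h
      rw [div_left_inj' hden] at h
      have h2 : k ((ζ + z) / (1 + conj z * ζ)) = 0 := by linear_combination h
      exact hne _ (mob_mem hz hζ) h2)
  rw [norm_div, norm_neg, norm_mul, Complex.norm_real, Real.norm_eq_abs, abs_of_pos hu,
    ← mul_div_assoc, le_div_iff₀ (mul_pos hu (norm_pos_iff.mpr hd)), one_mul] at h
  exact h

/-- Growth of nonvanishing univalent functions. -/
theorem growth (hk : Univ k) (hne : ∀ z ∈ ball (0 : ℂ) 1, k z ≠ 0)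
    (hz : z ∈ ball (0 : ℂ) 1) : ‖k z‖ ≤ ‖k 0‖ * (4 * (1 - ‖z‖) ^ (-2 : ℝ)) := by
  obtain ⟨L, hL1, hL2, hL3⟩ := exists_logf hk.1 hne
  have h00 : (0 : ℂ) ∈ ball (0 : ℂ) 1 := mem_ball_self one_pos
  rw [mem_ball_zero_iff] at hz
  by_cases hz0 : z = 0
  · rw [hz0, norm_zero, sub_zero, Real.one_rpow]
    linarith [norm_nonneg (k 0)]
  have hzn : 0 < ‖z‖ := norm_pos_iff.mpr hz0
  set r : ℝ := ‖z‖ with hr
  -- along the segment
  have hmem : ∀ x ∈ Icc (0 : ℝ) 1, (x : ℂ) * z ∈ ball (0 : ℂ) 1 := by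
    intro x hx
    rw [mem_ball_zero_iff, norm_mul, Complex.norm_real, Real.norm_eq_abs, abs_of_nonneg hx.1]
    nlinarith [hx.1, hx.2]
  have hnorm : ∀ x ∈ Icc (0 : ℝ) 1, ‖(x : ℂ) * z‖ = x * r := by
    intro x hx
    rw [norm_mul, Complex.norm_real, Real.norm_eq_abs, abs_of_nonneg hx.1]
  have hder : ∀ x ∈ Icc (0 : ℝ) 1, HasDerivAt (fun x : ℝ => L ((x : ℂ) * z) - L 0)
      (deriv k ((x : ℂ) * z) / k ((x : ℂ) * z) * z) x := by
    intro x hx
    have h1 := hL1 _ (hmem x hx)
    have h2 : HasDerivAt (fun x : ℝ => (x : ℂ) * z) z x := by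
      simpa using (Complex.ofRealCLM.hasDerivAt (x := x)).mul_const z
    exact (h1.comp_of_eq x h2 rfl).sub_const (L 0)
  have hBd : ∀ x ∈ Icc (0 : ℝ) 1, HasDerivAt
      (fun x : ℝ => 2 * (Real.log (1 + x * r) - Real.log (1 - x * r)))
      (4 * r / (1 - (x * r) ^ 2)) x := by
    intro x hx
    have hxr : x * r < 1 := by nlinarith [hx.1, hx.2]
    have hxr0 : 0 ≤ x * r := mul_nonneg hx.1 hzn.le
    have p1 : (1 + x * r) ≠ 0 := by positivity
    have p2 : (1 - x * r) ≠ 0 := by linarith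
    have h1 : HasDerivAt (fun x : ℝ => 1 + x * r) r x := by
      simpa using ((hasDerivAt_id x).mul_const r).const_add 1
    have h2 : HasDerivAt (fun x : ℝ => 1 - x * r) (-r) x := by
      simpa using ((hasDerivAt_id x).mul_const r).const_sub 1
    refine (((h1.log p1).fun_sub (h2.log p2)).const_mul 2).congr_deriv ?_
    have p3 : 1 - (x * r) ^ 2 = (1 + x * r) * (1 - x * r) := by ring
    rw [p3, div_sub_div _ _ p1 p2, ← mul_div_assoc]
    congr 1
    ring
  have key := image_norm_le_of_norm_deriv_right_le_deriv_boundary'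
    (f := fun x : ℝ => L ((x : ℂ) * z) - L 0)
    (f' := fun x : ℝ => deriv k ((x : ℂ) * z) / k ((x : ℂ) * z) * z)
    (a := 0) (b := 1)
    (fun x hx => (hder x hx).continuousAt.continuousWithinAt)
    (fun x hx => (hder x ⟨hx.1, hx.2.le⟩).hasDerivWithinAt)
    (B := fun x : ℝ => 2 * (Real.log (1 + x * r) - Real.log (1 - x * r)))
    (B' := fun x : ℝ => 4 * r / (1 - (x * r) ^ 2))
    (by simp)
    (fun x hx => (hBd x hx).continuousAt.continuousWithinAt)
    (fun x hx => (hBd x ⟨hx.1, hx.2.le⟩).hasDerivWithinAt)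
    (fun x hx => by
      have hx' : x ∈ Icc (0 : ℝ) 1 := ⟨hx.1, hx.2.le⟩
      have h1 := nonvanish_bound hk hne (hmem x hx')
      rw [hnorm x hx'] at h1
      have hxr : x * r < 1 := by nlinarith [hx.1, hx.2]
      have hxr0 : 0 ≤ x * r := mul_nonneg hx.1 hzn.le
      have p3 : 0 < 1 - (x * r) ^ 2 := by nlinarith
      have hkp : 0 < ‖k ((x : ℂ) * z)‖ := norm_pos_iff.mpr (hne _ (hmem x hx'))
      rw [norm_mul, norm_div, ← hr, div_mul_eq_mul_div, div_le_div_iff₀ hkp p3]
      nlinarith)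
    (right_mem_Icc.mpr zero_le_one)
  simp only [ofReal_one, one_mul] at key
  have e1 : ‖k z‖ = ‖k 0‖ * Real.exp ((L z - L 0).re) := by
    rw [hL2 z (mem_ball_zero_iff.mpr hz), hL2 0 h00, Complex.norm_exp, Complex.norm_exp,
      ← Real.exp_add, sub_re]
    congr 1
    ring
  rw [e1]
  apply mul_le_mul_of_nonneg_left _ (norm_nonneg _)
  have h2 : (L z - L 0).re ≤ 2 * (Real.log (1 + r) - Real.log (1 - r)) :=
    le_trans (Complex.re_le_norm _) key
  have hr1 : 0 < 1 - r := by linarith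
  calc Real.exp ((L z - L 0).re) ≤ Real.exp (2 * (Real.log (1 + r) - Real.log (1 - r))) :=
        Real.exp_le_exp.mpr h2
    _ = (1 + r) ^ 2 * (1 - r) ^ (-2 : ℝ) := by
        rw [mul_sub, Real.exp_sub, Real.rpow_neg hr1.le, ← div_eq_mul_inv]
        congr 1
        · rw [mul_comm, Real.exp_mul, Real.exp_log (by linarith), Real.rpow_two]
        · rw [mul_comm, Real.exp_mul, Real.exp_log hr1]
    _ ≤ 4 * (1 - r) ^ (-2 : ℝ) := by
        apply mul_le_mul_of_nonneg_right _ (Real.rpow_nonneg hr1.le _)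
        nlinarith

/-- A univalent function on the disc omits a value. -/
theorem exists_omitted (hf : Univ f) : ∃ c : ℂ, ∀ z ∈ ball (0 : ℂ) 1, f z ≠ c := by
  by_contra hcon
  push Not at hcon
  have hsurj : SurjOn f (ball 0 1) univ := fun c _ => by
    obtain ⟨z, hz, h⟩ := hcon c
    exact ⟨z, hz, h⟩
  have hbij : BijOn f (ball 0 1) univ := ⟨fun _ _ => mem_univ _, hf.2, hsurj⟩
  set g : ℂ → ℂ := Function.invFunOn f (ball 0 1) with hg
  have hinv : InvOn g f (ball 0 1) univ := hbij.invOn_invFunOn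
  have hbij' : BijOn g univ (ball 0 1) := (bijOn_comm hinv).mpr hbij
  have hder : ∀ w : ℂ, HasDerivAt g (deriv f (g w))⁻¹ w := by
    intro w
    have ha : g w ∈ ball (0 : ℂ) 1 := hbij'.mapsTo (mem_univ w)
    have hd : HasStrictDerivAt f (deriv f (g w)) (g w) :=
      (hf.1.analyticAt (isOpen_ball.mem_nhds ha)).hasStrictDerivAt
    have hne : deriv f (g w) ≠ 0 := univ_deriv_ne_zero hf ha
    have hev : ∀ᶠ x in 𝓝 (g w), g (f x) = x := by
      filter_upwards [isOpen_ball.mem_nhds ha] with x hx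
      exact hinv.1 hx
    have h1 := hd.to_local_left_inverse hne hev
    rw [hinv.2 (mem_univ w)] at h1
    exact h1.hasDerivAt
  have hdiff : Differentiable ℂ g := fun w => (hder w).differentiableAt
  have hb : Bornology.IsBounded (range g) := by
    apply isBounded_ball.subset
    rintro _ ⟨w, rfl⟩
    exact hbij'.mapsTo (mem_univ w)
  have h2 := hdiff.apply_eq_apply_of_bounded hb (0 : ℂ) 1
  exact zero_ne_one (hbij'.injOn (mem_univ _) (mem_univ _) h2)

end

end Vale.Agent.P142
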