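import Vale.Agent.P142.Jets

open Complex Metric Set Filter Topology
open scoped Real ComplexConjugate Nat

namespace Vale.Agent.P142

noncomputable section

/-- Taylor power series at `0`. -/
def PS (U : ℂ → ℂ) : PowerSeries ℂ := PowerSeries.mk (tc U)

lemma coeff_PS (U : ℂ → ℂ) (n : ℕ) : PowerSeries.coeff n (PS U) = tc U n := by simp [PS]

lemma PS_congr {U V : ℂ → ℂ} (h : U =ᶠ[𝓝 0] V) : PS U = PS V := by
  ext n
  rw [coeff_PS, coeff_PS, tc, tc, h.iteratedDeriv_eq n]

lemma PS_mul {U V : ℂ → ℂ} (hU : AnalyticAt ℂ U 0) (hV : AnalyticAt ℂ V 0) :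
    PS (fun z => U z * V z) = PS U * PS V := by
  ext n
  rw [coeff_PS, PowerSeries.coeff_mul, Finset.Nat.sum_antidiagonal_eq_sum_range_succ_mk, tc,
    iteratedDeriv_fun_mul hU.contDiffAt hV.contDiffAt, Finset.mul_sum]
  apply Finset.sum_congr rfl
  intro i hi
  rw [Finset.mem_range] at hi
  have hi' : i ≤ n := by omega
  rw [coeff_PS, coeff_PS, tc, tc]
  have h1 : ((n.choose i : ℕ) : ℂ) * ((i ! : ℕ) : ℂ) * (((n - i)! : ℕ) : ℂ) = ((n ! : ℕ) : ℂ) := by
    exact_mod_cast Nat.choose_mul_factorial_mul_factorial hi'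
  have h2 : ((n ! : ℕ) : ℂ) ≠ 0 := by exact_mod_cast Nat.factorial_ne_zero n
  have h3 : ((i ! : ℕ) : ℂ) ≠ 0 := by exact_mod_cast Nat.factorial_ne_zero i
  have h4 : (((n - i)! : ℕ) : ℂ) ≠ 0 := by exact_mod_cast Nat.factorial_ne_zero (n - i)
  have h5 : ((n.choose i : ℕ) : ℂ) ≠ 0 := by
    exact_mod_cast (Nat.choose_pos hi').ne'
  rw [← h1]
  field_simp

lemma PS_const (c : ℂ) : PS (fun _ => c) = PowerSeries.C c := by
  ext n
  rw [coeff_PS, tc, iteratedDeriv_const, PowerSeries.coeff_C]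
  split_ifs with h
  · subst h; simp
  · simp

lemma PS_id : PS (fun z => z) = PowerSeries.X := by
  ext n
  rw [coeff_PS, tc, iteratedDeriv_fun_id_zero, PowerSeries.coeff_X]
  split_ifs with h
  · subst h; simp
  · simp

lemma PS_add {U V : ℂ → ℂ} (hU : AnalyticAt ℂ U 0) (hV : AnalyticAt ℂ V 0) :
    PS (fun z => U z + V z) = PS U + PS V := by
  ext n
  rw [coeff_PS, map_add, tc, iteratedDeriv_fun_add hU.contDiffAt hV.contDiffAt,
    coeff_PS, coeff_PS, tc, tc]
  ring

lemma PS_pow {U : ℂ → ℂ} (hU : AnalyticAt ℂ U 0) (n : ℕ) :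
    PS (fun z => U z ^ n) = PS U ^ n := by
  induction n with
  | zero => simpa using PS_const 1
  | succ n ih =>
    simp only [pow_succ]
    rw [PS_mul (U := fun z => U z ^ n) (hU.fun_pow n) hU, ih]

lemma PS_sum {ι : Type*} (s : Finset ι) {U : ι → ℂ → ℂ} (hU : ∀ i ∈ s, AnalyticAt ℂ (U i) 0) :
    PS (fun z => ∑ i ∈ s, U i z) = ∑ i ∈ s, PS (U i) := by
  classical
  induction s using Finset.induction_on with
  | empty => simpa using PS_const 0
  | insert a s ha ih =>
    simp only [Finset.sum_insert ha]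
    rw [PS_add (hU a (Finset.mem_insert_self a s)), ih]
    · intro i hi; exact hU i (Finset.mem_insert_of_mem hi)
    · exact Finset.analyticAt_fun_sum _ (fun i hi => hU i (Finset.mem_insert_of_mem hi))

/-- Composition: coefficients of `G ∘ m` when `m 0 = 0`. -/
lemma coeff_PS_comp {G m : ℂ → ℂ} (hG : AnalyticAt ℂ G 0) (hm : AnalyticAt ℂ m 0)
    (hm0 : m 0 = 0) {N k : ℕ} (hk : k < N) (E : PowerSeries ℂ) :
    PowerSeries.coeff k (E * PS (fun z => G (m z))) =
      ∑ i ∈ Finset.range N, tc G i * PowerSeries.coeff k (E * PS m ^ i) := by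
  obtain ⟨Q, hQ, hQe⟩ := hG.exists_eq_sum_add_pow_mul N
  have hQm : AnalyticAt ℂ (fun z => Q (m z)) 0 := by
    have : AnalyticAt ℂ (Q ∘ m) 0 := AnalyticAt.comp (by rwa [hm0]) hm
    exact this
  have e : (fun z => G (m z)) = fun z => (∑ i ∈ Finset.range N, tc G i * m z ^ i) +
      m z ^ N * Q (m z) := by
    ext z
    rw [hQe (m z)]
    congr 1
    apply Finset.sum_congr rfl
    intro i _
    rw [tc, smul_eq_mul]
    ring
  have hX : PowerSeries.X ∣ PS m := by
    rw [PowerSeries.X_dvd_iff, ← PowerSeries.coeff_zero_eq_constantCoeff_apply, coeff_PS]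
    simp [tc, hm0]
  have hmp : ∀ i : ℕ, AnalyticAt ℂ (fun z => m z ^ i) 0 := fun i => hm.fun_pow i
  have hmc : ∀ i : ℕ, AnalyticAt ℂ (fun z => tc G i * m z ^ i) 0 := fun i =>
    analyticAt_const.fun_mul (hmp i)
  have hmQ : AnalyticAt ℂ (fun z => m z ^ N * Q (m z)) 0 := (hmp N).fun_mul hQm
  rw [e, PS_add (U := fun z => ∑ i ∈ Finset.range N, tc G i * m z ^ i)
    (Finset.analyticAt_fun_sum _ (fun i _ => hmc i)) hmQ,
    PS_sum (U := fun i z => tc G i * m z ^ i) _ (fun i _ => hmc i),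
    PS_mul (hmp N) hQm, PS_pow hm]
  rw [mul_add, map_add, Finset.mul_sum, map_sum]
  have h0 : PowerSeries.coeff k (E * (PS m ^ N * PS fun z => Q (m z))) = 0 := by
    have hd : PowerSeries.X ^ N ∣ E * (PS m ^ N * PS fun z => Q (m z)) :=
      Dvd.dvd.mul_left (Dvd.dvd.mul_right (pow_dvd_pow_of_dvd hX N) _) _
    exact PowerSeries.X_pow_dvd_iff.mp hd k hk
  rw [h0, add_zero]
  apply Finset.sum_congr rfl
  intro i _
  rw [PS_mul (U := fun _ => tc G i) analyticAt_const (hmp i), PS_const, PS_pow hm, mul_left_comm,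
    PowerSeries.coeff_C_mul]

/-- `(1 + c X) ^ (-(d+1))` as an explicit series. -/
lemma one_add_pow_inv (c : ℂ) (d : ℕ) :
    (PowerSeries.mk fun n => (-c) ^ n * ((d + n).choose d : ℂ)) *
      (1 + PowerSeries.C c * PowerSeries.X) ^ (d + 1) = 1 := by
  have h := congrArg (PowerSeries.rescale (-c))
    (PowerSeries.mk_add_choose_mul_one_sub_pow_eq_one (S := ℂ) (d := d))
  rw [map_mul, map_pow, map_sub, map_one, PowerSeries.rescale_X, PowerSeries.rescale_mk] at h
  have e : (1 : PowerSeries ℂ) + PowerSeries.C c * PowerSeries.X =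
      1 - PowerSeries.C (-c) * PowerSeries.X := by
    rw [map_neg]; ring
  rw [e]
  exact h

end

end Vale.Agent.P142
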